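import Mathlib

namespace Vale.Agent.P047

open Finset BigOperators

variable {n : ℕ}

/-- The sign of a bit. -/
def sg (b : Bool) : ℝ := if b then 1 else -1

@[simp] lemma sg_true : sg true = 1 := by simp [sg]
@[simp] lemma sg_false : sg false = -1 := by simp [sg]

lemma sg_mul_self (b : Bool) : sg b * sg b = 1 := by cases b <;> simp

/-- Walsh character. -/
def chi (S : Finset (Fin n)) (x : Fin n → Bool) : ℝ := ∏ i ∈ S, sg (x i)

/-- Fourier coefficient. -/
noncomputable def hat (f : (Fin n → Bool) → ℝ) (S : Finset (Fin n)) : ℝ :=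
  (∑ x, f x * chi S x) / 2 ^ n

lemma sum_chi_mul_chi (x y : Fin n → Bool) :
    ∑ S : Finset (Fin n), chi S x * chi S y = if x = y then (2:ℝ) ^ n else 0 := by
  have h : ∑ S : Finset (Fin n), chi S x * chi S y = ∏ i, (1 + sg (x i) * sg (y i)) := by
    rw [Finset.prod_one_add, Finset.powerset_univ]
    refine Finset.sum_congr rfl fun S _ => ?_
    simp [chi, Finset.prod_mul_distrib]
  rw [h]
  split_ifs with hxy
  · subst hxy
    have : ∀ i, (1 + sg (x i) * sg (x i)) = (2:ℝ) := by
      intro i; rw [sg_mul_self]; norm_num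
    simp [this]
  · obtain ⟨i, hi⟩ := Function.ne_iff.mp hxy
    apply Finset.prod_eq_zero (Finset.mem_univ i)
    cases hx : x i <;> cases hy : y i <;> simp_all

lemma inversion (f : (Fin n → Bool) → ℝ) (x : Fin n → Bool) :
    f x = ∑ S : Finset (Fin n), hat f S * chi S x := by
  have h2 : (2:ℝ) ^ n ≠ 0 := by positivity
  have : ∑ S : Finset (Fin n), hat f S * chi S x
      = (∑ y, f y * ∑ S : Finset (Fin n), chi S y * chi S x) / 2 ^ n := by
    simp only [hat, Finset.sum_div, Finset.mul_sum]
    rw [Finset.sum_comm]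
    refine Finset.sum_congr rfl fun S _ => ?_
    rw [Finset.sum_mul]
    refine Finset.sum_congr rfl fun y _ => ?_
    ring
  rw [this]
  simp only [sum_chi_mul_chi]
  simp only [mul_ite, mul_zero, Finset.sum_ite_eq', Finset.mem_univ, if_true]
  field_simp

/-- Biased basis functions. -/
def B (t : ℝ) (S : Finset (Fin n)) (x : Fin n → Bool) : ℝ := ∏ i ∈ S, (sg (x i) - t)

/-- Biased product weight. -/
noncomputable def w (t : ℝ) (x : Fin n → Bool) : ℝ := ∏ i, ((1 + t * sg (x i)) / 2)

lemma w_nonneg {t : ℝ} (h1 : -1 ≤ t) (h2 : t ≤ 1) (x : Fin n → Bool) : 0 ≤ w t x := by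
  apply Finset.prod_nonneg
  intro i _
  cases x i <;> simp <;> linarith

lemma w_pos {t : ℝ} (h1 : -1 < t) (h2 : t < 1) (x : Fin n → Bool) : 0 < w t x := by
  apply Finset.prod_pos
  intro i _
  cases x i <;> simp <;> linarith

lemma B_eq_prod (t : ℝ) (S : Finset (Fin n)) (x : Fin n → Bool) :
    B t S x = ∏ i, (if i ∈ S then sg (x i) - t else 1) := by
  rw [Finset.prod_ite_mem, Finset.univ_inter]; rfl

/-- Orthogonality of the biased basis. -/
lemma orth (t : ℝ) (S T : Finset (Fin n)) :
    ∑ x, w t x * (B t S x * B t T x) = if S = T then (1 - t ^ 2) ^ S.card else 0 := by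
  set h : Fin n → Bool → ℝ := fun i b =>
    ((1 + t * sg b) / 2) * ((if i ∈ S then sg b - t else 1) * (if i ∈ T then sg b - t else 1))
    with hh
  have key : ∑ x, w t x * (B t S x * B t T x) = ∏ i, ∑ b, h i b := by
    rw [Finset.prod_univ_sum, Fintype.piFinset_univ]
    refine Finset.sum_congr rfl fun x _ => ?_
    rw [B_eq_prod, B_eq_prod, w, ← Finset.prod_mul_distrib, ← Finset.prod_mul_distrib]
  rw [key]
  have fac : ∀ i, ∑ b, h i b = if i ∈ S then (if i ∈ T then 1 - t ^ 2 else 0)
      else (if i ∈ T then 0 else 1) := by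
    intro i
    simp only [hh, Fintype.sum_bool, sg_true, sg_false]
    by_cases h1 : i ∈ S <;> by_cases h2 : i ∈ T <;> simp [h1, h2] <;> ring
  simp only [fac]
  split_ifs with hST
  · subst hST
    have : ∀ i, (if i ∈ S then (if i ∈ S then 1 - t ^ 2 else 0) else (if i ∈ S then 0 else 1))
        = if i ∈ S then 1 - t ^ 2 else (1:ℝ) := by
      intro i; by_cases h1 : i ∈ S <;> simp [h1]
    simp only [this]
    rw [Finset.prod_ite_mem, Finset.univ_inter, Finset.prod_const]
  · have : ∃ i, (i ∈ S ∧ i ∉ T) ∨ (i ∉ S ∧ i ∈ T) := by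
      by_contra hcon
      push Not at hcon
      apply hST
      ext i
      have := hcon i
      tauto
    obtain ⟨i, hi⟩ := this
    apply Finset.prod_eq_zero (Finset.mem_univ i)
    rcases hi with ⟨h1, h2⟩ | ⟨h1, h2⟩ <;> simp [h1, h2]

lemma B_empty (t : ℝ) (x : Fin n → Bool) : B t ∅ x = 1 := by simp [B]

lemma sum_w (t : ℝ) : ∑ x : Fin n → Bool, w t x = 1 := by
  have := orth (n := n) t ∅ ∅
  simpa [B_empty] using this

lemma E_B (t : ℝ) (S : Finset (Fin n)) :
    ∑ x, w t x * B t S x = if S = ∅ then 1 else 0 := by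
  have := orth t S ∅
  simp only [B_empty, mul_one] at this
  rw [this]
  split_ifs with h
  · subst h; simp
  · rfl

/-- Expansion coefficients in the biased basis. -/
noncomputable def coeffB (f : (Fin n → Bool) → ℝ) (t : ℝ) (S : Finset (Fin n)) : ℝ :=
  ∑ U : Finset (Fin n), if S ⊆ U then hat f U * t ^ (U \ S).card else 0

lemma chi_expand (t : ℝ) (U : Finset (Fin n)) (x : Fin n → Bool) :
    chi U x = ∑ S : Finset (Fin n), if S ⊆ U then B t S x * t ^ (U \ S).card else 0 := by
  have h1 : chi U x = ∏ i ∈ U, ((sg (x i) - t) + t) := by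
    simp [chi]
  rw [h1, Finset.prod_add]
  rw [← Finset.sum_filter]
  have : (Finset.univ.filter fun S : Finset (Fin n) => S ⊆ U) = U.powerset := by
    ext S; simp
  rw [this]
  refine Finset.sum_congr rfl fun S _ => ?_
  simp [B, Finset.prod_const]

lemma expand_B (f : (Fin n → Bool) → ℝ) (t : ℝ) (x : Fin n → Bool) :
    f x = ∑ S : Finset (Fin n), coeffB f t S * B t S x := by
  conv_lhs => rw [inversion f x]
  simp only [coeffB, Finset.sum_mul]
  rw [Finset.sum_comm]
  refine Finset.sum_congr rfl fun U _ => ?_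
  rw [chi_expand t U x, Finset.mul_sum]
  refine Finset.sum_congr rfl fun S _ => ?_
  split_ifs <;> ring

lemma coeffB_empty (f : (Fin n → Bool) → ℝ) (t : ℝ) :
    coeffB f t ∅ = ∑ U : Finset (Fin n), hat f U * t ^ U.card := by
  simp [coeffB]

lemma coeffB_eq_zero (f : (Fin n → Bool) → ℝ) (t : ℝ) (d : ℕ)
    (hdeg : ∀ S : Finset (Fin n), d < S.card → hat f S = 0)
    (S : Finset (Fin n)) (hS : d < S.card) : coeffB f t S = 0 := by
  apply Finset.sum_eq_zero
  intro U _
  split_ifs with h
  · rw [hdeg U (lt_of_lt_of_le hS (Finset.card_le_card h))]; ring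
  · rfl

lemma sum_coeffB_singleton (f : (Fin n → Bool) → ℝ) (t : ℝ) :
    ∑ i, coeffB f t {i} = ∑ U : Finset (Fin n), hat f U * ((U.card : ℝ) * t ^ (U.card - 1)) := by
  simp only [coeffB]
  rw [Finset.sum_comm]
  refine Finset.sum_congr rfl fun U _ => ?_
  have h : ∀ i : Fin n, (if ({i} : Finset (Fin n)) ⊆ U then hat f U * t ^ (U \ {i}).card else 0)
      = if i ∈ U then hat f U * t ^ (U.card - 1) else 0 := by
    intro i
    by_cases hi : i ∈ U
    · have : (U \ {i}).card = U.card - 1 := by
        rw [Finset.sdiff_singleton_eq_erase, Finset.card_erase_of_mem hi]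
      simp [hi, this]
    · simp [hi]
  simp only [h]
  rw [Finset.sum_ite_mem, Finset.univ_inter, Finset.sum_const]
  simp only [nsmul_eq_mul]
  ring

/-! ### The main spectral inequality -/

section Main

variable (f : (Fin n → Bool) → ℝ) (t : ℝ) (c : Finset (Fin n) → ℝ)

/-- Update-lemma for the biased basis. -/
lemma B_update_of_notMem (S : Finset (Fin n)) (i : Fin n) (hi : i ∉ S) (x : Fin n → Bool) (b : Bool) :
    B t S (Function.update x i b) = B t S x := by
  unfold B
  refine Finset.prod_congr rfl fun j hj => ?_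
  have : j ≠ i := fun h => hi (h ▸ hj)
  simp [Function.update_of_ne this]

lemma B_update_of_mem (S : Finset (Fin n)) (i : Fin n) (hi : i ∈ S) (x : Fin n → Bool) (b : Bool) :
    B t S (Function.update x i b) = (sg b - t) * B t (S.erase i) x := by
  unfold B
  rw [← Finset.mul_prod_erase S _ hi]
  congr 1
  · simp
  · refine Finset.prod_congr rfl fun j hj => ?_
    have : j ≠ i := Finset.ne_of_mem_erase hj
    simp [Function.update_of_ne this]

/-- The discrete derivative in the biased basis. -/
noncomputable def G (i : Fin n) (x : Fin n → Bool) : ℝ :=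
  ∑ S : Finset (Fin n), if i ∈ S then c S * B t (S.erase i) x else 0

lemma G_eq (hc : ∀ x, f x = ∑ S, c S * B t S x) (i : Fin n) (x : Fin n → Bool) :
    G t c i x = (f (Function.update x i true) - f (Function.update x i false)) / 2 := by
  rw [hc, hc, ← Finset.sum_sub_distrib, Finset.sum_div]
  unfold G
  refine Finset.sum_congr rfl fun S _ => ?_
  by_cases hi : i ∈ S
  · rw [B_update_of_mem t S i hi, B_update_of_mem t S i hi]
    simp only [hi, if_true, sg_true, sg_false]
    ring
  · rw [B_update_of_notMem t S i hi, B_update_of_notMem t S i hi]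
    simp [hi]

lemma G_le_sq (hf : ∀ x, f x = 1 ∨ f x = -1) (hc : ∀ x, f x = ∑ S, c S * B t S x)
    (i : Fin n) (x : Fin n → Bool) : G t c i x ≤ G t c i x * G t c i x := by
  rw [G_eq f t c hc]
  rcases hf (Function.update x i true) with h1 | h1 <;>
  rcases hf (Function.update x i false) with h2 | h2 <;>
  rw [h1, h2] <;> norm_num

lemma neg_G_le_sq (hf : ∀ x, f x = 1 ∨ f x = -1) (hc : ∀ x, f x = ∑ S, c S * B t S x)
    (i : Fin n) (x : Fin n → Bool) : - G t c i x ≤ G t c i x * G t c i x := by
  rw [G_eq f t c hc]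
  rcases hf (Function.update x i true) with h1 | h1 <;>
  rcases hf (Function.update x i false) with h2 | h2 <;>
  rw [h1, h2] <;> norm_num

lemma E_G (i : Fin n) : ∑ x, w t x * G t c i x = c {i} := by
  unfold G
  simp only [Finset.mul_sum]
  rw [Finset.sum_comm]
  have : ∀ S : Finset (Fin n), ∑ x, w t x * (if i ∈ S then c S * B t (S.erase i) x else 0)
      = if S = {i} then c S else 0 := by
    intro S
    by_cases hi : i ∈ S
    · have h1 : ∑ x, w t x * (if i ∈ S then c S * B t (S.erase i) x else 0)
          = c S * ∑ x, w t x * B t (S.erase i) x := by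
        rw [Finset.mul_sum]
        refine Finset.sum_congr rfl fun x _ => ?_
        simp only [hi, if_true]; ring
      rw [h1, E_B]
      have h2 : S.erase i = ∅ ↔ S = {i} := by
        constructor
        · intro h
          have := Finset.insert_erase hi
          rw [h] at this
          simpa using this.symm
        · intro h; subst h; simp
      by_cases h3 : S = {i}
      · have := h2.mpr h3
        simp [this, h3]
      · have : S.erase i ≠ ∅ := fun h => h3 (h2.mp h)
        simp [this, h3]
    · have : S ≠ {i} := by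
        rintro rfl; simp at hi
      simp [hi, this]
  simp only [this]
  simp

lemma E_G_sq (i : Fin n) :
    ∑ x, w t x * (G t c i x * G t c i x)
      = ∑ S : Finset (Fin n), if i ∈ S then c S ^ 2 * (1 - t ^ 2) ^ (S.card - 1) else 0 := by
  unfold G
  have h0 : ∀ x : Fin n → Bool,
      w t x * ((∑ S : Finset (Fin n), if i ∈ S then c S * B t (S.erase i) x else 0)
        * (∑ T : Finset (Fin n), if i ∈ T then c T * B t (T.erase i) x else 0))
      = ∑ S : Finset (Fin n), ∑ T : Finset (Fin n),
          (if i ∈ S ∧ i ∈ T then c S * c T * (w t x * (B t (S.erase i) x * B t (T.erase i) x))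
            else 0) := by
    intro x
    rw [Finset.sum_mul_sum, Finset.mul_sum]
    refine Finset.sum_congr rfl fun S _ => ?_
    rw [Finset.mul_sum]
    refine Finset.sum_congr rfl fun T _ => ?_
    by_cases h1 : i ∈ S <;> by_cases h2 : i ∈ T <;> simp [h1, h2]
    ring
  simp only [h0]
  rw [Finset.sum_comm]
  refine Finset.sum_congr rfl fun S _ => ?_
  rw [Finset.sum_comm]
  by_cases hi : i ∈ S
  · rw [Finset.sum_eq_single S]
    · simp only [hi, and_self, if_true]
      rw [← Finset.mul_sum, orth]
      simp only [if_true]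
      rw [Finset.card_erase_of_mem hi]
      ring
    · intro T _ hT
      by_cases hTi : i ∈ T
      · simp only [hi, hTi, and_self, if_true]
        rw [← Finset.mul_sum, orth]
        have : S.erase i ≠ T.erase i := by
          intro h
          apply hT
          have h1 := Finset.insert_erase hi
          have h2 := Finset.insert_erase hTi
          rw [← h2, ← h1, h]
        simp [this]
      · simp [hTi]
    · simp
  · simp [hi]

end Main

/-- Parseval for a Boolean function in the biased basis. -/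
lemma parseval (f : (Fin n → Bool) → ℝ) (t : ℝ) (c : Finset (Fin n) → ℝ)
    (hf : ∀ x, f x = 1 ∨ f x = -1) (hc : ∀ x, f x = ∑ S, c S * B t S x) :
    ∑ S : Finset (Fin n), c S ^ 2 * (1 - t ^ 2) ^ S.card = 1 := by
  have h1 : ∑ x, w t x * (f x * f x) = 1 := by
    have : ∀ x, w t x * (f x * f x) = w t x := by
      intro x
      rcases hf x with h | h <;> rw [h] <;> ring
    simp only [this]
    exact sum_w t
  have h2 : ∀ x : Fin n → Bool, w t x * (f x * f x)
      = ∑ S : Finset (Fin n), ∑ T : Finset (Fin n), c S * c T * (w t x * (B t S x * B t T x)) := by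
    intro x
    have hfx := hc x
    calc w t x * (f x * f x)
        = w t x * ((∑ S, c S * B t S x) * (∑ T, c T * B t T x)) := by rw [← hfx]
      _ = _ := by
        rw [Finset.sum_mul_sum, Finset.mul_sum]
        refine Finset.sum_congr rfl fun S _ => ?_
        rw [Finset.mul_sum]
        refine Finset.sum_congr rfl fun T _ => ?_
        ring
  have h3 : ∑ x, w t x * (f x * f x) = ∑ S : Finset (Fin n), c S ^ 2 * (1 - t ^ 2) ^ S.card := by
    simp only [h2]
    rw [Finset.sum_comm]
    refine Finset.sum_congr rfl fun S _ => ?_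
    rw [Finset.sum_comm]
    rw [Finset.sum_eq_single S]
    · rw [← Finset.mul_sum, orth]
      simp only [if_true]
      ring
    · intro T _ hT
      rw [← Finset.mul_sum, orth]
      have : S ≠ T := fun h => hT h.symm
      simp [this]
    · simp
  rw [← h3, h1]

/-- The spectral inequality: `(1 - t²) · ∑ c_{i} ≤ d · (1 - c_∅²)`. -/
lemma spectral_ineq (f : (Fin n → Bool) → ℝ) (t : ℝ) (h1 : -1 ≤ t) (h2 : t ≤ 1)
    (c : Finset (Fin n) → ℝ) (d : ℕ)
    (hf : ∀ x, f x = 1 ∨ f x = -1) (hc : ∀ x, f x = ∑ S, c S * B t S x)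
    (hdeg : ∀ S : Finset (Fin n), d < S.card → c S = 0) :
    (1 - t ^ 2) * ∑ i, c {i} ≤ d * (1 - c ∅ ^ 2) := by
  have hv : 0 ≤ 1 - t ^ 2 := by nlinarith
  have hi : ∀ i : Fin n, (1 - t ^ 2) * c {i} ≤
      ∑ S : Finset (Fin n), if i ∈ S then c S ^ 2 * (1 - t ^ 2) ^ S.card else 0 := by
    intro i
    have h3 : c {i} ≤ ∑ x, w t x * (G t c i x * G t c i x) := by
      rw [← E_G t c i]
      apply Finset.sum_le_sum
      intro x _
      exact mul_le_mul_of_nonneg_left (G_le_sq f t c hf hc i x) (w_nonneg h1 h2 x)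
    rw [E_G_sq] at h3
    calc (1 - t ^ 2) * c {i} ≤ (1 - t ^ 2) *
          ∑ S : Finset (Fin n), (if i ∈ S then c S ^ 2 * (1 - t ^ 2) ^ (S.card - 1) else 0) :=
            mul_le_mul_of_nonneg_left h3 hv
      _ = _ := by
          rw [Finset.mul_sum]
          refine Finset.sum_congr rfl fun S _ => ?_
          by_cases his : i ∈ S
          · have hcard : (1 - t ^ 2) ^ S.card = (1 - t ^ 2) ^ (S.card - 1) * (1 - t ^ 2) := by
              rw [← pow_succ, Nat.sub_add_cancel (Finset.card_pos.mpr ⟨i, his⟩)]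
            simp only [his, if_true]
            rw [hcard]
            ring
          · simp [his]
  have hP := parseval f t c hf hc
  calc (1 - t ^ 2) * ∑ i, c {i} = ∑ i, (1 - t ^ 2) * c {i} := by rw [Finset.mul_sum]
    _ ≤ ∑ i, ∑ S : Finset (Fin n), (if i ∈ S then c S ^ 2 * (1 - t ^ 2) ^ S.card else 0) :=
        Finset.sum_le_sum fun i _ => hi i
    _ = ∑ S : Finset (Fin n), (S.card : ℝ) * (c S ^ 2 * (1 - t ^ 2) ^ S.card) := by
        rw [Finset.sum_comm]
        refine Finset.sum_congr rfl fun S _ => ?_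
        rw [Finset.sum_ite_mem, Finset.univ_inter, Finset.sum_const, nsmul_eq_mul]
    _ ≤ ∑ S : Finset (Fin n), (if S = ∅ then 0 else (d : ℝ) * (c S ^ 2 * (1 - t ^ 2) ^ S.card)) := by
        apply Finset.sum_le_sum
        intro S _
        have hnn : 0 ≤ c S ^ 2 * (1 - t ^ 2) ^ S.card := by positivity
        by_cases hS : S = ∅
        · subst hS; simp
        · simp only [hS, if_false]
          by_cases hcard : d < S.card
          · rw [hdeg S hcard]; simp
          · push Not at hcard
            exact mul_le_mul_of_nonneg_right (by exact_mod_cast hcard) hnn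
    _ = d * (1 - c ∅ ^ 2) := by
        have : ∑ S : Finset (Fin n), (if S = ∅ then 0 else (d : ℝ) * (c S ^ 2 * (1 - t ^ 2) ^ S.card))
            = ∑ S : Finset (Fin n), ((d : ℝ) * (c S ^ 2 * (1 - t ^ 2) ^ S.card)
                - if S = ∅ then (d : ℝ) * c ∅ ^ 2 else 0) := by
          refine Finset.sum_congr rfl fun S _ => ?_
          by_cases hS : S = ∅
          · subst hS; simp
          · simp [hS]
        rw [this, Finset.sum_sub_distrib, ← Finset.mul_sum, hP]
        simp
        ring

/-- The value `c ∅` has square at most one, with strict inequality unless `f` is constant. -/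
lemma coeff_empty_sq_le (f : (Fin n → Bool) → ℝ) (t : ℝ) (h1 : -1 ≤ t) (h2 : t ≤ 1)
    (c : Finset (Fin n) → ℝ)
    (hf : ∀ x, f x = 1 ∨ f x = -1) (hc : ∀ x, f x = ∑ S, c S * B t S x) :
    c ∅ ^ 2 ≤ 1 := by
  have hP := parseval f t c hf hc
  have hv : 0 ≤ 1 - t ^ 2 := by nlinarith
  have : c ∅ ^ 2 * (1 - t ^ 2) ^ (∅ : Finset (Fin n)).card ≤
      ∑ S : Finset (Fin n), c S ^ 2 * (1 - t ^ 2) ^ S.card :=
    Finset.single_le_sum (f := fun S : Finset (Fin n) => c S ^ 2 * (1 - t ^ 2) ^ S.card)
      (fun S _ => by positivity) (Finset.mem_univ _)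
  rw [hP] at this
  simpa using this

lemma eq_const_of_sq_eq_one (f : (Fin n → Bool) → ℝ) (t : ℝ) (h1 : -1 < t) (h2 : t < 1)
    (c : Finset (Fin n) → ℝ)
    (hf : ∀ x, f x = 1 ∨ f x = -1) (hc : ∀ x, f x = ∑ S, c S * B t S x)
    (hone : c ∅ ^ 2 = 1) : ∀ x, f x = c ∅ := by
  have hP := parseval f t c hf hc
  have hv : 0 < 1 - t ^ 2 := by nlinarith
  have hS : ∀ S : Finset (Fin n), S ≠ ∅ → c S = 0 := by
    intro S hS
    have hsum : ∑ S ∈ (Finset.univ.erase (∅ : Finset (Fin n))), c S ^ 2 * (1 - t ^ 2) ^ S.card = 0 := by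
      have := Finset.add_sum_erase (Finset.univ) (fun S : Finset (Fin n) => c S ^ 2 * (1 - t ^ 2) ^ S.card)
        (Finset.mem_univ (∅ : Finset (Fin n)))
      rw [hP] at this
      simp only [Finset.card_empty, pow_zero, mul_one] at this
      linarith
    have := (Finset.sum_eq_zero_iff_of_nonneg (fun S _ => by positivity)).mp hsum S
      (Finset.mem_erase.mpr ⟨hS, Finset.mem_univ _⟩)
    have hne : (1 - t ^ 2) ^ S.card ≠ 0 := by positivity
    have h3 : c S ^ 2 = 0 := by
      rcases mul_eq_zero.mp this with h | h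
      · exact h
      · exact absurd h hne
    exact pow_eq_zero_iff (by norm_num) |>.mp h3
  intro x
  rw [hc x, Finset.sum_eq_single ∅]
  · rw [B_empty]; ring
  · intro S _ hSne
    rw [hS S hSne]; ring
  · simp

end Vale.Agent.P047
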