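import Mathlib

namespace Vale.Agent.P047

open Finset BigOperators Real

/-- Riesz nodes. -/
noncomputable def th (D k : ℕ) : ℝ := (2 * (k : ℝ) + 1) * π / (2 * (D : ℝ))

/-- Absolute values of the Riesz weights. -/
noncomputable def A (D k : ℕ) : ℝ := 1 / (4 * (D : ℝ) * sin (th D k / 2) ^ 2)

/-- Riesz weights. -/
noncomputable def lam (D k : ℕ) : ℝ := (-1) ^ k * A D k

lemma D_mul_th (D k : ℕ) (hD : 0 < D) : (D : ℝ) * th D k = k * π + π / 2 := by
  have : (D : ℝ) ≠ 0 := by positivity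
  unfold th
  field_simp

lemma sin_D_th (D k : ℕ) (hD : 0 < D) : sin ((D : ℝ) * th D k) = (-1) ^ k := by
  rw [D_mul_th D k hD, sin_add_pi_div_two, cos_nat_mul_pi]

lemma cos_D_th (D k : ℕ) (hD : 0 < D) : cos ((D : ℝ) * th D k) = 0 := by
  rw [D_mul_th D k hD, cos_add_pi_div_two, sin_nat_mul_pi]
  simp

lemma sin_half_th_pos (D k : ℕ) (hD : 0 < D) (hk : k < 2 * D) : 0 < sin (th D k / 2) := by
  apply sin_pos_of_pos_of_lt_pi
  · have : 0 < th D k := by unfold th; positivity
    linarith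
  · have hD' : (0:ℝ) < D := by exact_mod_cast hD
    have hk' : (k : ℝ) + 1 ≤ 2 * D := by exact_mod_cast hk
    have : th D k / 2 = ((2 * (k : ℝ) + 1) / (4 * D)) * π := by
      unfold th; field_simp; ring
    rw [this]
    have h1 : (2 * (k : ℝ) + 1) / (4 * D) < 1 := by
      rw [div_lt_one (by positivity)]
      linarith
    nlinarith [pi_pos]

lemma A_pos (D k : ℕ) (hD : 0 < D) (hk : k < 2 * D) : 0 < A D k := by
  unfold A
  have := sin_half_th_pos D k hD hk
  have hD' : (0:ℝ) < D := by exact_mod_cast hD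
  positivity

lemma four_sin_sq (x : ℝ) : 2 - 2 * cos x = 4 * sin (x / 2) ^ 2 := by
  have h := cos_two_mul (x / 2)
  rw [show 2 * (x / 2) = x by ring] at h
  have h2 := sin_sq_add_cos_sq (x / 2)
  rw [h]
  linear_combination (-4 : ℝ) * h2

/-- Telescoping sum of cosines at the nodes. -/
lemma sum_cos_th (D q : ℕ) (hD : 0 < D) (hq : 0 < q) (hq2 : q < 2 * D) :
    ∑ k ∈ range (2 * D), cos ((q : ℝ) * th D k) = 0 := by
  have hD' : (0:ℝ) < D := by exact_mod_cast hD
  set a : ℝ := (q : ℝ) * π / (2 * D) with ha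
  have hs : sin a ≠ 0 := by
    apply ne_of_gt
    apply sin_pos_of_pos_of_lt_pi
    · have : (0:ℝ) < q := by exact_mod_cast hq
      positivity
    · have hq' : (q : ℝ) < 2 * D := by exact_mod_cast hq2
      have : (q : ℝ) / (2 * D) < 1 := by
        rw [div_lt_one (by positivity)]; exact hq'
      have e : a = ((q : ℝ) / (2 * D)) * π := by rw [ha]; ring
      rw [e]
      nlinarith [pi_pos]
  have key : ∀ k : ℕ, 2 * sin a * cos ((q : ℝ) * th D k)
      = sin (((k + 1 : ℕ) : ℝ) * (2 * a)) - sin ((k : ℝ) * (2 * a)) := by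
    intro k
    have h1 : ((k + 1 : ℕ) : ℝ) * (2 * a) = (q : ℝ) * th D k + a := by
      rw [ha]; unfold th; push_cast; field_simp; ring
    have h2 : (k : ℝ) * (2 * a) = (q : ℝ) * th D k - a := by
      rw [ha]; unfold th; field_simp; ring
    rw [h1, h2, sin_add, sin_sub]
    ring
  have tel : 2 * sin a * ∑ k ∈ range (2 * D), cos ((q : ℝ) * th D k) = 0 := by
    rw [Finset.mul_sum]
    simp only [key]
    rw [Finset.sum_range_sub (fun k : ℕ => sin ((k : ℝ) * (2 * a)))]
    have h3 : ((2 * D : ℕ) : ℝ) * (2 * a) = (q : ℕ) * (2 * π) := by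
      rw [ha]; push_cast; field_simp
    simp only [Nat.cast_zero, zero_mul, sin_zero, sub_zero]
    rw [h3]
    have := sin_nat_mul_pi (q * 2)
    push_cast at this
    rw [show (q : ℝ) * (2 * π) = (q : ℝ) * 2 * π by ring]
    exact this
  have h2 : 2 * sin a ≠ 0 := mul_ne_zero two_ne_zero hs
  exact (mul_eq_zero.mp tel).resolve_left h2

/-- The alternating sum `∑ (-1)^k sin (m θ_k)`. -/
lemma sum_alt_sin_lt (D m : ℕ) (hD : 0 < D) (hm : m < D) :
    ∑ k ∈ range (2 * D), (-1 : ℝ) ^ k * sin ((m : ℝ) * th D k) = 0 := by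
  have h : ∀ k : ℕ, (-1 : ℝ) ^ k * sin ((m : ℝ) * th D k)
      = (cos (((D - m : ℕ) : ℝ) * th D k) - cos (((D + m : ℕ) : ℝ) * th D k)) / 2 := by
    intro k
    rw [← sin_D_th D k hD]
    have e1 : ((D - m : ℕ) : ℝ) = (D : ℝ) - m := by
      rw [Nat.cast_sub hm.le]
    have e2 : ((D + m : ℕ) : ℝ) = (D : ℝ) + m := by push_cast; ring
    rw [e1, e2, sub_mul, add_mul, cos_sub, cos_add]
    ring
  simp only [h]
  rw [← Finset.sum_div, Finset.sum_sub_distrib, sum_cos_th D (D - m) hD (by omega) (by omega),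
    sum_cos_th D (D + m) hD (by omega) (by omega)]
  simp

lemma sum_alt_sin_D (D : ℕ) (hD : 0 < D) :
    ∑ k ∈ range (2 * D), (-1 : ℝ) ^ k * sin ((D : ℝ) * th D k) = 2 * D := by
  have h : ∀ k : ℕ, (-1 : ℝ) ^ k * sin ((D : ℝ) * th D k) = 1 := by
    intro k
    rw [sin_D_th D k hD, ← pow_add, ← two_mul, pow_mul]
    simp
  simp only [h]
  simp

/-- First-level sums. -/
noncomputable def ss (D m : ℕ) : ℝ := ∑ k ∈ range (2 * D), lam D k * sin ((m : ℝ) * th D k)

lemma ss_rel (D m : ℕ) (hD : 0 < D) :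
    2 * ss D (m + 1) - ss D (m + 2) - ss D m
      = (1 / (D : ℝ)) * ∑ k ∈ range (2 * D), (-1 : ℝ) ^ k * sin (((m + 1 : ℕ) : ℝ) * th D k) := by
  have hD' : (0:ℝ) < D := by exact_mod_cast hD
  unfold ss
  rw [Finset.mul_sum, Finset.mul_sum, ← Finset.sum_sub_distrib, ← Finset.sum_sub_distrib]
  refine Finset.sum_congr rfl fun k hk => ?_
  have hk' : k < 2 * D := Finset.mem_range.mp hk
  have hs := sin_half_th_pos D k hD hk'
  have e1 : (((m + 2 : ℕ) : ℝ)) * th D k = ((m + 1 : ℕ) : ℝ) * th D k + th D k := by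
    push_cast; ring
  have e2 : ((m : ℝ)) * th D k = ((m + 1 : ℕ) : ℝ) * th D k - th D k := by
    push_cast; ring
  rw [e1, e2, sin_add, sin_sub]
  unfold lam A
  have h4 := four_sin_sq (th D k)
  have hne : sin (th D k / 2) ≠ 0 := ne_of_gt hs
  set y := sin (((m + 1 : ℕ) : ℝ) * th D k)
  set z := cos (((m + 1 : ℕ) : ℝ) * th D k)
  have : (-1 : ℝ) ^ k * (1 / (4 * (D : ℝ) * sin (th D k / 2) ^ 2)) * (2 * y - 2 * y * cos (th D k))
      = 1 / (D : ℝ) * ((-1 : ℝ) ^ k * y) := by
    have : 2 * y - 2 * y * cos (th D k) = y * (2 - 2 * cos (th D k)) := by ring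
    rw [this, h4]
    field_simp
  linear_combination this

lemma ss_zero (D : ℕ) : ss D 0 = 0 := by
  unfold ss; simp

lemma ss_top (D : ℕ) (hD : 0 < D) : ss D (D + 1) = ss D (D - 1) := by
  unfold ss
  refine Finset.sum_congr rfl fun k _ => ?_
  congr 1
  have e1 : ((D + 1 : ℕ) : ℝ) * th D k = (D : ℝ) * th D k + th D k := by push_cast; ring
  have e2 : ((D - 1 : ℕ) : ℝ) * th D k = (D : ℝ) * th D k - th D k := by
    rw [Nat.cast_sub hD]; push_cast; ring
  rw [e1, e2, sin_add, sin_sub, cos_D_th D k hD]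
  ring

lemma ss_diff_top (D : ℕ) (hD : 0 < D) : ss D D - ss D (D - 1) = 1 := by
  have hD' : (0:ℝ) < D := by exact_mod_cast hD
  obtain ⟨m, rfl⟩ : ∃ m, D = m + 1 := ⟨D - 1, by omega⟩
  have h := ss_rel (m + 1) m hD
  rw [sum_alt_sin_D (m + 1) hD] at h
  have h2 := ss_top (m + 1) hD
  simp only [Nat.add_sub_cancel] at h2
  simp only [Nat.add_sub_cancel]
  have e : (m + 2) = (m + 1) + 1 := rfl
  rw [e, h2] at h
  have : (1 / ((m + 1 : ℕ) : ℝ)) * (2 * ((m + 1 : ℕ) : ℝ)) = 2 := by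
    field_simp
  rw [this] at h
  linarith

lemma ss_diff (D : ℕ) (hD : 0 < D) : ∀ j, j < D → ss D (D - j) - ss D (D - j - 1) = 1 := by
  intro j
  induction j with
  | zero =>
    intro _
    simpa using ss_diff_top D hD
  | succ j ih =>
    intro hj
    have ih' := ih (by omega)
    obtain ⟨m, hm⟩ : ∃ m, D - (j + 1) = m + 1 := ⟨D - (j + 1) - 1, by omega⟩
    have h := ss_rel D m hD
    rw [sum_alt_sin_lt D (m + 1) hD (by omega)] at h
    have e1 : D - j = m + 2 := by omega
    have e2 : m + 2 - 1 = m + 1 := by omega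
    rw [e1, e2] at ih'
    have e3 : D - (j + 1) - 1 = m := by omega
    rw [e3, hm]
    linarith

lemma ss_eq (D : ℕ) (hD : 0 < D) : ∀ m, m ≤ D → ss D m = m := by
  intro m
  induction m with
  | zero =>
    intro _
    simpa using ss_zero D
  | succ m ih =>
    intro hm
    have h := ss_diff D hD (D - (m + 1)) (by omega)
    have e1 : D - (D - (m + 1)) = m + 1 := by omega
    rw [e1] at h
    simp only [Nat.add_sub_cancel] at h
    rw [ih (by omega)] at h
    push_cast
    linarith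

/-- Reflection of nodes. -/
lemma th_reflect (D k : ℕ) (hD : 0 < D) (hk : k < 2 * D) :
    th D (2 * D - 1 - k) = 2 * π - th D k := by
  have hD' : (0:ℝ) < D := by exact_mod_cast hD
  have : ((2 * D - 1 - k : ℕ) : ℝ) = 2 * (D : ℝ) - 1 - k := by
    have h1 : 2 * D - 1 - k + (k + 1) = 2 * D := by omega
    have h2 : ((2 * D - 1 - k + (k + 1) : ℕ) : ℝ) = ((2 * D : ℕ) : ℝ) := by rw [h1]
    push_cast at h2
    linarith
  unfold th
  rw [this]
  field_simp
  ring

lemma A_reflect (D k : ℕ) (hD : 0 < D) (hk : k < 2 * D) :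
    A D (2 * D - 1 - k) = A D k := by
  unfold A
  rw [th_reflect D k hD hk]
  have : sin ((2 * π - th D k) / 2) = sin (th D k / 2) := by
    have e : (2 * π - th D k) / 2 = π - th D k / 2 := by ring
    rw [e, sin_pi_sub]
  rw [this]

lemma lam_reflect (D k : ℕ) (hD : 0 < D) (hk : k < 2 * D) :
    lam D (2 * D - 1 - k) = - lam D k := by
  unfold lam
  rw [A_reflect D k hD hk]
  have h : (-1 : ℝ) ^ (2 * D - 1 - k) = - (-1) ^ k := by
    have e : 2 * D - 1 - k + k + 1 = 2 * D := by omega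
    have h2 : (-1 : ℝ) ^ (2 * D - 1 - k + k + 1) = 1 := by
      rw [e, pow_mul]; simp
    have h3 : (-1 : ℝ) ^ (2 * D - 1 - k) * (-1) ^ k * (-1) = 1 := by
      rw [← pow_add, ← pow_succ]; exact h2
    have h4 : ((-1 : ℝ) ^ k) * ((-1 : ℝ) ^ k) = 1 := by
      rw [← pow_add, ← two_mul, pow_mul]; simp
    have h5 : (-1 : ℝ) ^ (2 * D - 1 - k) = (-1 : ℝ) ^ (2 * D - 1 - k) * (((-1 : ℝ) ^ k) * ((-1 : ℝ) ^ k)) := by
      rw [h4, mul_one]
    nlinarith
  rw [h]
  ring

lemma cc_zero (D m : ℕ) (hD : 0 < D) :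
    ∑ k ∈ range (2 * D), lam D k * cos ((m : ℝ) * th D k) = 0 := by
  have h := Finset.sum_range_reflect (fun k => lam D k * cos ((m : ℝ) * th D k)) (2 * D)
  have h2 : ∑ k ∈ range (2 * D), lam D (2 * D - 1 - k) * cos ((m : ℝ) * th D (2 * D - 1 - k))
      = - ∑ k ∈ range (2 * D), lam D k * cos ((m : ℝ) * th D k) := by
    rw [← Finset.sum_neg_distrib]
    refine Finset.sum_congr rfl fun k hk => ?_
    have hk' := Finset.mem_range.mp hk
    rw [lam_reflect D k hD hk', th_reflect D k hD hk']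
    have : cos ((m : ℝ) * (2 * π - th D k)) = cos ((m : ℝ) * th D k) := by
      have e : (m : ℝ) * (2 * π - th D k) = (m : ℝ) * (2 * π) - (m : ℝ) * th D k := by ring
      rw [e, cos_sub]
      have c1 : cos ((m : ℝ) * (2 * π)) = 1 := cos_nat_mul_two_pi m
      have s1 : sin ((m : ℝ) * (2 * π)) = 0 := by
        have := sin_nat_mul_pi (m * 2)
        push_cast at this
        rw [show (m : ℝ) * (2 * π) = (m : ℝ) * 2 * π by ring]
        exact this
      rw [c1, s1]; ring
    rw [this]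
    ring
  rw [h2] at h
  linarith

/-- The span of trigonometric functions of frequency at most `a`. -/
def W (a : ℕ) : Submodule ℝ (ℝ → ℝ) :=
  Submodule.span ℝ
    ({g | ∃ m : ℕ, m ≤ a ∧ g = fun θ => sin ((m : ℝ) * θ)} ∪
      {g | ∃ m : ℕ, m ≤ a ∧ g = fun θ => cos ((m : ℝ) * θ)})

lemma sin_mem_W {a m : ℕ} (h : m ≤ a) : (fun θ => sin ((m : ℝ) * θ)) ∈ W a :=
  Submodule.subset_span (Or.inl ⟨m, h, rfl⟩)

lemma cos_mem_W {a m : ℕ} (h : m ≤ a) : (fun θ => cos ((m : ℝ) * θ)) ∈ W a :=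
  Submodule.subset_span (Or.inr ⟨m, h, rfl⟩)

lemma W_mono {a b : ℕ} (h : a ≤ b) : W a ≤ W b := by
  apply Submodule.span_mono
  rintro g (⟨m, hm, rfl⟩ | ⟨m, hm, rfl⟩)
  · exact Or.inl ⟨m, hm.trans h, rfl⟩
  · exact Or.inr ⟨m, hm.trans h, rfl⟩

lemma sin_mul_mem_W {a : ℕ} {g : ℝ → ℝ} (hg : g ∈ W a) :
    (fun θ => sin θ * g θ) ∈ W (a + 1) := by
  induction hg using Submodule.span_induction with
  | mem g hg =>
    rcases hg with ⟨m, hm, rfl⟩ | ⟨m, hm, rfl⟩
    · cases m with
      | zero =>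
        simp only [Nat.cast_zero, zero_mul, sin_zero, mul_zero]
        exact Submodule.zero_mem _
      | succ m =>
        have e : (fun θ : ℝ => sin θ * sin (((m + 1 : ℕ) : ℝ) * θ))
            = (1 / 2 : ℝ) • (fun θ => cos ((m : ℝ) * θ)) + (-(1 / 2) : ℝ) • (fun θ => cos (((m + 2 : ℕ) : ℝ) * θ)) := by
          funext θ
          simp only [Pi.add_apply, Pi.smul_apply, smul_eq_mul]
          have e1 : ((m + 1 : ℕ) : ℝ) * θ = (m : ℝ) * θ + θ := by push_cast; ring
          have e2 : ((m + 2 : ℕ) : ℝ) * θ = (m : ℝ) * θ + 2 * θ := by push_cast; ring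
          rw [e1, e2, sin_add, cos_add, cos_two_mul, sin_two_mul]
          linear_combination (cos ((m : ℝ) * θ)) * sin_sq_add_cos_sq θ
        rw [e]
        exact Submodule.add_mem _ (Submodule.smul_mem _ _ (cos_mem_W (by omega)))
          (Submodule.smul_mem _ _ (cos_mem_W (by omega)))
    · cases m with
      | zero =>
        have e : (fun θ : ℝ => sin θ * cos (((0 : ℕ) : ℝ) * θ)) = fun θ => sin (((1 : ℕ) : ℝ) * θ) := by
          funext θ; simp
        rw [e]
        exact sin_mem_W (by omega)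
      | succ m =>
        have e : (fun θ : ℝ => sin θ * cos (((m + 1 : ℕ) : ℝ) * θ))
            = (1 / 2 : ℝ) • (fun θ => sin (((m + 2 : ℕ) : ℝ) * θ)) + (-(1 / 2) : ℝ) • (fun θ => sin ((m : ℝ) * θ)) := by
          funext θ
          simp only [Pi.add_apply, Pi.smul_apply, smul_eq_mul]
          have e1 : ((m + 1 : ℕ) : ℝ) * θ = (m : ℝ) * θ + θ := by push_cast; ring
          have e2 : ((m + 2 : ℕ) : ℝ) * θ = (m : ℝ) * θ + 2 * θ := by push_cast; ring
          rw [e1, e2, sin_add, cos_add, cos_two_mul, sin_two_mul]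
          linear_combination (-(sin ((m : ℝ) * θ))) * sin_sq_add_cos_sq θ
        rw [e]
        exact Submodule.add_mem _ (Submodule.smul_mem _ _ (sin_mem_W (by omega)))
          (Submodule.smul_mem _ _ (sin_mem_W (by omega)))
  | zero =>
    simp only [Pi.zero_apply, mul_zero]
    exact Submodule.zero_mem _
  | add x y _ _ hx hy =>
    have e : (fun θ => sin θ * (x + y) θ) = (fun θ => sin θ * x θ) + (fun θ => sin θ * y θ) := by
      funext θ; simp [mul_add]
    rw [e]
    exact Submodule.add_mem _ hx hy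
  | smul c x _ hx =>
    have e : (fun θ => sin θ * (c • x) θ) = c • (fun θ => sin θ * x θ) := by
      funext θ; simp; ring
    rw [e]
    exact Submodule.smul_mem _ _ hx

lemma sin_pow_mem_W (j : ℕ) : (fun θ => sin θ ^ j) ∈ W j := by
  induction j with
  | zero =>
    have e : (fun θ : ℝ => sin θ ^ 0) = fun θ => cos (((0 : ℕ) : ℝ) * θ) := by
      funext θ; simp
    rw [e]
    exact cos_mem_W le_rfl
  | succ j ih =>
    have e : (fun θ : ℝ => sin θ ^ (j + 1)) = fun θ => sin θ * sin θ ^ j := by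
      funext θ; ring
    rw [e]
    exact sin_mul_mem_W ih

lemma poly_comp_sin_mem_W (P : Polynomial ℝ) (D : ℕ) (hP : P.natDegree ≤ D) :
    (fun θ => P.eval (sin θ)) ∈ W D := by
  have e : (fun θ => P.eval (sin θ))
      = ∑ j ∈ range (P.natDegree + 1), P.coeff j • (fun θ => sin θ ^ j) := by
    funext θ
    rw [Polynomial.eval_eq_sum_range, Finset.sum_apply]
    rfl
  rw [e]
  apply Submodule.sum_mem
  intro j hj
  apply Submodule.smul_mem
  have : j ≤ D := by
    have := Finset.mem_range.mp hj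
    omega
  exact W_mono this (sin_pow_mem_W j)

lemma functional_on_W (D : ℕ) (hD : 0 < D) {g : ℝ → ℝ} (hg : g ∈ W D) :
    ∃ g', HasDerivAt g g' 0 ∧ ∑ k ∈ range (2 * D), lam D k * g (th D k) = g' := by
  induction hg using Submodule.span_induction with
  | mem g hg =>
    rcases hg with ⟨m, hm, rfl⟩ | ⟨m, hm, rfl⟩
    · refine ⟨m, ?_, ?_⟩
      · have h1 : HasDerivAt (fun θ : ℝ => (m : ℝ) * θ) (m : ℝ) 0 := by
          simpa using (hasDerivAt_id (0:ℝ)).const_mul (m : ℝ)
        have h2 := h1.sin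
        simpa using h2
      · exact ss_eq D hD m hm
    · refine ⟨0, ?_, cc_zero D m hD⟩
      have h1 : HasDerivAt (fun θ : ℝ => (m : ℝ) * θ) (m : ℝ) 0 := by
        simpa using (hasDerivAt_id (0:ℝ)).const_mul (m : ℝ)
      have h2 := h1.cos
      simpa using h2
  | zero =>
    refine ⟨0, hasDerivAt_const _ _, by simp⟩
  | add x y _ _ hx hy =>
    obtain ⟨x', hx1, hx2⟩ := hx
    obtain ⟨y', hy1, hy2⟩ := hy
    refine ⟨x' + y', hx1.add hy1, ?_⟩
    rw [← hx2, ← hy2, ← Finset.sum_add_distrib]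
    refine Finset.sum_congr rfl fun k _ => ?_
    simp [mul_add]
  | smul c x _ hx =>
    obtain ⟨x', hx1, hx2⟩ := hx
    refine ⟨c * x', hx1.const_mul c, ?_⟩
    rw [← hx2, Finset.mul_sum]
    refine Finset.sum_congr rfl fun k _ => ?_
    simp only [Pi.smul_apply, smul_eq_mul]
    ring

/-- M. Riesz interpolation formula for polynomials composed with the sine. -/
theorem riesz (P : Polynomial ℝ) (D : ℕ) (hD : 0 < D) (hP : P.natDegree ≤ D) :
    ∑ k ∈ range (2 * D), lam D k * P.eval (sin (th D k)) = P.derivative.eval 0 := by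
  obtain ⟨g', h1, h2⟩ := functional_on_W D hD (poly_comp_sin_mem_W P D hP)
  rw [h2]
  have h3 : HasDerivAt (fun θ => P.eval (sin θ)) (P.derivative.eval (sin 0) * cos 0) 0 :=
    (P.hasDerivAt (sin 0)).comp (0:ℝ) (hasDerivAt_sin 0)
  have := h1.unique h3
  simpa using this

lemma sum_A (D : ℕ) (hD : 0 < D) : ∑ k ∈ range (2 * D), A D k = D := by
  have h := ss_eq D hD D le_rfl
  rw [← h]
  unfold ss lam
  refine Finset.sum_congr rfl fun k _ => ?_
  rw [sin_D_th D k hD]
  have h4 : ((-1 : ℝ) ^ k) * ((-1 : ℝ) ^ k) = 1 := by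
    rw [← pow_add, ← two_mul, pow_mul]; simp
  calc A D k = ((-1 : ℝ) ^ k * (-1 : ℝ) ^ k) * A D k := by rw [h4, one_mul]
    _ = _ := by ring

lemma A_zero_ge (D : ℕ) (hD : 0 < D) : 4 * (D : ℝ) / π ^ 2 ≤ A D 0 := by
  have hD' : (0:ℝ) < D := by exact_mod_cast hD
  have hs := sin_half_th_pos D 0 hD (by omega)
  have e : th D 0 / 2 = π / (4 * D) := by
    unfold th; simp only [Nat.cast_zero]; field_simp; ring
  have hle : sin (th D 0 / 2) ≤ π / (4 * D) := by
    rw [e]
    exact sin_le (by positivity)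
  unfold A
  rw [div_le_div_iff₀ (by positivity) (by positivity)]
  have h2 : sin (th D 0 / 2) ^ 2 ≤ (π / (4 * D)) ^ 2 := by
    apply pow_le_pow_left₀ hs.le hle
  have h3 : (π / (4 * (D : ℝ))) ^ 2 * (16 * D ^ 2) = π ^ 2 := by
    field_simp; ring
  have hD2 : 0 < 16 * (D : ℝ) ^ 2 := by positivity
  nlinarith

lemma sin_th_zero (D : ℕ) : sin (th D 0) = sin (π / (2 * D)) := by
  unfold th; simp

lemma sin_th_last (D : ℕ) (hD : 0 < D) : sin (th D (2 * D - 1)) = - sin (π / (2 * D)) := by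
  have h := th_reflect D 0 hD (by omega)
  simp only [Nat.sub_zero] at h
  rw [h, sin_two_pi_sub, sin_th_zero]

/-- Main consequence of the Riesz formula: one-pair refinement of Bernstein's inequality. -/
theorem riesz_bound (P : Polynomial ℝ) (D : ℕ) (hD : 0 < D) (hP : P.natDegree ≤ D)
    (hb : ∀ y, -1 ≤ y → y ≤ 1 → |P.eval y| ≤ 1) :
    P.derivative.eval 0 ≤ D - A D 0 * (2 - (P.eval (sin (π / (2 * D))) - P.eval (- sin (π / (2 * D))))) := by
  obtain ⟨N, hN⟩ : ∃ N, 2 * D = N + 2 := ⟨2 * D - 2, by omega⟩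
  have hR := riesz P D hD hP
  have hS := sum_A D hD
  rw [hN] at hR hS
  rw [Finset.sum_range_succ, Finset.sum_range_succ'] at hR hS
  have hlast : N + 1 = 2 * D - 1 := by omega
  have hnode0 : sin (th D 0) = sin (π / (2 * D)) := sin_th_zero D
  have hnode1 : sin (th D (N + 1)) = - sin (π / (2 * D)) := by
    rw [hlast]; exact sin_th_last D hD
  have hA1 : A D (N + 1) = A D 0 := by
    have := A_reflect D 0 hD (by omega)
    simpa [hlast] using this
  have hlam0 : lam D 0 = A D 0 := by simp [lam]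
  have hlam1 : lam D (N + 1) = - A D 0 := by
    have := lam_reflect D 0 hD (by omega)
    simp only [Nat.sub_zero] at this
    rw [hlast, this, hlam0]
  have hmid : ∑ k ∈ range N, lam D (k + 1) * P.eval (sin (th D (k + 1)))
      ≤ ∑ k ∈ range N, A D (k + 1) := by
    apply Finset.sum_le_sum
    intro k hk
    have hk' : k < N := Finset.mem_range.mp hk
    have hpos : 0 < A D (k + 1) := A_pos D (k + 1) hD (by omega)
    have hbd := hb (sin (th D (k + 1))) (neg_one_le_sin _) (sin_le_one _)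
    have h4 : |lam D (k + 1) * P.eval (sin (th D (k + 1)))| ≤ A D (k + 1) := by
      rw [abs_mul]
      unfold lam
      rw [abs_mul, abs_pow, abs_neg, abs_one, one_pow, one_mul, abs_of_pos hpos]
      nlinarith [abs_nonneg (P.eval (sin (th D (k + 1))))]
    exact (abs_le.mp h4).2
  rw [hnode1, hnode0, hlam0, hlam1] at hR
  rw [hA1] at hS
  rw [← hR]
  nlinarith

end Vale.Agent.P047
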