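import Vale.Agent.Lib.P047_Biased
import Vale.Agent.Lib.P047_Riesz

namespace Vale.Agent.P047

open Finset BigOperators Real Polynomial

variable {n : ℕ}

lemma bounds_of_sq_lt_one {y : ℝ} (h : y ^ 2 < 1) : -1 < y ∧ y < 1 :=
  abs_lt.mp ((sq_lt_one_iff_abs_lt_one y).mp h)

/-- The polynomial `t ↦ E_t f`. -/
noncomputable def bpoly (f : (Fin n → Bool) → ℝ) : Polynomial ℝ :=
  ∑ U : Finset (Fin n), Polynomial.C (hat f U) * Polynomial.X ^ U.card

lemma bpoly_eval (f : (Fin n → Bool) → ℝ) (t : ℝ) :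
    (bpoly f).eval t = coeffB f t ∅ := by
  rw [coeffB_empty, bpoly, Polynomial.eval_finsetSum]
  simp

lemma bpoly_derivative_eval (f : (Fin n → Bool) → ℝ) (t : ℝ) :
    (bpoly f).derivative.eval t = ∑ i, coeffB f t {i} := by
  rw [sum_coeffB_singleton, bpoly, Polynomial.derivative_sum, Polynomial.eval_finsetSum]
  refine Finset.sum_congr rfl fun U _ => ?_
  simp [Polynomial.derivative_X_pow]

lemma bpoly_natDegree (f : (Fin n → Bool) → ℝ) (d : ℕ)
    (hdeg : ∀ S : Finset (Fin n), d < S.card → hat f S = 0) :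
    (bpoly f).natDegree ≤ d := by
  apply Polynomial.natDegree_sum_le_of_forall_le
  intro U _
  by_cases hU : d < U.card
  · rw [hdeg U hU]; simp
  · push Not at hU
    exact (Polynomial.natDegree_C_mul_X_pow_le _ _).trans hU

lemma coeffB_zero_singleton (f : (Fin n → Bool) → ℝ) (i : Fin n) :
    coeffB f 0 {i} = hat f {i} := by
  unfold coeffB
  rw [Finset.sum_eq_single {i}]
  · simp
  · intro U _ hU
    split_ifs with h
    · have : (U \ {i}).Nonempty := by
        by_contra hcon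
        rw [Finset.not_nonempty_iff_eq_empty, Finset.sdiff_eq_empty_iff_subset] at hcon
        exact hU (Finset.Subset.antisymm hcon h)
      rw [zero_pow (Finset.card_pos.mpr this).ne']
      ring
    · rfl
  · simp

lemma bpoly_derivative_zero (f : (Fin n → Bool) → ℝ) :
    (bpoly f).derivative.eval 0 = ∑ i, hat f {i} := by
  rw [bpoly_derivative_eval]
  simp only [coeffB_zero_singleton]

section
variable (f : (Fin n → Bool) → ℝ) (d : ℕ)

lemma bpoly_sq_le (hf : ∀ x, f x = 1 ∨ f x = -1) (t : ℝ) (h1 : -1 ≤ t) (h2 : t ≤ 1) :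
    (bpoly f).eval t ^ 2 ≤ 1 := by
  rw [bpoly_eval]
  exact coeff_empty_sq_le f t h1 h2 _ hf (expand_B f t)

lemma bpoly_ode (hf : ∀ x, f x = 1 ∨ f x = -1)
    (hdeg : ∀ S : Finset (Fin n), d < S.card → hat f S = 0)
    (t : ℝ) (h1 : -1 ≤ t) (h2 : t ≤ 1) :
    (1 - t ^ 2) * (bpoly f).derivative.eval t ≤ d * (1 - (bpoly f).eval t ^ 2) := by
  rw [bpoly_eval, bpoly_derivative_eval]
  exact spectral_ineq f t h1 h2 _ d hf (expand_B f t) (coeffB_eq_zero f t d hdeg)

end

/-- The comparison function whose monotonicity encodes the Lipschitz bound on log-odds. -/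
noncomputable def phi (P : Polynomial ℝ) (d : ℕ) (t : ℝ) : ℝ :=
  ((1 + P.eval t) * (1 - t) ^ d) / ((1 - P.eval t) * (1 + t) ^ d)

lemma phi_antitone (P : Polynomial ℝ) (d : ℕ) (hd : 0 < d)
    (hstrict : ∀ t, -1 < t → t < 1 → P.eval t ^ 2 < 1)
    (hode : ∀ t, -1 < t → t < 1 → (1 - t ^ 2) * P.derivative.eval t ≤ d * (1 - P.eval t ^ 2)) :
    AntitoneOn (phi P d) (Set.Ioo (-1) 1) := by
  obtain ⟨e, rfl⟩ : ∃ e, d = e + 1 := ⟨d - 1, by omega⟩
  have hder : ∀ t ∈ Set.Ioo (-1 : ℝ) 1, HasDerivAt (phi P (e + 1))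
      ((((P.derivative.eval t * (1 - t) ^ (e + 1) + (1 + P.eval t) * (((e + 1 : ℕ) : ℝ) * (1 - t) ^ e * (-1)))
          * ((1 - P.eval t) * (1 + t) ^ (e + 1))
        - ((1 + P.eval t) * (1 - t) ^ (e + 1)) *
          ((-P.derivative.eval t) * (1 + t) ^ (e + 1) + (1 - P.eval t) * (((e + 1 : ℕ) : ℝ) * (1 + t) ^ e * 1))))
        / ((1 - P.eval t) * (1 + t) ^ (e + 1)) ^ 2) t := by
    intro t ht
    have hP := P.hasDerivAt t
    have hM1 : HasDerivAt (fun y : ℝ => 1 - y) (-1) t := by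
      simpa using (hasDerivAt_id t).const_sub 1
    have hP1 : HasDerivAt (fun y : ℝ => 1 + P.eval y) (P.derivative.eval t) t := by
      simpa using hP.const_add 1
    have hP2 : HasDerivAt (fun y : ℝ => 1 - P.eval y) (-P.derivative.eval t) t := by
      simpa using hP.const_sub 1
    have hT1 : HasDerivAt (fun y : ℝ => 1 + y) 1 t := by
      simpa using (hasDerivAt_id t).const_add 1
    have hN := hP1.mul (hM1.pow (e + 1))
    have hM := hP2.mul (hT1.pow (e + 1))
    have hne : (1 - P.eval t) * (1 + t) ^ (e + 1) ≠ 0 := by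
      have h3 := hstrict t ht.1 ht.2
      have h4 : 0 < 1 - P.eval t := by linarith [(bounds_of_sq_lt_one h3).2]
      have h5 : 0 < 1 + t := by linarith [ht.1]
      positivity
    have := hN.div hM hne
    exact this
  have hd2 : ∀ t ∈ Set.Ioo (-1 : ℝ) 1, deriv (phi P (e + 1)) t ≤ 0 := by
    intro t ht
    rw [(hder t ht).deriv]
    apply div_nonpos_of_nonpos_of_nonneg _ (sq_nonneg _)
    have h5 : 0 ≤ (1 - t) ^ e := pow_nonneg (by linarith [ht.2]) _
    have h6 : 0 ≤ (1 + t) ^ e := pow_nonneg (by linarith [ht.1]) _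
    have h7 := hode t ht.1 ht.2
    set a := (1 - t) ^ e
    set b := (1 + t) ^ e
    set Pv := P.eval t
    set Pd := P.derivative.eval t
    have e1 : (1 - t) ^ (e + 1) = (1 - t) * a := by rw [pow_succ]; ring
    have e2 : (1 + t) ^ (e + 1) = (1 + t) * b := by rw [pow_succ]; ring
    rw [e1, e2]
    have key : (Pd * ((1 - t) * a) + (1 + Pv) * (((e + 1 : ℕ) : ℝ) * a * (-1))) * ((1 - Pv) * ((1 + t) * b))
        - (1 + Pv) * ((1 - t) * a) * (-Pd * ((1 + t) * b) + (1 - Pv) * (((e + 1 : ℕ) : ℝ) * b * 1))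
        = 2 * (a * b) * ((1 - t ^ 2) * Pd - ((e + 1 : ℕ) : ℝ) * (1 - Pv ^ 2)) := by
      ring
    rw [key]
    have h8 : (1 - t ^ 2) * Pd - ((e + 1 : ℕ) : ℝ) * (1 - Pv ^ 2) ≤ 0 := by linarith
    have h9 : 0 ≤ 2 * (a * b) := by positivity
    exact mul_nonpos_of_nonneg_of_nonpos h9 h8
  apply antitoneOn_of_deriv_nonpos (convex_Ioo _ _)
  · intro t ht
    exact (hder t ht).continuousAt.continuousWithinAt
  · rw [interior_Ioo]
    intro t ht
    exact (hder t ht).differentiableAt.differentiableWithinAt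
  · rw [interior_Ioo]
    exact hd2

/-- Algebra for the two-point bound. -/
lemma two_point_alg (a b y Ω : ℝ) (hy : y ^ 2 < 1) (hΩ : 1 ≤ Ω)
    (h1 : (1 + a) * (1 - y) ≤ Ω * ((1 + y) * (1 - a)))
    (h2 : (1 + y) * (1 - b) ≤ Ω * ((1 + b) * (1 - y))) :
    (a - b) * (Ω + 1) ≤ 2 * (Ω - 1) := by
  have hyabs := bounds_of_sq_lt_one hy
  have hA : 0 < 1 + y := by linarith [hyabs.1]
  have hC : 0 < 1 - y := by linarith [hyabs.2]
  set A := 1 + y with hAdef
  set C := 1 - y with hCdef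
  have hD1 : 0 < Ω * A + C := by positivity
  have hD2 : 0 < A + Ω * C := by positivity
  have ha : a ≤ (Ω * A - C) / (Ω * A + C) := by
    rw [le_div_iff₀ hD1]
    nlinarith
  have hb : (A - Ω * C) / (A + Ω * C) ≤ b := by
    rw [div_le_iff₀ hD2]
    nlinarith
  have h3 : (Ω * A - C) / (Ω * A + C) - (A - Ω * C) / (A + Ω * C)
      = 2 * (A * C) * (Ω ^ 2 - 1) / ((Ω * A + C) * (A + Ω * C)) := by
    field_simp
    ring
  have h4 : a - b ≤ 2 * (A * C) * (Ω ^ 2 - 1) / ((Ω * A + C) * (A + Ω * C)) := by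
    rw [← h3]; linarith
  have h5 : 2 * (A * C) * (Ω ^ 2 - 1) / ((Ω * A + C) * (A + Ω * C)) * (Ω + 1) ≤ 2 * (Ω - 1) := by
    rw [div_mul_eq_mul_div, div_le_iff₀ (by positivity)]
    have h6 : 0 ≤ Ω - 1 := by linarith
    have h7 : 2 * (A * C) * (Ω + 1) ^ 2 ≤ 2 * ((Ω * A + C) * (A + Ω * C)) := by
      nlinarith [sq_nonneg (A - C), hA, hC]
    nlinarith [mul_le_mul_of_nonneg_left h7 h6]
  have h8 : 0 < Ω + 1 := by linarith
  calc (a - b) * (Ω + 1) ≤ 2 * (A * C) * (Ω ^ 2 - 1) / ((Ω * A + C) * (A + Ω * C)) * (Ω + 1) :=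
        mul_le_mul_of_nonneg_right h4 h8.le
    _ ≤ _ := h5

/-- Two-point bound for `P` (with strictness). -/
lemma two_point (P : Polynomial ℝ) (d : ℕ) (hd : 0 < d)
    (hstrict : ∀ t, -1 < t → t < 1 → P.eval t ^ 2 < 1)
    (hode : ∀ t, -1 < t → t < 1 → (1 - t ^ 2) * P.derivative.eval t ≤ d * (1 - P.eval t ^ 2))
    (τ : ℝ) (h0 : 0 < τ) (h1 : τ < 1) :
    (P.eval τ - P.eval (-τ)) * (((1 + τ) / (1 - τ)) ^ d + 1)
      ≤ 2 * (((1 + τ) / (1 - τ)) ^ d - 1) := by
  have hanti := phi_antitone P d hd hstrict hode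
  have hm0 : (0:ℝ) ∈ Set.Ioo (-1:ℝ) 1 := by constructor <;> norm_num
  have hmτ : τ ∈ Set.Ioo (-1:ℝ) 1 := by constructor <;> linarith
  have hmτ' : -τ ∈ Set.Ioo (-1:ℝ) 1 := by constructor <;> linarith
  have h2 := hanti hm0 hmτ h0.le
  have h3 := hanti hmτ' hm0 (by linarith)
  set a := P.eval τ with ha
  set b := P.eval (-τ) with hb
  set y := P.eval 0 with hy
  have hs_a := bounds_of_sq_lt_one (hstrict τ hmτ.1 hmτ.2)
  have hs_b := bounds_of_sq_lt_one (hstrict (-τ) hmτ'.1 hmτ'.2)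
  have hs_y := bounds_of_sq_lt_one (hstrict 0 hm0.1 hm0.2)
  have hy2 : y ^ 2 < 1 := hstrict 0 hm0.1 hm0.2
  have hp : 0 < 1 + τ := by linarith
  have hq : 0 < 1 - τ := by linarith
  have e0 : phi P d 0 = (1 + y) / (1 - y) := by
    simp [phi, hy]
  have e1 : phi P d τ = ((1 + a) * (1 - τ) ^ d) / ((1 - a) * (1 + τ) ^ d) := rfl
  have e2 : phi P d (-τ) = ((1 + b) * (1 + τ) ^ d) / ((1 - b) * (1 - τ) ^ d) := by
    simp [phi, ← hb, sub_eq_add_neg]
  rw [e0, e1] at h2
  rw [e0, e2] at h3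
  have hpd : 0 < (1 + τ) ^ d := by positivity
  have hqd : 0 < (1 - τ) ^ d := by positivity
  have h1a : 0 < 1 - a := by linarith [hs_a.2]
  have h1b : 0 < 1 - b := by linarith [hs_b.2]
  have h1y : 0 < 1 - y := by linarith [hs_y.2]
  have hΩ : ((1 + τ) / (1 - τ)) ^ d = (1 + τ) ^ d / (1 - τ) ^ d := by rw [div_pow]
  rw [hΩ]
  set p := (1 + τ) ^ d with hpdef
  set q := (1 - τ) ^ d with hqdef
  have hpq : q ≤ p := by
    apply pow_le_pow_left₀ hq.le
    linarith
  rw [div_le_div_iff₀ (by positivity) (by positivity)] at h2 h3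
  have hΩ1 : 1 ≤ p / q := by
    rw [le_div_iff₀ hqd]; linarith
  apply two_point_alg a b y (p / q) hy2 hΩ1
  · rw [div_mul_eq_mul_div, le_div_iff₀ hqd]
    nlinarith
  · rw [div_mul_eq_mul_div, le_div_iff₀ hqd]
    nlinarith

/-- The bound obtained from the Riesz formula and the two-point bound. -/
theorem main_bound (f : (Fin n → Bool) → ℝ) (d : ℕ) (hd : 2 ≤ d)
    (hf : ∀ x, f x = 1 ∨ f x = -1)
    (hdeg : ∀ S : Finset (Fin n), d < S.card → hat f S = 0) :
    ∑ i, hat f {i} ≤ d * (1 - 16 / (π ^ 2 * (((1 + sin (π / (2 * d))) / (1 - sin (π / (2 * d)))) ^ d + 1))) := by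
  have hd0 : 0 < d := by omega
  have hdR : (0:ℝ) < d := by exact_mod_cast hd0
  have hdR2 : (2:ℝ) ≤ d := by exact_mod_cast hd
  set τ := sin (π / (2 * d)) with hτ
  set Ω := ((1 + τ) / (1 - τ)) ^ d with hΩ
  have hx0 : 0 < π / (2 * d) := by positivity
  have hx1 : π / (2 * d) < π / 2 := by
    apply div_lt_div_of_pos_left pi_pos (by norm_num)
    nlinarith
  have hτ0 : 0 < τ := sin_pos_of_pos_of_lt_pi hx0 (by linarith [pi_pos])
  have hτ1 : τ < 1 := by
    rw [hτ, ← sin_pi_div_two]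
    exact sin_lt_sin_of_lt_of_le_pi_div_two (by linarith [pi_pos]) le_rfl hx1
  have hratio : 1 ≤ (1 + τ) / (1 - τ) := by
    rw [le_div_iff₀ (by linarith)]; linarith
  have hΩ1 : 1 ≤ Ω := one_le_pow₀ hratio
  have hΩ2 : 0 < Ω + 1 := by linarith
  by_cases hconst : ∃ t, -1 < t ∧ t < 1 ∧ (bpoly f).eval t ^ 2 = 1
  · -- `f` is constant
    obtain ⟨t, ht1, ht2, ht⟩ := hconst
    rw [bpoly_eval] at ht
    have hcst := eq_const_of_sq_eq_one f t ht1 ht2 _ hf (expand_B f t) ht
    have hzero : ∀ i, hat f {i} = 0 := by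
      intro i
      unfold hat
      have : ∑ x, f x * chi {i} x = coeffB f t ∅ * ∑ x : Fin n → Bool, chi {i} x := by
        rw [Finset.mul_sum]
        exact Finset.sum_congr rfl fun x _ => by rw [hcst x]
      rw [this]
      have h0 : ∑ x : Fin n → Bool, chi ({i} : Finset (Fin n)) x = 0 := by
        have h1 := sum_chi_mul_chi (n := n)
        have h2 : ∑ x : Fin n → Bool, chi ({i} : Finset (Fin n)) x = 0 := by
          have := orth (n := n) 0 {i} ∅
          simp only [B_empty, mul_one] at this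
          have hne : ({i} : Finset (Fin n)) ≠ ∅ := Finset.singleton_ne_empty i
          rw [if_neg hne] at this
          have h3 : ∀ x : Fin n → Bool, w 0 x * B 0 {i} x = (1 / 2 ^ n) * chi {i} x := by
            intro x
            simp [w, B, chi]
          simp only [h3] at this
          rw [← Finset.mul_sum] at this
          have h4 : (1 / 2 ^ n : ℝ) ≠ 0 := by positivity
          exact (mul_eq_zero.mp this).resolve_left h4
        exact h2
      rw [h0]; simp
    simp only [hzero, Finset.sum_const_zero]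
    have hpi2 : 0 < π ^ 2 := by positivity
    have h5 : 16 / (π ^ 2 * (Ω + 1)) ≤ 1 := by
      rw [div_le_one (by positivity)]
      have : (3:ℝ) ^ 2 < π ^ 2 := by
        apply pow_lt_pow_left₀ pi_gt_three (by norm_num) (by norm_num)
      nlinarith
    have : 0 ≤ 1 - 16 / (π ^ 2 * (Ω + 1)) := by linarith
    positivity
  · push Not at hconst
    have hstrict : ∀ t, -1 < t → t < 1 → (bpoly f).eval t ^ 2 < 1 := by
      intro t h1 h2
      exact lt_of_le_of_ne (bpoly_sq_le f hf t h1.le h2.le) (hconst t h1 h2)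
    have hode : ∀ t, -1 < t → t < 1 → (1 - t ^ 2) * (bpoly f).derivative.eval t
        ≤ d * (1 - (bpoly f).eval t ^ 2) := by
      intro t h1 h2
      exact bpoly_ode f d hf hdeg t h1.le h2.le
    have htp := two_point (bpoly f) d hd0 hstrict hode τ hτ0 hτ1
    have hb : ∀ y, -1 ≤ y → y ≤ 1 → |(bpoly f).eval y| ≤ 1 := by
      intro y h1 h2
      exact abs_le_one_iff_mul_self_le_one.mpr (by nlinarith [bpoly_sq_le f hf y h1 h2])
    have hrb := riesz_bound (bpoly f) d hd0 (bpoly_natDegree f d hdeg) hb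
    rw [bpoly_derivative_zero] at hrb
    have hA := A_zero_ge d hd0
    have hApos : 0 < A d 0 := A_pos d 0 hd0 (by omega)
    -- gap
    have hgap : 4 / (Ω + 1) ≤ 2 - ((bpoly f).eval τ - (bpoly f).eval (-τ)) := by
      rw [div_le_iff₀ hΩ2]
      nlinarith
    have hgap0 : 0 < 4 / (Ω + 1) := by positivity
    have h3 : (4 * (d : ℝ) / π ^ 2) * (4 / (Ω + 1))
        ≤ A d 0 * (2 - ((bpoly f).eval τ - (bpoly f).eval (-τ))) := by
      apply mul_le_mul hA hgap hgap0.le hApos.le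
    have h4 : (4 * (d : ℝ) / π ^ 2) * (4 / (Ω + 1)) = d * (16 / (π ^ 2 * (Ω + 1))) := by
      field_simp
      ring
    calc ∑ i, hat f {i} ≤ _ := hrb
      _ ≤ d - d * (16 / (π ^ 2 * (Ω + 1))) := by
        rw [← h4]; linarith
      _ = _ := by ring

/-- Numerical bound. -/
lemma omega_le (d : ℕ) (hd : 3 ≤ d) :
    ((1 + sin (π / (2 * d))) / (1 - sin (π / (2 * d)))) ^ d ≤ 31 := by
  have hdR : (3:ℝ) ≤ d := by exact_mod_cast hd
  have hdpos : (0:ℝ) < d := by linarith
  -- the case `d = 3` uses the exact value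
  by_cases h3 : d = 3
  · subst h3
    have : π / (2 * ((3 : ℕ) : ℝ)) = π / 6 := by push_cast; ring
    rw [this, sin_pi_div_six]
    norm_num
  have hd4 : (4:ℝ) ≤ d := by
    have : 4 ≤ d := by omega
    exact_mod_cast this
  set x := π / (2 * (d : ℝ)) with hx
  have hxpos : 0 < x := by positivity
  have hsinle : sin x ≤ x := sin_le hxpos.le
  have hsinpos : 0 < sin x := by
    apply sin_pos_of_pos_of_lt_pi hxpos
    rw [hx]
    apply div_lt_self pi_pos
    nlinarith
  have hpi := pi_lt_d4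
  have hpi3 := pi_gt_three
  have hxle : x ≤ 0.4 := by
    rw [hx, div_le_iff₀ (by positivity)]
    nlinarith
  have hmono : (1 + sin x) / (1 - sin x) ≤ (1 + x) / (1 - x) := by
    rw [div_le_div_iff₀ (by linarith) (by linarith)]
    nlinarith
  have hnn : 0 ≤ (1 + sin x) / (1 - sin x) := by
    apply div_nonneg <;> linarith
  refine (pow_le_pow_left₀ hnn hmono d).trans ?_
  by_cases hsmall : d < 12
  · -- small `d`, direct computation
    have hdx : ∀ (y : ℝ), x ≤ y → y < 1 → 0 ≤ y → (1 + x) / (1 - x) ≤ (1 + y) / (1 - y) := by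
      intro y h1 h2 _
      rw [div_le_div_iff₀ (by linarith) (by linarith)]
      nlinarith
    have hlast : ∀ (y : ℝ), x ≤ y → y < 1 → 0 ≤ y → ((1 + y) / (1 - y)) ^ d ≤ 31 →
        ((1 + x) / (1 - x)) ^ d ≤ 31 := by
      intro y h1 h2 h0 h4
      refine le_trans (pow_le_pow_left₀ ?_ (hdx y h1 h2 h0) d) h4
      apply div_nonneg <;> linarith
    have hval : x ≤ 3.1416 / (2 * (d : ℝ)) := by
      rw [hx]
      apply div_le_div_of_nonneg_right hpi.le (by positivity)
    have hd12 : 4 ≤ d := by omega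
    interval_cases d <;> (
      refine hlast _ hval ?_ ?_ ?_ <;> norm_num)
  · have hd12 : (12:ℝ) ≤ d := by
      push Not at hsmall
      exact_mod_cast hsmall
    have hx2 : x ≤ 3.1416 / 24 := by
      rw [hx]
      apply div_le_div₀ (by norm_num) hpi.le (by norm_num) (by linarith)
    have hdx : (d : ℝ) * x = π / 2 := by
      rw [hx]; field_simp
    have h1x : 0 < 1 - x := by
      have : (3.1416 / 24 : ℝ) < 1 := by norm_num
      linarith
    have hbound1 : 1 + x ≤ exp x := by linarith [add_one_le_exp x]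
    have hbound2 : 1 / (1 - x) ≤ exp (x / (1 - x)) := by
      have h2 := add_one_le_exp (x / (1 - x))
      have : 1 / (1 - x) = x / (1 - x) + 1 := by
        field_simp; ring
      linarith
    have hexp : (1 + x) / (1 - x) ≤ exp (x + x / (1 - x)) := by
      rw [exp_add, div_eq_mul_one_div]
      exact mul_le_mul hbound1 hbound2 (by positivity) (exp_pos _).le
    have h0 : 0 ≤ (1 + x) / (1 - x) := by positivity
    refine (pow_le_pow_left₀ h0 hexp d).trans ?_
    rw [← exp_nat_mul]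
    have hexpo : (d : ℝ) * (x + x / (1 - x)) ≤ 17 / 5 := by
      have e : (d : ℝ) * (x + x / (1 - x)) = (π / 2) * (1 + 1 / (1 - x)) := by
        rw [← hdx]
        field_simp
      rw [e]
      have h3 : 1 / (1 - x) ≤ 1 / (1 - 3.1416 / 24) := by
        apply one_div_le_one_div_of_le (by norm_num)
        linarith
      have h4 : (0:ℝ) < π / 2 := by positivity
      have h5 : (π / 2) * (1 + 1 / (1 - x)) ≤ (3.1416 / 2) * (1 + 1 / (1 - 3.1416 / 24)) := by
        apply mul_le_mul (by linarith) (by linarith) (by positivity) (by norm_num)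
      refine h5.trans ?_
      norm_num
    have hexp2 : exp (17 / 5) ≤ 31 := by
      have h1 : exp (17 / 5 : ℝ) ^ 5 = exp 17 := by
        rw [← exp_nat_mul]
        norm_num
      have h2 : exp (17 : ℝ) = exp 1 ^ 17 := by
        rw [← exp_nat_mul]
        norm_num
      have h3 : exp (1 : ℝ) ^ 17 ≤ (2.7182818286 : ℝ) ^ 17 := by
        apply pow_le_pow_left₀ (exp_pos _).le exp_one_lt_d9.le
      have h4 : (2.7182818286 : ℝ) ^ 17 ≤ 31 ^ 5 := by norm_num
      have h5 : exp (17 / 5 : ℝ) ^ 5 ≤ 31 ^ 5 := by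
        rw [h1, h2]; linarith
      exact le_of_pow_le_pow_left₀ (by norm_num) (by norm_num) h5
    exact (exp_le_exp.mpr hexpo).trans hexp2

/-- The headline inequality with the explicit constant `19 / 20`. -/
theorem final_bound (f : (Fin n → Bool) → ℝ) (d : ℕ) (hd : 3 ≤ d)
    (hf : ∀ x, f x = 1 ∨ f x = -1)
    (hdeg : ∀ S : Finset (Fin n), d < S.card → hat f S = 0) :
    ∑ i, hat f {i} ≤ (19 / 20) * d := by
  have hmain := main_bound f d (by omega) hf hdeg
  have hΩ := omega_le d hd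
  have hdR : (0:ℝ) < d := by
    have : 0 < d := by omega
    exact_mod_cast this
  refine hmain.trans ?_
  set Ω := ((1 + sin (π / (2 * d))) / (1 - sin (π / (2 * d)))) ^ d with hΩdef
  have hx0 : 0 < π / (2 * (d : ℝ)) := by positivity
  have hdR3 : (3:ℝ) ≤ d := by exact_mod_cast hd
  have hx1 : π / (2 * (d : ℝ)) < π / 2 := by
    apply div_lt_div_of_pos_left pi_pos (by norm_num)
    nlinarith
  have hτ0 : 0 < sin (π / (2 * (d : ℝ))) := sin_pos_of_pos_of_lt_pi hx0 (by linarith [pi_pos])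
  have hτ1 : sin (π / (2 * (d : ℝ))) < 1 := by
    rw [← sin_pi_div_two]
    exact sin_lt_sin_of_lt_of_le_pi_div_two (by linarith [pi_pos]) le_rfl hx1
  have hΩpos : 0 ≤ Ω := by
    apply pow_nonneg
    apply div_nonneg <;> linarith
  have hpi : π ^ 2 < 10 := by
    have := pi_lt_d2
    have h3 := pi_pos
    nlinarith
  have hfrac : (1 : ℝ) / 20 ≤ 16 / (π ^ 2 * (Ω + 1)) := by
    rw [div_le_div_iff₀ (by norm_num) (by positivity)]
    nlinarith
  have : 1 - 16 / (π ^ 2 * (Ω + 1)) ≤ 19 / 20 := by linarith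
  calc (d : ℝ) * (1 - 16 / (π ^ 2 * (Ω + 1))) ≤ d * (19 / 20) :=
        mul_le_mul_of_nonneg_left this hdR.le
    _ = (19 / 20) * d := by ring

end Vale.Agent.P047
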