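import Vale.Agent.Lib.P123_Core

open Polynomial

namespace Vale.Agent.P123

variable {H : Type*} [NormedAddCommGroup H] [InnerProductSpace ℂ H]

/-- The tangent half-plane inequality for Cassini ovals, in the sharper range `-1/2 ≤ Re (d/τ)`. -/
lemma cassini_tangent' (d τ σ w : ℂ) (hτ : τ ≠ 0) (hd : -(1 / 2) ≤ (d / τ).re) (hσ : σ ^ 2 = d + τ)
    (hw : ‖w ^ 2 - d‖ ≤ ‖τ‖) : 0 ≤ ((starRingEnd ℂ) τ * (σ * (σ - w))).re := by
  have hnτ : 0 < ‖τ‖ := norm_pos_iff.mpr hτ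
  have hσ0 : σ ≠ 0 := by
    rintro rfl
    have h1 : d = -τ := by linear_combination -hσ
    have h2 : d / τ = -1 := by rw [h1]; field_simp
    rw [h2] at hd
    norm_num at hd
  set B : ℂ := σ ^ 2 / τ with hB
  set v : ℂ := (σ - w) / σ with hv
  have hBre : 1 / 2 ≤ B.re := by
    have e : B = 1 + d / τ := by
      rw [hB, hσ]; field_simp; ring
    rw [e, Complex.add_re, Complex.one_re]
    linarith
  have hcond : ‖1 - B * (v * (2 - v))‖ ≤ 1 := by
    have e : 1 - B * (v * (2 - v)) = (w ^ 2 - d) / τ := by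
      rw [hB, hv]
      field_simp
      linear_combination (-1 : ℂ) * hσ
    rw [e, norm_div, div_le_one hnτ]
    exact hw
  have hcore := cassini_core B v hBre hcond
  have e : (starRingEnd ℂ) τ * (σ * (σ - w)) = ((Complex.normSq τ : ℝ) : ℂ) * (B * v) := by
    rw [hB, hv, Complex.normSq_eq_conj_mul_self]
    field_simp
  rw [e, Complex.re_ofReal_mul]
  exact mul_nonneg (Complex.normSq_nonneg _) hcore

/-- The half-plane bound for `B^2 - d` in one direction `τ`. -/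
lemma cassini_half_plane (B : H →L[ℂ] H) (d τ : ℂ) (hτ : τ ≠ 0) (hd : -(1 / 2) ≤ (d / τ).re)
    (hW : ∀ u : H, ‖u‖ = 1 → ‖(inner ℂ u (B u)) ^ 2 - d‖ ≤ ‖τ‖) (x : H) (hx : ‖x‖ = 1) :
    ((starRingEnd ℂ) τ * inner ℂ x ((B ^ 2 - d • (1 : H →L[ℂ] H)) x)).re ≤ ‖τ‖ ^ 2 := by
  classical
  have hxx : inner ℂ x x = (1 : ℂ) := by rw [inner_self_eq_norm_sq_to_K, hx]; simp
  obtain ⟨σ, hσ⟩ : ∃ σ : ℂ, σ ^ 2 = d + τ := IsAlgClosed.exists_pow_nat_eq _ (by norm_num)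
  have hσ0 : σ ≠ 0 := by
    rintro rfl
    have h1 : d = -τ := by linear_combination -hσ
    have h2 : d / τ = -1 := by rw [h1]; field_simp
    rw [h2] at hd
    norm_num at hd
  have hne : σ ≠ -σ := by
    intro h
    apply hσ0
    have : 2 * σ = 0 := by linear_combination h
    simpa using this
  have hpoly : (X ^ 2 - C (σ ^ 2) : ℂ[X]) = C 1 * Lagrange.nodal ({σ, -σ} : Finset ℂ) id := by
    rw [C_1, one_mul, Lagrange.nodal, Finset.prod_pair hne]
    simp only [id, C_neg, C_pow]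
    ring
  have hder : ∀ w : ℂ, (derivative (X ^ 2 - C (σ ^ 2) : ℂ[X])).eval w = 2 * w := by
    intro w
    rw [derivative_sub, derivative_C, sub_zero, derivative_X_pow]
    simp
  have key := re_form_nodal B {z : ℂ | ‖z ^ 2 - d‖ ≤ ‖τ‖} hW ({σ, -σ} : Finset ℂ) id
    (fun _ _ _ _ h => h) ⟨σ, by simp⟩ 1 ((starRingEnd ℂ) τ) ?_ x
  · rw [← hpoly] at key
    set s : ℂ := inner ℂ x ((B ^ 2 - d • (1 : H →L[ℂ] H)) x) with hs
    have hinner : inner ℂ x (aeval B (X ^ 2 - C (σ ^ 2) : ℂ[X]) x) = s - τ := by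
      have e : aeval B (X ^ 2 - C (σ ^ 2) : ℂ[X]) =
          (B ^ 2 - d • (1 : H →L[ℂ] H)) - τ • (1 : H →L[ℂ] H) := by
        simp only [map_sub, aeval_X_pow, aeval_C, hσ, Algebra.algebraMap_eq_smul_one, add_smul]
        abel
      rw [e, sub_apply, inner_sub_right, ← hs,
        smul_apply, one_apply_eq_self, inner_smul_right,
        hxx, mul_one]
    rw [hinner, neg_sub] at key
    have e1 : (starRingEnd ℂ) τ * (τ - s) =
        ((‖τ‖ ^ 2 : ℝ) : ℂ) - (starRingEnd ℂ) τ * s := by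
      have : (starRingEnd ℂ) τ * τ = ((‖τ‖ ^ 2 : ℝ) : ℂ) := by
        rw [Complex.conj_mul']; push_cast; rfl
      rw [mul_sub, this]
    rw [e1, Complex.sub_re, Complex.ofReal_re] at key
    linarith
  · intro i hi w hw
    rw [← hpoly, hder]
    simp only [id]
    have hw' : ‖w ^ 2 - d‖ ≤ ‖τ‖ := hw
    simp only [Finset.mem_insert, Finset.mem_singleton] at hi
    rcases hi with rfl | rfl
    · have := cassini_tangent' d τ i w hτ hd hσ hw'
      have e : (starRingEnd ℂ) τ * (2 * i) * (i - w) =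
          ((2 : ℝ) : ℂ) * ((starRingEnd ℂ) τ * (i * (i - w))) := by push_cast; ring
      rw [e, Complex.re_ofReal_mul]
      positivity
    · have hw'' : ‖(-w) ^ 2 - d‖ ≤ ‖τ‖ := by rw [neg_sq]; exact hw'
      have := cassini_tangent' d τ σ (-w) hτ hd hσ hw''
      have e : (starRingEnd ℂ) τ * (2 * -σ) * (-σ - w) =
          ((2 : ℝ) : ℂ) * ((starRingEnd ℂ) τ * (σ * (σ - -w))) := by push_cast; ring
      rw [e, Complex.re_ofReal_mul]
      positivity

/-- The three direction lemma: if the numerical range of `T` lies in an equilateral triangle with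
inradius `M` centred at the origin, then `‖T‖ ≤ 2 M`. -/
lemma triangle_bound (T : H →L[ℂ] H) (M : ℝ) (hM : 0 ≤ M) (u ω : ℂ) (hu : ‖u‖ = 1)
    (hω1 : ω ^ 2 + ω + 1 = 0) (hωc : (starRingEnd ℂ) ω = ω ^ 2)
    (h : ∀ k : ℕ, k < 3 → ∀ v : H, ‖v‖ = 1 →
      ((starRingEnd ℂ) (u * ω ^ k) * inner ℂ v (T v)).re ≤ M) : ‖T‖ ≤ 2 * M := by
  -- extend to all vectors by homogeneity
  have hhom : ∀ k : ℕ, k < 3 → ∀ v : H,
      ((starRingEnd ℂ) (u * ω ^ k) * inner ℂ v (T v)).re ≤ M * ‖v‖ ^ 2 := by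
    intro k hk v
    by_cases hv : v = 0
    · simp [hv]
    have hn : ‖v‖ ≠ 0 := norm_ne_zero_iff.mpr hv
    have hpos : 0 < ‖v‖ := norm_pos_iff.mpr hv
    have h1 := h k hk ((‖v‖⁻¹ : ℂ) • v) (by rw [norm_smul]; simp [hn])
    have h2 : inner ℂ ((‖v‖⁻¹ : ℂ) • v) (T ((‖v‖⁻¹ : ℂ) • v)) =
        (((‖v‖⁻¹ * ‖v‖⁻¹ : ℝ)) : ℂ) * inner ℂ v (T v) := by
      rw [map_smul, inner_smul_left, inner_smul_right]
      simp only [map_inv₀, Complex.conj_ofReal]
      push_cast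
      ring
    rw [h2] at h1
    have h3 : (starRingEnd ℂ) (u * ω ^ k) * (((‖v‖⁻¹ * ‖v‖⁻¹ : ℝ)) : ℂ) * inner ℂ v (T v) =
        (((‖v‖⁻¹ * ‖v‖⁻¹ : ℝ)) : ℂ) * ((starRingEnd ℂ) (u * ω ^ k) * inner ℂ v (T v)) := by ring
    rw [← mul_assoc, h3, Complex.re_ofReal_mul] at h1
    have h4 : 0 < ‖v‖⁻¹ * ‖v‖⁻¹ := by positivity
    have h5 := mul_le_mul_of_nonneg_left h1 (by positivity : (0 : ℝ) ≤ ‖v‖ ^ 2)
    have h6 : ‖v‖ ^ 2 * (‖v‖⁻¹ * ‖v‖⁻¹) = 1 := by field_simp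
    calc ((starRingEnd ℂ) (u * ω ^ k) * inner ℂ v (T v)).re
        = (‖v‖ ^ 2 * (‖v‖⁻¹ * ‖v‖⁻¹)) * ((starRingEnd ℂ) (u * ω ^ k) * inner ℂ v (T v)).re := by
          rw [h6, one_mul]
      _ = ‖v‖ ^ 2 * ((‖v‖⁻¹ * ‖v‖⁻¹) * ((starRingEnd ℂ) (u * ω ^ k) * inner ℂ v (T v)).re) := by ring
      _ ≤ ‖v‖ ^ 2 * M := h5
      _ = M * ‖v‖ ^ 2 := by ring
  have hωnorm : ω * ω ^ 2 = 1 := by linear_combination (ω - 1) * hω1
  have hucu : (starRingEnd ℂ) u * u = 1 := by rw [Complex.conj_mul', hu]; simp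
  -- the sesquilinear bound
  have key : ∀ x y : H, ‖x‖ = 1 → ‖y‖ = 1 → ‖inner ℂ x (T y)‖ ≤ 2 * M := by
    intro x y hx hy
    by_cases hs0 : inner ℂ x (T y) = 0
    · rw [hs0, norm_zero]; positivity
    set s : ℂ := inner ℂ x (T y) with hs
    -- a unit `ξ` with `conj u * ξ * s = |s|`
    obtain ⟨e, he1, hes⟩ := exists_unit_phase s hs0
    set ξ : ℂ := u * (starRingEnd ℂ) e with hξ
    have hξnorm : ‖ξ‖ = 1 := by rw [hξ, norm_mul, hu, RCLike.norm_conj, he1, one_mul]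
    have hξc : (starRingEnd ℂ) u * ξ * s = (‖s‖ : ℂ) := by
      rw [hξ, ← hes]
      linear_combination ((starRingEnd ℂ) e * s) * hucu
    -- the three test vectors
    have hk0 := hhom 0 (by norm_num) (x + ξ • y)
    have hk1 := hhom 1 (by norm_num) (x + (ξ * ω) • y)
    have hk2 := hhom 2 (by norm_num) (x + (ξ * ω ^ 2) • y)
    have expand : ∀ z : ℂ, inner ℂ (x + z • y) (T (x + z • y)) =
        inner ℂ x (T x) + z * s + (starRingEnd ℂ) z * inner ℂ y (T x) +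
          ((starRingEnd ℂ) z * z) * inner ℂ y (T y) := by
      intro z
      simp only [map_add, map_smul, inner_add_left, inner_add_right, inner_smul_left,
        inner_smul_right, hs]
      ring
    have hnorm : ∀ z : ℂ, ‖x + z • y‖ ^ 2 = 1 + 2 * (z * inner ℂ x y).re + ‖z‖ ^ 2 := by
      intro z
      rw [norm_add_sq (𝕜 := ℂ), hx, inner_smul_right, norm_smul, hy]
      simp
    have hωω : (starRingEnd ℂ) ω * ω = 1 := by rw [hωc]; linear_combination hωnorm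
    have hωnorm' : ‖ω‖ = 1 := by
      have h1 : ((‖ω‖ ^ 2 : ℝ) : ℂ) = 1 := by
        have := Complex.conj_mul' ω
        rw [hωω] at this
        push_cast
        exact_mod_cast this.symm
      have h2 : ‖ω‖ ^ 2 = 1 := by exact_mod_cast h1
      have h3 : 0 ≤ ‖ω‖ := norm_nonneg _
      nlinarith
    rw [hnorm] at hk0 hk1 hk2
    rw [expand] at hk0 hk1 hk2
    have hξξ : (starRingEnd ℂ) ξ * ξ = 1 := by rw [Complex.conj_mul', hξnorm]; simp
    simp only [pow_zero, mul_one, pow_one] at hk0 hk1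
    simp only [norm_mul, hξnorm, hωnorm', norm_pow, one_pow, mul_one] at hk0 hk1 hk2
    have hsum := add_le_add (add_le_add hk0 hk1) hk2
    set α : ℂ := inner ℂ x (T x) with hα
    set β : ℂ := inner ℂ y (T x) with hβ
    set γ : ℂ := inner ℂ y (T y) with hγ
    set c : ℂ := (starRingEnd ℂ) u with hc
    set ξ' : ℂ := (starRingEnd ℂ) ξ with hξ'
    have hcoefs : c * (α + ξ * s + ξ' * β + ξ' * ξ * γ) +
        (starRingEnd ℂ) (u * ω) *
          (α + ξ * ω * s + (starRingEnd ℂ) (ξ * ω) * β +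
            (starRingEnd ℂ) (ξ * ω) * (ξ * ω) * γ) +
        (starRingEnd ℂ) (u * ω ^ 2) *
          (α + ξ * ω ^ 2 * s + (starRingEnd ℂ) (ξ * ω ^ 2) * β +
            (starRingEnd ℂ) (ξ * ω ^ 2) * (ξ * ω ^ 2) * γ) =
        (3 : ℂ) * (‖s‖ : ℂ) := by
      simp only [map_mul, map_pow, hωc, ← hc, ← hξ']
      linear_combination
        (c * α * (ω ^ 2 - ω + 1) + c * ξ * s * (ω - 1) * (ω ^ 3 + 2) +
          c * ξ' * β * (ω ^ 2 - ω + 1) * (ω ^ 4 - ω ^ 2 + 1) +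
          c * ξ' * ξ * γ * (ω ^ 8 - ω ^ 7 + ω ^ 5 - ω ^ 4 + ω ^ 3 - ω + 1)) * hω1 + 3 * hξc
    have hre := congrArg Complex.re hcoefs
    simp only [Complex.add_re] at hre
    have h3s : ((3 : ℂ) * (‖s‖ : ℂ)).re = 3 * ‖s‖ := by simp
    rw [h3s] at hre
    set ip : ℂ := inner ℂ x y with hip
    have hz : (ξ * ip).re + (ξ * ω * ip).re + (ξ * ω ^ 2 * ip).re = 0 := by
      have : ξ * ip + ξ * ω * ip + ξ * ω ^ 2 * ip = 0 := by
        linear_combination (ξ * ip) * hω1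
      have h := congrArg Complex.re this
      simpa [Complex.add_re] using h
    have hMz : M * ((ξ * ip).re + (ξ * ω * ip).re + (ξ * ω ^ 2 * ip).re) = 0 := by
      rw [hz, mul_zero]
    nlinarith [hk0, hk1, hk2, hre, hMz]
  refine ContinuousLinearMap.opNorm_le_of_unit_norm (by positivity) ?_
  intro y hy
  by_cases hXy : T y = 0
  · rw [hXy, norm_zero]; positivity
  have hn : ‖T y‖ ≠ 0 := norm_ne_zero_iff.mpr hXy
  have hk := key ((‖T y‖⁻¹ : ℂ) • T y) y (by rw [norm_smul]; simp [hn]) hy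
  rw [inner_smul_left, inner_self_eq_norm_sq_to_K, norm_mul] at hk
  simp only [map_inv₀, Complex.conj_ofReal, norm_inv, Complex.norm_real, norm_norm, norm_pow] at hk
  have hpos : 0 < ‖T y‖ := norm_pos_iff.mpr hXy
  have : ‖T y‖⁻¹ * ‖T y‖ ^ 2 = ‖T y‖ := by field_simp
  simpa [this] using hk

/-- Crouzeix inequality for `B ^ 2 - d` as soon as `|d| ≤ M`. -/
lemma quadratic_quarter (B : H →L[ℂ] H) (d : ℂ) (M : ℝ) (hd : ‖d‖ ≤ M)
    (hW : ∀ u : H, ‖u‖ = 1 → ‖(inner ℂ u (B u)) ^ 2 - d‖ ≤ M) :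
    ‖B ^ 2 - d • (1 : H →L[ℂ] H)‖ ≤ 2 * M := by
  have hM0 : 0 ≤ M := (norm_nonneg d).trans hd
  refine le_of_forall_pos_le_add ?_
  intro ε hε
  set M' : ℝ := M + ε / 2 with hM'
  have hM'pos : 0 < M' := by rw [hM']; linarith
  -- the direction of `d`
  obtain ⟨u₀, hu₀, hdu⟩ : ∃ u₀ : ℂ, ‖u₀‖ = 1 ∧ d = (‖d‖ : ℂ) * u₀ := by
    by_cases hd0 : d = 0
    · exact ⟨1, by simp, by simp [hd0]⟩
    · refine ⟨d / (‖d‖ : ℂ), ?_, ?_⟩
      · rw [norm_div]; simp [hd0]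
      · have : (‖d‖ : ℂ) ≠ 0 := by exact_mod_cast norm_ne_zero_iff.mpr hd0
        field_simp
  have hsqrt : (Real.sqrt 3) ^ 2 = 3 := Real.sq_sqrt (by norm_num)
  set ω : ℂ := ⟨-1 / 2, Real.sqrt 3 / 2⟩ with hω
  have hω1 : ω ^ 2 + ω + 1 = 0 := by
    apply Complex.ext
    · simp [hω, pow_two]; nlinarith
    · simp [hω, pow_two]; ring
  have hωc : (starRingEnd ℂ) ω = ω ^ 2 := by
    apply Complex.ext
    · simp [hω, pow_two]; nlinarith
    · simp [hω, pow_two]; ring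
  have hωnorm : ‖ω‖ = 1 := by
    have h1 : ‖ω‖ ^ 2 = 1 := by
      rw [← Complex.normSq_eq_norm_sq, Complex.normSq_apply, hω]
      simp only
      nlinarith
    have h2 := norm_nonneg ω
    nlinarith
  have hu₀c : (starRingEnd ℂ) u₀ * u₀ = 1 := by rw [Complex.conj_mul', hu₀]; simp
  have hT := triangle_bound (B ^ 2 - d • (1 : H →L[ℂ] H)) M' hM'pos.le u₀ ω hu₀ hω1 hωc ?_
  · rw [hM'] at hT
    linarith
  intro k hk x hx
  set v : ℂ := u₀ * ω ^ k with hv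
  have hvnorm : ‖v‖ = 1 := by rw [hv, norm_mul, hu₀, norm_pow, hωnorm]; simp
  set τ : ℂ := (M' : ℂ) * v with hτ
  have hτnorm : ‖τ‖ = M' := by
    rw [hτ, norm_mul, hvnorm, mul_one]; simp [abs_of_pos hM'pos]
  have hτ0 : τ ≠ 0 := by
    intro h
    rw [h, norm_zero] at hτnorm
    linarith
  have hvv : (starRingEnd ℂ) v * v = 1 := by rw [Complex.conj_mul', hvnorm]; simp
  have hdiv : d / τ = (((‖d‖ / M' : ℝ)) : ℂ) * (starRingEnd ℂ) (ω ^ k) := by
    have hM'c : (M' : ℂ) ≠ 0 := by exact_mod_cast hM'pos.ne'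
    have hv0 : v ≠ 0 := by
      intro h
      rw [h, norm_zero] at hvnorm
      norm_num at hvnorm
    have hωk : (starRingEnd ℂ) (ω ^ k) * ω ^ k = 1 := by
      rw [Complex.conj_mul', norm_pow, hωnorm]; simp
    rw [hτ, div_eq_iff (mul_ne_zero hM'c hv0), hv]
    push_cast
    rw [hdu]
    have hn : ‖(‖d‖ : ℂ) * u₀‖ = ‖d‖ := by rw [← hdu]
    rw [hn]
    field_simp
    linear_combination (-(‖d‖ : ℂ) * u₀) * hωk
  have hratio : ‖d‖ / M' ≤ 1 := by
    rw [div_le_one hM'pos]; rw [hM']; linarith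
  have hratio0 : 0 ≤ ‖d‖ / M' := by positivity
  have hre : -(1 / 2) ≤ (d / τ).re := by
    rw [hdiv, Complex.re_ofReal_mul]
    have hcos : -(1 / 2) ≤ ((starRingEnd ℂ) (ω ^ k)).re := by
      interval_cases k
      · simp; norm_num
      · simp [hω]; norm_num
      · rw [pow_two, map_mul, Complex.mul_re]
        simp [hω]
        nlinarith
    have hcos1 : ((starRingEnd ℂ) (ω ^ k)).re ≤ 1 := by
      refine (Complex.re_le_norm _).trans ?_
      rw [RCLike.norm_conj, norm_pow, hωnorm]; simp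
    nlinarith
  have hW' : ∀ u : H, ‖u‖ = 1 → ‖(inner ℂ u (B u)) ^ 2 - d‖ ≤ ‖τ‖ := by
    intro u hu
    rw [hτnorm, hM']
    have := hW u hu
    linarith
  have hp := cassini_half_plane B d τ hτ0 hre hW' x hx
  rw [hτnorm] at hp
  set S : ℂ := inner ℂ x ((B ^ 2 - d • (1 : H →L[ℂ] H)) x) with hS
  have e : (starRingEnd ℂ) τ * S = ((M' : ℝ) : ℂ) * ((starRingEnd ℂ) v * S) := by
    rw [hτ, map_mul, Complex.conj_ofReal]; ring
  rw [e, Complex.re_ofReal_mul] at hp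
  have : ((starRingEnd ℂ) v * S).re ≤ M' := by
    by_contra hcon
    push Not at hcon
    have := mul_lt_mul_of_pos_left hcon hM'pos
    nlinarith
  exact this

end Vale.Agent.P123
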