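import Mathlib

open Polynomial

namespace Vale.Agent.P123

variable {H : Type*} [NormedAddCommGroup H] [InnerProductSpace ℂ H]

/-- Homogeneity: a bound on unit vectors gives a quadratic bound. -/
lemma inner_self_bound (X : H →L[ℂ] H) (w : ℝ)
    (hw : ∀ x : H, ‖x‖ = 1 → ‖inner ℂ x (X x)‖ ≤ w) (u : H) :
    ‖inner ℂ u (X u)‖ ≤ w * ‖u‖ ^ 2 := by
  by_cases hu : u = 0
  · simp [hu]
  have hn : ‖u‖ ≠ 0 := norm_ne_zero_iff.mpr hu
  have h1 := hw ((‖u‖⁻¹ : ℂ) • u) (by
    rw [norm_smul]; simp [hn])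
  have h2 : inner ℂ ((‖u‖⁻¹ : ℂ) • u) (X ((‖u‖⁻¹ : ℂ) • u)) =
      ((‖u‖⁻¹ : ℂ) * (‖u‖⁻¹ : ℂ)) * inner ℂ u (X u) := by
    rw [map_smul, inner_smul_left, inner_smul_right]
    simp only [map_inv₀, Complex.conj_ofReal]
    ring
  rw [h2, norm_mul, norm_mul] at h1
  simp only [norm_inv, Complex.norm_real, norm_norm] at h1
  have hpos : 0 < ‖u‖ := norm_pos_iff.mpr hu
  have : ‖inner ℂ u (X u)‖ = (‖u‖⁻¹ * ‖u‖⁻¹ * ‖inner ℂ u (X u)‖) * ‖u‖ ^ 2 := by
    field_simp
  rw [this]
  exact mul_le_mul_of_nonneg_right h1 (by positivity)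

/-- Polarization: the operator norm is at most twice the numerical radius. -/
lemma opNorm_le_two_mul (X : H →L[ℂ] H) (w : ℝ) (hw0 : 0 ≤ w)
    (hw : ∀ x : H, ‖x‖ = 1 → ‖inner ℂ x (X x)‖ ≤ w) : ‖X‖ ≤ 2 * w := by
  have hq := inner_self_bound X w hw
  have hq' : ∀ u : H, ‖inner ℂ (X u) u‖ ≤ w * ‖u‖ ^ 2 := fun u => by
    rw [← inner_conj_symm, RCLike.norm_conj]; exact hq u
  have key : ∀ x y : H, ‖x‖ = 1 → ‖y‖ = 1 → ‖inner ℂ (X y) x‖ ≤ 2 * w := by
    intro x y hx hy
    have hp := inner_map_polarization (X : H →ₗ[ℂ] H) x y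
    simp only [ContinuousLinearMap.coe_coe] at hp
    rw [hp, norm_div]
    have h4 : ‖(4 : ℂ)‖ = 4 := by simp
    rw [h4, div_le_iff₀ (by norm_num)]
    have a1 := hq' (x + y)
    have a2 := hq' (x - y)
    have a3 := hq' (x + Complex.I • y)
    have a4 := hq' (x - Complex.I • y)
    have par1 := parallelogram_law_with_norm ℂ x y
    have par2 := parallelogram_law_with_norm ℂ x (Complex.I • y)
    have hIy : ‖Complex.I • y‖ = 1 := by rw [norm_smul]; simp [hy]
    rw [hIy] at par2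
    rw [hx, hy] at par1
    rw [hx] at par2
    calc _ ≤ ‖inner ℂ (X (x + y)) (x + y)‖ + ‖inner ℂ (X (x - y)) (x - y)‖
          + ‖inner ℂ (X (x + Complex.I • y)) (x + Complex.I • y)‖
          + ‖inner ℂ (X (x - Complex.I • y)) (x - Complex.I • y)‖ := by
            refine (norm_sub_le _ _).trans ?_
            refine add_le_add ((norm_add_le _ _).trans ?_) ?_
            · refine add_le_add (norm_sub_le _ _) ?_
              rw [norm_mul, Complex.norm_I, one_mul]
            · rw [norm_mul, Complex.norm_I, one_mul]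
      _ ≤ w * ‖x + y‖ ^ 2 + w * ‖x - y‖ ^ 2 + w * ‖x + Complex.I • y‖ ^ 2
          + w * ‖x - Complex.I • y‖ ^ 2 := by gcongr
      _ = 2 * w * 4 := by
            have e1 : ‖x + y‖ ^ 2 + ‖x - y‖ ^ 2 = 4 := by nlinarith
            have e2 : ‖x + Complex.I • y‖ ^ 2 + ‖x - Complex.I • y‖ ^ 2 = 4 := by nlinarith
            linear_combination w * e1 + w * e2
  refine ContinuousLinearMap.opNorm_le_of_unit_norm (by positivity) ?_
  intro y hy
  by_cases hXy : X y = 0
  · rw [hXy, norm_zero]; positivity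
  have hn : ‖X y‖ ≠ 0 := norm_ne_zero_iff.mpr hXy
  have hk := key ((‖X y‖⁻¹ : ℂ) • X y) y (by rw [norm_smul]; simp [hn]) hy
  rw [inner_smul_right, inner_self_eq_norm_sq_to_K, norm_mul] at hk
  simp only [norm_inv, Complex.norm_real, norm_norm, norm_pow] at hk
  have hpos : 0 < ‖X y‖ := norm_pos_iff.mpr hXy
  have : ‖X y‖⁻¹ * ‖X y‖ ^ 2 = ‖X y‖ := by field_simp
  simpa [this] using hk


/-- The master identity: expansion of the quadratic form of `Q(A)` over the simple roots of `Q`. -/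
lemma master_identity (A : H →L[ℂ] H) {ι : Type*} [DecidableEq ι] (s : Finset ι) (v : ι → ℂ)
    (hv : Set.InjOn v s) (hs : s.Nonempty) (a : ℂ) (x : H) :
    inner ℂ x (aeval A (C a * Lagrange.nodal s v) x) =
      ∑ i ∈ s, (derivative (C a * Lagrange.nodal s v)).eval (v i) *
        inner ℂ (aeval A (Lagrange.basis s v i) x)
          ((A - v i • (1 : H →L[ℂ] H)) (aeval A (Lagrange.basis s v i) x)) := by
  classical
  have hsum : (∑ i ∈ s, aeval A (Lagrange.basis s v i)) = (1 : H →L[ℂ] H) := by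
    rw [← map_sum, Lagrange.sum_basis hv hs, map_one]
  have hx : x = ∑ i ∈ s, aeval A (Lagrange.basis s v i) x := by
    have := congrArg (fun T : H →L[ℂ] H => T x) hsum
    simpa [FunLike.coe_sum, Finset.sum_apply] using this.symm
  have hfactor : ∀ i ∈ s, C a * Lagrange.nodal s v =
      C ((derivative (C a * Lagrange.nodal s v)).eval (v i)) * ((X - C (v i)) * Lagrange.basis s v i) := by
    intro i hi
    have h1 : Lagrange.nodal s v = (X - C (v i)) * Lagrange.nodal (s.erase i) v :=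
      Lagrange.nodal_eq_mul_nodal_erase hi
    have h2 : (derivative (Lagrange.nodal s v)).eval (v i) = (Lagrange.nodal (s.erase i) v).eval (v i) :=
      Lagrange.eval_nodal_derivative_eval_node_eq hi
    have h3 : (Lagrange.nodal (s.erase i) v).eval (v i) ≠ 0 := by
      rw [Lagrange.eval_nodal]
      refine Finset.prod_ne_zero_iff.mpr ?_
      intro j hj
      have hjs : j ∈ s := Finset.mem_of_mem_erase hj
      have hne : j ≠ i := Finset.ne_of_mem_erase hj
      exact sub_ne_zero.mpr (fun h => hne (hv hjs hi h.symm))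
    have h4 : Lagrange.basis s v i =
        C ((Lagrange.nodal (s.erase i) v).eval (v i))⁻¹ * Lagrange.nodal (s.erase i) v := by
      rw [Lagrange.basis_eq_prod_sub_inv_mul_nodal_div hi, ← Lagrange.nodal_erase_eq_nodal_div hi,
        Lagrange.nodalWeight_eq_eval_nodal_erase_inv]
    rw [derivative_mul, derivative_C, zero_mul, zero_add, eval_mul, eval_C, h2, h4, h1]
    have h5 : C (Polynomial.eval (v i) (Lagrange.nodal (s.erase i) v)) *
        C ((Polynomial.eval (v i) (Lagrange.nodal (s.erase i) v))⁻¹) = (1 : ℂ[X]) := by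
      rw [← C_mul, mul_inv_cancel₀ h3, C_1]
    simp only [C_mul]
    linear_combination (-(C a * ((X - C (v i)) * Lagrange.nodal (s.erase i) v))) * h5
  have hterm : ∀ i ∈ s, inner ℂ (aeval A (Lagrange.basis s v i) x)
      (aeval A (C a * Lagrange.nodal s v) x) =
      (derivative (C a * Lagrange.nodal s v)).eval (v i) *
        inner ℂ (aeval A (Lagrange.basis s v i) x)
          ((A - v i • (1 : H →L[ℂ] H)) (aeval A (Lagrange.basis s v i) x)) := by
    intro i hi
    conv_lhs => rw [hfactor i hi]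
    rw [← inner_smul_right]
    congr 1
    simp only [map_mul, aeval_C, map_sub, aeval_X]
    simp [Algebra.algebraMap_eq_smul_one]
  calc inner ℂ x (aeval A (C a * Lagrange.nodal s v) x)
      = ∑ i ∈ s, inner ℂ (aeval A (Lagrange.basis s v i) x) (aeval A (C a * Lagrange.nodal s v) x) := by
        conv_lhs => rw [hx]
        rw [sum_inner]
        simp only [← hx]
    _ = _ := Finset.sum_congr rfl hterm


/-- Quadratic form of `v - A` on an arbitrary vector, in terms of the numerical range. -/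
lemma re_form_nonneg (A : H →L[ℂ] H) (W : Set ℂ)
    (hW : ∀ u : H, ‖u‖ = 1 → inner ℂ u (A u) ∈ W) (v d : ℂ)
    (htan : ∀ z ∈ W, 0 ≤ (d * (v - z)).re) (u : H) :
    0 ≤ (d * inner ℂ u ((v • (1 : H →L[ℂ] H) - A) u)).re := by
  by_cases hu : u = 0
  · simp [hu]
  have hn : ‖u‖ ≠ 0 := norm_ne_zero_iff.mpr hu
  have hpos : 0 < ‖u‖ := norm_pos_iff.mpr hu
  set w : H := (‖u‖⁻¹ : ℂ) • u with hw
  have hw1 : ‖w‖ = 1 := by rw [hw, norm_smul]; simp [hn]
  have hz := htan _ (hW w hw1)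
  have hinner : inner ℂ u (A u) = ((‖u‖ : ℂ) ^ 2) * inner ℂ w (A w) := by
    rw [hw, map_smul, inner_smul_left, inner_smul_right]
    simp only [map_inv₀, Complex.conj_ofReal]
    have hnc : (‖u‖ : ℂ) ≠ 0 := by exact_mod_cast hn
    field_simp
  have hself : inner ℂ u u = ((‖u‖ : ℂ) ^ 2) := inner_self_eq_norm_sq_to_K u
  have hexp : d * inner ℂ u ((v • (1 : H →L[ℂ] H) - A) u) =
      ((‖u‖ ^ 2 : ℝ) : ℂ) * (d * (v - inner ℂ w (A w))) := by
    simp only [sub_apply, smul_apply,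
      one_apply_eq_self, inner_sub_right, inner_smul_right]
    rw [hinner, hself]
    push_cast
    ring
  rw [hexp, Complex.re_ofReal_mul]
  positivity

/-- The core positivity statement for a polynomial with simple roots. -/
lemma re_form_nodal (A : H →L[ℂ] H) (W : Set ℂ)
    (hW : ∀ u : H, ‖u‖ = 1 → inner ℂ u (A u) ∈ W) {ι : Type*} [DecidableEq ι] (s : Finset ι)
    (v : ι → ℂ) (hv : Set.InjOn v s) (hs : s.Nonempty) (a c : ℂ)
    (htan : ∀ i ∈ s, ∀ z ∈ W,
      0 ≤ (c * ((derivative (C a * Lagrange.nodal s v)).eval (v i)) * (v i - z)).re) (x : H) :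
    0 ≤ (c * - inner ℂ x (aeval A (C a * Lagrange.nodal s v) x)).re := by
  rw [master_identity A s v hv hs a x, ← Finset.sum_neg_distrib, Finset.mul_sum, Complex.re_sum]
  refine Finset.sum_nonneg ?_
  intro i hi
  have := re_form_nonneg A W hW (v i) (c * ((derivative (C a * Lagrange.nodal s v)).eval (v i)))
    (htan i hi) (aeval A (Lagrange.basis s v i) x)
  have e : (A - v i • (1 : H →L[ℂ] H)) (aeval A (Lagrange.basis s v i) x) =
      -((v i • (1 : H →L[ℂ] H) - A) (aeval A (Lagrange.basis s v i) x)) := by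
    simp
  rw [e, inner_neg_right]
  simpa only [mul_neg, neg_neg, mul_assoc] using this


/-- Toeplitz-Hausdorff: the numerical range is convex. -/
lemma numericalRange_convex (A : H →L[ℂ] H) :
    Convex ℝ {z : ℂ | ∃ x : H, ‖x‖ = 1 ∧ inner ℂ x (A x) = z} := by
  rintro a ⟨x, hx, rfl⟩ b ⟨y, hy, rfl⟩ p q hp hq hpq
  by_cases hab : inner ℂ x (A x) = inner ℂ y (A y)
  · refine ⟨x, hx, ?_⟩
    rw [← hab, ← add_smul, hpq, one_smul]
  set a := inner ℂ x (A x) with ha
  set b := inner ℂ y (A y) with hb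
  have hba : b - a ≠ 0 := sub_ne_zero.mpr (Ne.symm hab)
  set B : H →L[ℂ] H := (b - a)⁻¹ • (A - a • (1 : H →L[ℂ] H)) with hB
  have hxx : inner ℂ x x = (1 : ℂ) := by rw [inner_self_eq_norm_sq_to_K, hx]; simp
  have hyy : inner ℂ y y = (1 : ℂ) := by rw [inner_self_eq_norm_sq_to_K, hy]; simp
  have hphi : ∀ u : H, inner ℂ u (B u) = (b - a)⁻¹ * (inner ℂ u (A u) - a * inner ℂ u u) := by
    intro u
    simp [hB]
  have hBx : inner ℂ x (B x) = 0 := by rw [hphi, ← ha, hxx]; simp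
  have hBy : inner ℂ y (B y) = 1 := by
    rw [hphi, ← hb, hyy, mul_one]; exact inv_mul_cancel₀ hba
  set P : ℂ := inner ℂ x (B y) with hP
  set Q : ℂ := inner ℂ y (B x) with hQ
  set D : ℂ := P - (starRingEnd ℂ) Q with hD
  obtain ⟨c, hc1, hcD⟩ : ∃ c : ℂ, ‖c‖ = 1 ∧ ((starRingEnd ℂ) c * D).im = 0 := by
    by_cases hD0 : D = 0
    · exact ⟨1, by simp, by simp [hD0]⟩
    · refine ⟨D / (‖D‖ : ℂ), ?_, ?_⟩
      · rw [norm_div]; simp [hD0]
      · have : (starRingEnd ℂ) (D / (‖D‖ : ℂ)) * D = ((‖D‖ : ℝ) : ℂ) := by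
          have hnD : (‖D‖ : ℂ) ≠ 0 := by exact_mod_cast norm_ne_zero_iff.mpr hD0
          rw [map_div₀, Complex.conj_ofReal, div_mul_eq_mul_div, Complex.conj_mul']
          field_simp
        rw [this]; simp
  have hcc : (starRingEnd ℂ) c * c = 1 := by
    rw [Complex.conj_mul', hc1]; simp
  set xc : H := c • x with hxc
  have hxc1 : ‖xc‖ = 1 := by rw [hxc, norm_smul, hc1, hx, one_mul]
  have hBxc : inner ℂ xc (B xc) = 0 := by
    rw [hxc, map_smul, inner_smul_left, inner_smul_right, hBx]; simp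
  have hcross1 : inner ℂ xc (B y) = (starRingEnd ℂ) c * P := by
    rw [hxc, inner_smul_left]
  have hcross2 : inner ℂ y (B xc) = c * Q := by
    rw [hxc, map_smul, inner_smul_right]
  have him : ((starRingEnd ℂ) c * P + c * Q).im = 0 := by
    have e : (starRingEnd ℂ) c * D = (starRingEnd ℂ) c * P - (starRingEnd ℂ) (c * Q) := by
      rw [hD, map_mul, mul_sub]
    rw [e, Complex.sub_im, Complex.conj_im] at hcD
    rw [Complex.add_im]; linarith
  set r : ℝ := ((starRingEnd ℂ) c * P + c * Q).re with hr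
  have hrc : (starRingEnd ℂ) c * P + c * Q = (r : ℂ) := by
    apply Complex.ext <;> simp [hr, him]
  set u : ℝ → H := fun s => (s : ℂ) • xc + ((1 - s : ℝ) : ℂ) • y with hu
  have hformula : ∀ s : ℝ, inner ℂ (u s) (B (u s)) =
      (((1 - s) ^ 2 + s * (1 - s) * r : ℝ) : ℂ) := by
    intro s
    simp only [hu, map_add, map_smul, inner_add_left, inner_add_right, inner_smul_left,
      inner_smul_right, Complex.conj_ofReal, hBxc, hBy, hcross1, hcross2]
    have h := hrc
    push_cast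
    linear_combination ((s : ℂ) * (1 - (s : ℂ))) * h
  have hne : ∀ s ∈ Set.Icc (0 : ℝ) 1, u s ≠ 0 := by
    intro s hs h0
    apply hab
    rcases eq_or_lt_of_le hs.2 with hs1 | hs1
    · have : xc = 0 := by simpa [hu, hs1] using h0
      rw [this, norm_zero] at hxc1
      exact absurd hxc1 (by norm_num)
    have hs1' : (1 - s : ℝ) ≠ 0 := by linarith
    have hs1c : ((1 - s : ℝ) : ℂ) ≠ 0 := by exact_mod_cast hs1'
    have hy' : y = (-(s : ℂ) / ((1 - s : ℝ) : ℂ)) • xc := by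
      have h1 : ((1 - s : ℝ) : ℂ) • y = -((s : ℂ) • xc) := by
        have := h0
        simp only [hu] at this
        exact eq_neg_of_add_eq_zero_right this
      have h2 : y = ((1 - s : ℝ) : ℂ)⁻¹ • (((1 - s : ℝ) : ℂ) • y) := by
        rw [smul_smul, inv_mul_cancel₀ hs1c, one_smul]
      rw [h2, h1, smul_neg, smul_smul, ← neg_smul]
      congr 1
      field_simp
    set e : ℂ := -(s : ℂ) / ((1 - s : ℝ) : ℂ) with he
    have hen : ‖e‖ = 1 := by
      have := congrArg norm hy'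
      rw [hy, norm_smul, hxc1, mul_one] at this
      exact this.symm
    have hee : (starRingEnd ℂ) e * e = 1 := by
      rw [Complex.conj_mul', hen]; simp
    rw [hb, ha, hy', hxc]
    simp only [map_smul, inner_smul_left, inner_smul_right]
    calc _ = ((starRingEnd ℂ) c * c) * inner ℂ x (A x) := by rw [hcc, one_mul]
      _ = ((starRingEnd ℂ) e * e) * (((starRingEnd ℂ) c * c) * inner ℂ x (A x)) := by
          rw [hee, one_mul]
      _ = _ := by ring
  set N : ℝ → ℝ := fun s => ‖u s‖ ^ 2 with hN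
  set g : ℝ → ℝ := fun s => ((1 - s) ^ 2 + s * (1 - s) * r) / N s with hg
  have hNpos : ∀ s ∈ Set.Icc (0 : ℝ) 1, 0 < N s := fun s hs => by
    have := norm_pos_iff.mpr (hne s hs)
    simp only [hN]; positivity
  have hucont : Continuous u := by
    simp only [hu]
    fun_prop
  have hgcont : ContinuousOn g (Set.Icc 0 1) := by
    refine ContinuousOn.div (by fun_prop) (by simp only [hN]; fun_prop) ?_
    intro s hs
    exact (hNpos s hs).ne'
  have hg0 : g 0 = 1 := by
    simp [hg, hN, hu, hy]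
  have hg1 : g 1 = 0 := by
    simp [hg, hN, hu]
  have hq01 : q ∈ Set.Icc (g 1) (g 0) := by
    rw [hg0, hg1]; exact ⟨hq, by linarith⟩
  obtain ⟨s, hs, hgs⟩ := intermediate_value_Icc' (by norm_num : (0 : ℝ) ≤ 1) hgcont hq01
  have hNs := hNpos s hs
  have hus : ‖u s‖ ≠ 0 := norm_ne_zero_iff.mpr (hne s hs)
  set w : H := (‖u s‖⁻¹ : ℂ) • u s with hw
  have hw1 : ‖w‖ = 1 := by rw [hw, norm_smul]; simp [hus]
  refine ⟨w, hw1, ?_⟩
  have hBw : inner ℂ w (B w) = (q : ℂ) := by
    rw [hw, map_smul, inner_smul_left, inner_smul_right, hformula]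
    simp only [map_inv₀, Complex.conj_ofReal]
    rw [← hgs]
    simp only [hg, hN]
    have hnc : (‖u s‖ : ℂ) ≠ 0 := by exact_mod_cast hus
    push_cast
    field_simp
  have hww : inner ℂ w w = (1 : ℂ) := by rw [inner_self_eq_norm_sq_to_K, hw1]; simp
  rw [hphi, hww, mul_one] at hBw
  have hfinal : inner ℂ w (A w) = a + (q : ℂ) * (b - a) := by
    have := congrArg (fun t => (b - a) * t) hBw
    simp only [mul_inv_cancel_left₀ hba] at this
    rw [sub_eq_iff_eq_add] at this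
    rw [this]; ring
  rw [hfinal]
  have hp' : p = 1 - q := by linarith
  simp only [Complex.real_smul, hp']
  push_cast
  ring

/-- Real linear functionals on the complex plane. -/
lemma real_functional (f : StrongDual ℝ ℂ) : ∃ d : ℂ, ∀ w : ℂ, f w = (d * w).re := by
  refine ⟨(f 1 : ℂ) - (f Complex.I : ℂ) * Complex.I, fun w => ?_⟩
  have h : w = (w.re : ℝ) • (1 : ℂ) + (w.im : ℝ) • Complex.I := by
    apply Complex.ext <;> simp
  conv_lhs => rw [h]
  rw [map_add, map_smul, map_smul]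
  simp [Complex.mul_re]
  ring

/-- Every `k`-th root of `⟪x, B^k x⟫` lies in the closure of any convex set `K` which contains the
numerical range of `B` and is invariant under multiplication by a primitive `k`-th root of unity. -/
lemma power_mem_closure (B : H →L[ℂ] H) {k : ℕ} (hk : 2 ≤ k) {ω : ℂ} (hω : IsPrimitiveRoot ω k)
    {K : Set ℂ} (hK : Convex ℝ K) (hrot : ∀ z ∈ K, ω * z ∈ K)
    (hW : ∀ x : H, ‖x‖ = 1 → inner ℂ x (B x) ∈ K) (x : H) (hx : ‖x‖ = 1) (z : ℂ)
    (hz : z ^ k = inner ℂ x ((B ^ k) x)) : z ∈ closure K := by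
  by_contra hzK
  obtain ⟨f, u, hfu, huz⟩ := geometric_hahn_banach_closed_point hK.closure isClosed_closure hzK
  obtain ⟨d, hd⟩ := real_functional f
  have hrotn : ∀ (n : ℕ), ∀ w ∈ K, ω ^ n * w ∈ K := by
    intro n
    induction n with
    | zero => intro w hw; simpa using hw
    | succ n ih =>
      intro w hw
      have := hrot _ (ih w hw)
      convert this using 1
      ring
  have h0K : (0 : ℂ) ∈ K := by
    have hw := hW x hx
    set w := inner ℂ x (B x) with hwdef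
    have hmem : ∑ j ∈ Finset.range k, ((1 : ℝ) / k) • (ω ^ j * w) ∈ K := by
      refine hK.sum_mem (fun _ _ => by positivity) ?_ (fun j _ => hrotn j w hw)
      simp only [Finset.sum_const, Finset.card_range, nsmul_eq_mul]
      have : (k : ℝ) ≠ 0 := by positivity
      field_simp
    have hzero : ∑ j ∈ Finset.range k, ((1 : ℝ) / k) • (ω ^ j * w) = 0 := by
      rw [← Finset.smul_sum, ← Finset.sum_mul, hω.geom_sum_eq_zero (by omega)]
      simp
    rwa [hzero] at hmem
  have hu0 : 0 < u := by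
    have := hfu 0 (subset_closure h0K)
    simpa using this
  have hF : 0 < f z := hu0.trans huz
  set l : ℝ := u / f z with hl
  have hl0 : 0 < l := div_pos hu0 hF
  have hl1 : l < 1 := (div_lt_one hF).mpr huz
  have hz0 : z ≠ 0 := by
    rintro rfl
    simp at hF
  set σ : ℂ := (l : ℂ) * z with hσ
  have hσ0 : σ ≠ 0 := mul_ne_zero (by exact_mod_cast hl0.ne') hz0
  have hσre : (d * σ).re = u := by
    have e : d * σ = (l : ℂ) * (d * z) := by rw [hσ]; ring
    rw [e, Complex.re_ofReal_mul, ← hd, hl]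
    field_simp
  obtain ⟨n, rfl⟩ : ∃ n, k = n + 1 := ⟨k - 1, by omega⟩
  have hpoly : (X ^ (n + 1) - C (σ ^ (n + 1)) : ℂ[X]) =
      C 1 * Lagrange.nodal (Finset.range (n + 1)) (fun j => ω ^ j * σ) := by
    rw [C_1, one_mul, Lagrange.nodal]
    exact X_pow_sub_C_eq_prod hω (by omega) rfl
  have hv : Set.InjOn (fun j => ω ^ j * σ) (Finset.range (n + 1) : Set ℕ) := by
    intro a ha b hb hab
    exact hω.pow_inj (Finset.mem_range.mp ha) (Finset.mem_range.mp hb)
      (mul_right_cancel₀ hσ0 hab)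
  have key := re_form_nodal B K hW (Finset.range (n + 1)) (fun j => ω ^ j * σ) hv
    ⟨0, by simp⟩ 1 (d * (starRingEnd ℂ) σ ^ n) ?_ x
  · rw [← hpoly] at key
    have hinner : inner ℂ x (aeval B (X ^ (n + 1) - C (σ ^ (n + 1)) : ℂ[X]) x) =
        z ^ (n + 1) - σ ^ (n + 1) := by
      have hxx : inner ℂ x x = (1 : ℂ) := by rw [inner_self_eq_norm_sq_to_K, hx]; simp
      simp only [map_sub, aeval_X_pow, aeval_C, sub_apply, inner_sub_right]
      rw [← hz, Algebra.algebraMap_eq_smul_one, smul_apply, one_apply_eq_self, inner_smul_right,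
        hxx, mul_one]
    rw [hinner] at key
    have hfinal : (d * (starRingEnd ℂ) σ ^ n * -(z ^ (n + 1) - σ ^ (n + 1))) =
        ((l ^ n * (l ^ (n + 1) - 1) * Complex.normSq z ^ n : ℝ) : ℂ) * (d * z) := by
      have hconj : (starRingEnd ℂ) z * z = (Complex.normSq z : ℂ) :=
        (Complex.normSq_eq_conj_mul_self).symm
      simp only [hσ, map_mul, Complex.conj_ofReal]
      push_cast
      rw [← hconj]
      ring
    rw [hfinal, Complex.re_ofReal_mul, ← hd] at key
    have hnegl : l ^ (n + 1) - 1 < 0 := by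
      have : l ^ (n + 1) < 1 := pow_lt_one₀ hl0.le hl1 (by omega)
      linarith
    have hnorm : 0 < Complex.normSq z := Complex.normSq_pos.mpr hz0
    have : l ^ n * (l ^ (n + 1) - 1) * Complex.normSq z ^ n * f z < 0 := by
      have h1 : 0 < l ^ n * Complex.normSq z ^ n * f z := by positivity
      nlinarith
    linarith
  · intro j _ w hw
    rw [← hpoly]
    have hder : (derivative (X ^ (n + 1) - C (σ ^ (n + 1)) : ℂ[X])).eval (ω ^ j * σ) =
        ((n : ℂ) + 1) * (ω ^ j * σ) ^ n := by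
      rw [derivative_sub, derivative_C, sub_zero, derivative_X_pow]
      simp
    rw [hder]
    have hw' := hrotn (j * n) w hw
    have hpow : (ω ^ j) ^ (n + 1) = 1 := by
      rw [← pow_mul, mul_comm, pow_mul, hω.pow_eq_one, one_pow]
    have hexp : d * (starRingEnd ℂ) σ ^ n * (((n : ℂ) + 1) * (ω ^ j * σ) ^ n) * (ω ^ j * σ - w) =
        ((((n : ℝ) + 1) * Complex.normSq σ ^ n : ℝ) : ℂ) * (d * (σ - ω ^ (j * n) * w)) := by
      have hconj : (starRingEnd ℂ) σ * σ = (Complex.normSq σ : ℂ) :=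
        (Complex.normSq_eq_conj_mul_self).symm
      have h1 : (ω ^ j * σ) ^ n * (ω ^ j * σ - w) = σ ^ n * (σ - ω ^ (j * n) * w) := by
        have h2 : (ω ^ j) ^ n * ω ^ j = 1 := by rw [← pow_succ]; exact hpow
        rw [mul_pow, pow_mul]
        linear_combination σ ^ (n + 1) * h2
      calc _ = d * (starRingEnd ℂ) σ ^ n * ((n : ℂ) + 1) * ((ω ^ j * σ) ^ n * (ω ^ j * σ - w)) := by ring
        _ = d * (starRingEnd ℂ) σ ^ n * ((n : ℂ) + 1) * (σ ^ n * (σ - ω ^ (j * n) * w)) := by rw [h1]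
        _ = ((n : ℂ) + 1) * ((starRingEnd ℂ) σ * σ) ^ n * (d * (σ - ω ^ (j * n) * w)) := by
            rw [mul_pow]; ring
        _ = _ := by rw [hconj]; push_cast; ring
    rw [hexp, Complex.re_ofReal_mul]
    refine mul_nonneg (mul_nonneg (by positivity) (pow_nonneg (Complex.normSq_nonneg _) _)) ?_
    have h3 : (d * (σ - ω ^ (j * n) * w)).re = u - f (ω ^ (j * n) * w) := by
      rw [mul_sub, Complex.sub_re, hσre, hd]
    rw [h3]
    have := hfu _ (subset_closure hw')
    linarith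

/-- Crouzeix type bound for `a z^k + b` on a rotation invariant convex set. -/
lemma power_opNorm_le [Nontrivial H] (B : H →L[ℂ] H) {k : ℕ} (hk : 2 ≤ k) {ω : ℂ}
    (hω : IsPrimitiveRoot ω k)
    {K : Set ℂ} (hK : Convex ℝ K) (hrot : ∀ z ∈ K, ω * z ∈ K)
    (hW : ∀ x : H, ‖x‖ = 1 → inner ℂ x (B x) ∈ K) (a b : ℂ) (M : ℝ)
    (hM : ∀ z ∈ K, ‖a * z ^ k + b‖ ≤ M) :
    ‖a • B ^ k + b • (1 : H →L[ℂ] H)‖ ≤ 2 * M := by
  obtain ⟨y, hy⟩ := exists_ne (0 : H)
  have hny : ‖y‖ ≠ 0 := norm_ne_zero_iff.mpr hy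
  have hy1 : ‖(‖y‖⁻¹ : ℂ) • y‖ = 1 := by rw [norm_smul]; simp [hny]
  have hM0 : 0 ≤ M := (norm_nonneg _).trans (hM _ (hW _ hy1))
  have hclosed : ∀ z ∈ closure K, ‖a * z ^ k + b‖ ≤ M := by
    have hcl : IsClosed {z : ℂ | ‖a * z ^ k + b‖ ≤ M} :=
      isClosed_le (by fun_prop) continuous_const
    exact fun z hz => closure_minimal (fun w hw => hM w hw) hcl hz
  refine opNorm_le_two_mul _ M hM0 ?_
  intro x hx
  obtain ⟨z, hz⟩ : ∃ z : ℂ, z ^ k = inner ℂ x ((B ^ k) x) :=
    IsAlgClosed.exists_pow_nat_eq _ (by omega)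
  have hzK := power_mem_closure B hk hω hK hrot hW x hx z hz
  have hxx : inner ℂ x x = (1 : ℂ) := by rw [inner_self_eq_norm_sq_to_K, hx]; simp
  have e : inner ℂ x ((a • B ^ k + b • (1 : H →L[ℂ] H)) x) = a * z ^ k + b := by
    simp only [add_apply, smul_apply, one_apply_eq_self, inner_add_right, inner_smul_right]
    rw [hxx, hz]
    ring
  rw [e]
  exact hclosed z hzK

/-- The phase of a nonzero complex number. -/
lemma exists_unit_phase (s : ℂ) (hs0 : s ≠ 0) :
    ∃ u : ℂ, ‖u‖ = 1 ∧ (starRingEnd ℂ) u * s = (‖s‖ : ℂ) := by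
  have hns : (‖s‖ : ℂ) ≠ 0 := by exact_mod_cast norm_ne_zero_iff.mpr hs0
  refine ⟨s / (‖s‖ : ℂ), ?_, ?_⟩
  · rw [norm_div]; simp [hs0]
  · rw [map_div₀, Complex.conj_ofReal, div_mul_eq_mul_div, Complex.conj_mul']
    field_simp

/-- A tangent half-plane of a convex sublevel set of `|P|`. -/
lemma tangent_of_convex (P : ℂ[X]) (ρ : ℝ) (hL : Convex ℝ {z : ℂ | ‖P.eval z‖ ≤ ρ}) (σ z : ℂ)
    (hσ : ‖P.eval σ‖ = ρ) (hz : ‖P.eval z‖ ≤ ρ) :
    0 ≤ ((starRingEnd ℂ) (P.eval σ) * (derivative P).eval σ * (σ - z)).re := by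
  set τ := P.eval σ with hτ
  have hρ0 : 0 ≤ ρ := hσ ▸ norm_nonneg _
  have he : HasDerivAt (fun w : ℂ => P.eval (σ + w * (z - σ)))
      ((derivative P).eval σ * (z - σ)) 0 := by
    have h1 : HasDerivAt (fun w : ℂ => σ + w * (z - σ)) (z - σ) 0 := by
      simpa using ((hasDerivAt_id (0 : ℂ)).mul_const (z - σ)).const_add σ
    have h2 := P.hasDerivAt (σ + 0 * (z - σ))
    have h3 : σ + 0 * (z - σ) = σ := by ring
    rw [h3] at h2
    have h4 : HasDerivAt (fun w : ℂ => P.eval (σ + w * (z - σ)))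
        ((derivative P).eval σ * (z - σ)) 0 := by
      have := HasDerivAt.comp (0 : ℂ) (h₂ := fun w => P.eval w) (h := fun w => σ + w * (z - σ))
        (h₂' := (derivative P).eval σ) (h' := z - σ) (by simpa using h2) h1
      exact this
    exact h4
  have hr : HasDerivAt (fun t : ℝ => ((starRingEnd ℂ) τ * P.eval (σ + (t : ℂ) * (z - σ))).re)
      (((starRingEnd ℂ) τ * ((derivative P).eval σ * (z - σ))).re) 0 := by
    have h1 := (he.const_mul ((starRingEnd ℂ) τ))
    have h2 : HasDerivAt (fun w : ℂ => (starRingEnd ℂ) τ * P.eval (σ + w * (z - σ)))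
        ((starRingEnd ℂ) τ * ((derivative P).eval σ * (z - σ))) ((0 : ℝ) : ℂ) := by
      simpa using h1
    exact h2.real_of_complex
  have hbound : ∀ t ∈ Set.Ioc (0 : ℝ) 1,
      t⁻¹ • (((starRingEnd ℂ) τ * P.eval (σ + ((0 + t : ℝ) : ℂ) * (z - σ))).re -
        ((starRingEnd ℂ) τ * P.eval (σ + ((0 : ℝ) : ℂ) * (z - σ))).re) ≤ 0 := by
    intro t ht
    have hmem : σ + (t : ℂ) * (z - σ) ∈ {z : ℂ | ‖P.eval z‖ ≤ ρ} := by
      have hσmem : σ ∈ {z : ℂ | ‖P.eval z‖ ≤ ρ} := by
        show ‖P.eval σ‖ ≤ ρ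
        rw [← hτ, hσ]
      have := hL hσmem hz (by linarith [ht.2] : (0 : ℝ) ≤ 1 - t) ht.1.le (by ring)
      convert this using 1
      simp only [Complex.real_smul]
      push_cast
      ring
    have h1 : ((starRingEnd ℂ) τ * P.eval (σ + ((0 + t : ℝ) : ℂ) * (z - σ))).re ≤ ρ * ρ := by
      rw [zero_add]
      refine (Complex.re_le_norm _).trans ?_
      rw [norm_mul, RCLike.norm_conj, hσ]
      exact mul_le_mul_of_nonneg_left hmem hρ0
    have h2 : ((starRingEnd ℂ) τ * P.eval (σ + ((0 : ℝ) : ℂ) * (z - σ))).re = ρ * ρ := by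
      have h0 : σ + ((0 : ℝ) : ℂ) * (z - σ) = σ := by simp
      rw [h0, ← hτ, Complex.conj_mul', hσ]
      norm_cast
      ring_nf
    rw [h2, smul_eq_mul]
    have h3 : 0 < t⁻¹ := inv_pos.mpr ht.1
    nlinarith
  have hlim := hasDerivAt_iff_tendsto_slope_zero.mp hr
  have hle : ((starRingEnd ℂ) τ * ((derivative P).eval σ * (z - σ))).re ≤ 0 := by
    have hlim' := hlim.mono_left (nhdsWithin_mono (0 : ℝ)
      (fun t (ht : t ∈ Set.Ioi (0 : ℝ)) => ne_of_gt (Set.mem_Ioi.mp ht)))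
    refine le_of_tendsto hlim' ?_
    filter_upwards [Ioc_mem_nhdsGT (zero_lt_one' ℝ)] with t ht
    exact hbound t ht
  have e : (starRingEnd ℂ) τ * (derivative P).eval σ * (σ - z) =
      -((starRingEnd ℂ) τ * ((derivative P).eval σ * (z - σ))) := by ring
  rw [e, Complex.neg_re]
  linarith

/-- Convex lemniscates: the numerical radius bound. -/
lemma lemniscate_numerical_radius (A : H →L[ℂ] H) (P : ℂ[X]) (ρ : ℝ) (hρ : 0 < ρ)
    (hL : Convex ℝ {z : ℂ | ‖P.eval z‖ ≤ ρ})
    (hW : ∀ u : H, ‖u‖ = 1 → ‖P.eval (inner ℂ u (A u))‖ ≤ ρ) (x : H) (hx : ‖x‖ = 1) :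
    ‖inner ℂ x (aeval A P x)‖ ≤ ρ := by
  classical
  by_contra hcon
  push Not at hcon
  set s : ℂ := inner ℂ x (aeval A P x) with hs
  have hxx : inner ℂ x x = (1 : ℂ) := by rw [inner_self_eq_norm_sq_to_K, hx]; simp
  by_cases hdeg : P.natDegree = 0
  · obtain ⟨c, rfl⟩ : ∃ c, P = C c := ⟨P.coeff 0, eq_C_of_natDegree_eq_zero hdeg⟩
    have h1 := hW x hx
    rw [eval_C] at h1
    have h2 : s = c := by
      rw [hs, aeval_C, Algebra.algebraMap_eq_smul_one, smul_apply, one_apply_eq_self,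
        inner_smul_right, hxx, mul_one]
    rw [h2] at hcon
    linarith
  have hder : derivative P ≠ 0 := by
    intro h
    exact hdeg (derivative_eq_zero.mp h)
  have hs0 : s ≠ 0 := by
    intro h
    rw [h, norm_zero] at hcon
    linarith
  obtain ⟨u, hu1, hus⟩ := exists_unit_phase s hs0
  have hden : ∀ t : ℝ, (1 - (t : ℂ) * Complex.I) ≠ 0 := by
    intro t h
    have := congrArg Complex.re h
    simp at this
  have hnum : ∀ t : ℝ, ‖(1 + (t : ℂ) * Complex.I)‖ = ‖(1 - (t : ℂ) * Complex.I)‖ := by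
    intro t
    have : (1 - (t : ℂ) * Complex.I) = (starRingEnd ℂ) (1 + (t : ℂ) * Complex.I) := by
      rw [map_add, map_mul, Complex.conj_I, Complex.conj_ofReal, map_one]
      ring
    rw [this, RCLike.norm_conj]
  set τ : ℝ → ℂ := fun t => (ρ : ℂ) * u * ((1 + (t : ℂ) * Complex.I) / (1 - (t : ℂ) * Complex.I))
    with hτ
  have hτnorm : ∀ t, ‖τ t‖ = ρ := by
    intro t
    simp only [hτ]
    rw [norm_mul, norm_mul, hu1, norm_div, hnum, div_self (norm_ne_zero_iff.mpr (hden t))]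
    simp [abs_of_pos hρ]
  have hρc : (ρ : ℂ) ≠ 0 := by exact_mod_cast hρ.ne'
  have hu0 : u ≠ 0 := by
    intro h
    rw [h, norm_zero] at hu1
    norm_num at hu1
  have hτinj : Function.Injective τ := by
    intro t₁ t₂ h
    simp only [hτ] at h
    have h1 := mul_left_cancel₀ (mul_ne_zero hρc hu0) h
    rw [div_eq_div_iff (hden t₁) (hden t₂)] at h1
    have h2 : 2 * Complex.I * ((t₁ : ℂ) - t₂) = 0 := by linear_combination h1
    have h3 : (t₁ : ℂ) - t₂ = 0 := by
      rcases mul_eq_zero.mp h2 with h | h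
      · exact absurd h (by simp)
      · exact h
    exact_mod_cast sub_eq_zero.mp h3
  set Bad : Finset ℂ := (derivative P).roots.toFinset.image (fun σ => P.eval σ) with hBad
  have hcount : (τ ⁻¹' (Bad : Set ℂ)).Countable :=
    ((Bad.finite_toSet).preimage hτinj.injOn).countable
  have hdense : Dense (τ ⁻¹' (Bad : Set ℂ))ᶜ := hcount.dense_compl ℝ
  have hτcont : Continuous τ := by
    simp only [hτ]
    refine continuous_const.mul (Continuous.div (by fun_prop) (by fun_prop) hden)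
  set F : ℝ → ℝ := fun t => ((starRingEnd ℂ) (τ t) * (τ t - s)).re with hF
  have hFcont : Continuous F := by
    simp only [hF]
    exact Complex.continuous_re.comp
      ((Complex.continuous_conj.comp hτcont).mul (hτcont.sub continuous_const))
  have hF0 : F 0 < 0 := by
    have e0 : τ 0 = (ρ : ℂ) * u := by simp [hτ]
    have e1 : (starRingEnd ℂ) ((ρ : ℂ) * u) * ((ρ : ℂ) * u - s) =
        ((ρ * ρ - ρ * ‖s‖ : ℝ) : ℂ) := by
      have huu : (starRingEnd ℂ) u * u = 1 := by rw [Complex.conj_mul', hu1]; simp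
      rw [map_mul, Complex.conj_ofReal]
      push_cast
      linear_combination ((ρ : ℂ) * ρ) * huu - (ρ : ℂ) * hus
    simp only [hF]
    rw [e0, e1, Complex.ofReal_re]
    nlinarith
  obtain ⟨t, ht1, ht2⟩ := hdense.inter_open_nonempty {t | F t < 0}
    (isOpen_lt hFcont continuous_const) ⟨0, hF0⟩
  have ht3 : τ t ∉ Bad := ht2
  set τ₀ := τ t with hτ₀
  have hnorm₀ : ‖τ₀‖ = ρ := hτnorm t
  set Q : ℂ[X] := P - C τ₀ with hQ
  have hdQ : derivative Q = derivative P := by simp [hQ]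
  have hQ0 : Q ≠ 0 := by
    intro h
    apply hder
    rw [← hdQ, h, derivative_zero]
  have hdegQ : Q.degree ≠ 0 := by
    have hdP : P.degree = P.natDegree := degree_eq_natDegree (by
      rintro rfl
      simp at hder)
    have : Q.degree = P.degree := degree_sub_C (by
      rw [hdP]; exact_mod_cast Nat.pos_of_ne_zero hdeg)
    rw [this, hdP]
    exact_mod_cast hdeg
  have hnodup : Q.roots.Nodup := by
    rw [Multiset.nodup_iff_count_le_one]
    intro σ
    by_contra hσ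
    push Not at hσ
    rw [count_roots] at hσ
    have h1 := (one_lt_rootMultiplicity_iff_isRoot hQ0).mp hσ
    apply ht3
    rw [hBad, Finset.mem_image]
    refine ⟨σ, ?_, ?_⟩
    · rw [Multiset.mem_toFinset, mem_roots hder]
      rw [← hdQ]
      exact h1.2
    · have h2 := h1.1
      simp only [IsRoot.def, hQ, eval_sub, eval_C] at h2
      exact sub_eq_zero.mp h2
  set S : Finset ℂ := Q.roots.toFinset with hS
  have hSval : S.val = Q.roots := by
    rw [hS, Multiset.toFinset_val, Multiset.dedup_eq_self.mpr hnodup]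
  have hQprod : Q = C Q.leadingCoeff * Lagrange.nodal S id := by
    conv_lhs => rw [(IsAlgClosed.splits Q).eq_prod_roots]
    congr 1
    rw [Lagrange.nodal, Finset.prod_eq_multiset_prod, hSval]
    simp
  have hSne : S.Nonempty := by
    obtain ⟨σ, hσ⟩ := IsAlgClosed.exists_root Q hdegQ
    exact ⟨σ, by rw [hS, Multiset.mem_toFinset, mem_roots hQ0]; exact hσ⟩
  have key := re_form_nodal A {z : ℂ | ‖P.eval z‖ ≤ ρ} hW S id (fun _ _ _ _ h => h) hSne
    Q.leadingCoeff ((starRingEnd ℂ) τ₀) ?_ x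
  · rw [← hQprod] at key
    have hinner : inner ℂ x (aeval A Q x) = s - τ₀ := by
      simp only [hQ, map_sub, aeval_C, sub_apply, inner_sub_right]
      rw [Algebra.algebraMap_eq_smul_one, smul_apply, one_apply_eq_self, inner_smul_right,
        hxx, mul_one]
    rw [hinner, neg_sub] at key
    exact absurd key (not_le.mpr ht1)
  · intro σ hσ z hz
    rw [← hQprod, hdQ]
    simp only [id]
    have hroot : Q.IsRoot σ := by
      rw [hS, Multiset.mem_toFinset, mem_roots hQ0] at hσ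
      exact hσ
    have hPσ : P.eval σ = τ₀ := by
      simp only [IsRoot.def, hQ, eval_sub, eval_C] at hroot
      exact sub_eq_zero.mp hroot
    have := tangent_of_convex P ρ hL σ z (by rw [hPσ, hnorm₀]) hz
    rwa [hPσ] at this

/-- Algebra of the Cassini ovals. -/
lemma cassini_core (B v : ℂ) (hB : 1 / 2 ≤ B.re) (h : ‖1 - B * (v * (2 - v))‖ ≤ 1) :
    0 ≤ (B * v).re := by
  have hsq : Complex.normSq (1 - B * (v * (2 - v))) ≤ 1 := by
    rw [Complex.normSq_eq_norm_sq]
    have := norm_nonneg (1 - B * (v * (2 - v)))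
    nlinarith
  set p := B.re with hp
  set q := B.im with hq
  set g := v.re with hg
  set t := v.im with ht
  have hexp : Complex.normSq (1 - B * (v * (2 - v))) =
      (1 - (p * (2 * g - g ^ 2 + t ^ 2) - q * (2 * t - 2 * g * t))) ^ 2 +
      (p * (2 * t - 2 * g * t) + q * (2 * g - g ^ 2 + t ^ 2)) ^ 2 := by
    simp only [Complex.normSq_apply, Complex.sub_re, Complex.sub_im, Complex.mul_re, Complex.mul_im,
      Complex.one_re, Complex.one_im, ← hp, ← hq, ← hg, ← ht]
    simp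
    ring
  rw [hexp] at hsq
  have hgoal : (B * v).re = p * g - q * t := by simp [Complex.mul_re, hp, hq, hg, ht]
  rw [hgoal]
  have hp0 : 0 < p := by linarith
  have hQ : 0 ≤ 2 * p * g ^ 2 - 4 * q * g * t + (4 * (p ^ 2 + q ^ 2) - 2 * p) * t ^ 2 := by
    have e : 2 * p * (2 * p * g ^ 2 - 4 * q * g * t + (4 * (p ^ 2 + q ^ 2) - 2 * p) * t ^ 2) =
        (2 * p * g - 2 * q * t) ^ 2 + 4 * (p ^ 2 + q ^ 2) * (2 * p - 1) * t ^ 2 := by ring
    have h1 : 0 ≤ (2 * p * g - 2 * q * t) ^ 2 + 4 * (p ^ 2 + q ^ 2) * (2 * p - 1) * t ^ 2 := by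
      have : 0 ≤ 2 * p - 1 := by linarith
      positivity
    rw [← e] at h1
    exact nonneg_of_mul_nonneg_right h1 (by positivity)
  have hF : 0 ≤ (p ^ 2 + q ^ 2) * (g ^ 2 + t ^ 2 - 2 * g) ^ 2 +
      (2 * p * g ^ 2 - 4 * q * g * t + (4 * (p ^ 2 + q ^ 2) - 2 * p) * t ^ 2) := by
    positivity
  nlinarith

/-- The tangent half-plane inequality for the Cassini ovals. -/
lemma cassini_tangent (d τ σ w : ℂ) (hτ : τ ≠ 0) (hd : 2 * ‖d‖ ≤ ‖τ‖) (hσ : σ ^ 2 = d + τ)
    (hw : ‖w ^ 2 - d‖ ≤ ‖τ‖) : 0 ≤ ((starRingEnd ℂ) τ * (σ * (σ - w))).re := by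
  have hnτ : 0 < ‖τ‖ := norm_pos_iff.mpr hτ
  have hσ0 : σ ≠ 0 := by
    rintro rfl
    have h1 : τ = -d := by linear_combination -hσ
    have h2 : ‖τ‖ = ‖d‖ := by rw [h1, norm_neg]
    linarith [norm_nonneg d]
  set B : ℂ := σ ^ 2 / τ with hB
  set v : ℂ := (σ - w) / σ with hv
  have hBre : 1 / 2 ≤ B.re := by
    have e : B = 1 + d / τ := by
      rw [hB, hσ]; field_simp; ring
    rw [e, Complex.add_re, Complex.one_re]
    have h1 : |(d / τ).re| ≤ ‖d / τ‖ := Complex.abs_re_le_norm _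
    have h2 : ‖d / τ‖ ≤ 1 / 2 := by
      rw [norm_div, div_le_iff₀ hnτ]
      linarith
    have := (abs_le.mp (h1.trans h2)).1
    linarith
  have hcond : ‖1 - B * (v * (2 - v))‖ ≤ 1 := by
    have e : 1 - B * (v * (2 - v)) = (w ^ 2 - d) / τ := by
      rw [hB, hv]
      field_simp
      linear_combination (-1 : ℂ) * hσ
    rw [e, norm_div, div_le_one hnτ]
    exact hw
  have hcore := cassini_core B v hBre hcond
  have e : (starRingEnd ℂ) τ * (σ * (σ - w)) = ((Complex.normSq τ : ℝ) : ℂ) * (B * v) := by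
    rw [hB, hv, Complex.normSq_eq_conj_mul_self]
    field_simp
  rw [e, Complex.re_ofReal_mul]
  exact mul_nonneg (Complex.normSq_nonneg _) hcore

/-- Numerical radius bound for `B^2 - d` on Cassini ovals of large radius. -/
lemma cassini_numerical_radius (B : H →L[ℂ] H) (d : ℂ) (M : ℝ) (hM : 0 < M) (hd : 2 * ‖d‖ ≤ M)
    (hW : ∀ u : H, ‖u‖ = 1 → ‖(inner ℂ u (B u)) ^ 2 - d‖ ≤ M) (x : H) (hx : ‖x‖ = 1) :
    ‖inner ℂ x ((B ^ 2 - d • (1 : H →L[ℂ] H)) x)‖ ≤ M := by
  classical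
  by_contra hcon
  push Not at hcon
  set s : ℂ := inner ℂ x ((B ^ 2 - d • (1 : H →L[ℂ] H)) x) with hs
  have hxx : inner ℂ x x = (1 : ℂ) := by rw [inner_self_eq_norm_sq_to_K, hx]; simp
  have hs0 : s ≠ 0 := by
    intro h
    rw [h, norm_zero] at hcon
    linarith
  obtain ⟨u, hu1, hus⟩ := exists_unit_phase s hs0
  set τ : ℂ := (M : ℂ) * u with hτ
  have hτnorm : ‖τ‖ = M := by
    rw [hτ, norm_mul, hu1, mul_one]
    simp [abs_of_pos hM]
  have hτ0 : τ ≠ 0 := by
    intro h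
    rw [h, norm_zero] at hτnorm
    linarith
  obtain ⟨σ, hσ⟩ : ∃ σ : ℂ, σ ^ 2 = d + τ := IsAlgClosed.exists_pow_nat_eq _ (by norm_num)
  have hσ0 : σ ≠ 0 := by
    rintro rfl
    have h1 : τ = -d := by linear_combination -hσ
    rw [h1, norm_neg] at hτnorm
    linarith [norm_nonneg d]
  have hne : σ ≠ -σ := by
    intro h
    apply hσ0
    have : 2 * σ = 0 := by linear_combination h
    simpa using this
  have hpoly : (X ^ 2 - C (σ ^ 2) : ℂ[X]) = C 1 * Lagrange.nodal ({σ, -σ} : Finset ℂ) id := by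
    rw [C_1, one_mul, Lagrange.nodal, Finset.prod_pair hne]
    simp only [id, C_neg, C_pow]
    ring
  have hder : ∀ w : ℂ, (derivative (X ^ 2 - C (σ ^ 2) : ℂ[X])).eval w = 2 * w := by
    intro w
    rw [derivative_sub, derivative_C, sub_zero, derivative_X_pow]
    simp
  have key := re_form_nodal B {z : ℂ | ‖z ^ 2 - d‖ ≤ M} hW ({σ, -σ} : Finset ℂ) id
    (fun _ _ _ _ h => h) ⟨σ, by simp⟩ 1 ((starRingEnd ℂ) τ) ?_ x
  · rw [← hpoly] at key
    have hinner : inner ℂ x (aeval B (X ^ 2 - C (σ ^ 2) : ℂ[X]) x) = s - τ := by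
      have e : aeval B (X ^ 2 - C (σ ^ 2) : ℂ[X]) =
          (B ^ 2 - d • (1 : H →L[ℂ] H)) - τ • (1 : H →L[ℂ] H) := by
        simp only [map_sub, aeval_X_pow, aeval_C, hσ, Algebra.algebraMap_eq_smul_one, add_smul]
        abel
      rw [e, sub_apply, inner_sub_right, ← hs, smul_apply, one_apply_eq_self, inner_smul_right,
        hxx, mul_one]
    rw [hinner, neg_sub] at key
    have huu : (starRingEnd ℂ) u * u = 1 := by rw [Complex.conj_mul', hu1]; simp
    have e1 : (starRingEnd ℂ) τ * (τ - s) = ((M * M - M * ‖s‖ : ℝ) : ℂ) := by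
      rw [hτ, map_mul, Complex.conj_ofReal]
      push_cast
      linear_combination ((M : ℂ) * M) * huu - (M : ℂ) * hus
    rw [e1, Complex.ofReal_re] at key
    nlinarith
  · intro i hi w hw
    rw [← hpoly, hder]
    simp only [id]
    have hw' : ‖w ^ 2 - d‖ ≤ ‖τ‖ := by rw [hτnorm]; exact hw
    simp only [Finset.mem_insert, Finset.mem_singleton] at hi
    have hd' : 2 * ‖d‖ ≤ ‖τ‖ := by rw [hτnorm]; exact hd
    rcases hi with rfl | rfl
    · have := cassini_tangent d τ i w hτ0 hd' hσ hw'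
      have e : (starRingEnd ℂ) τ * (2 * i) * (i - w) =
          ((2 : ℝ) : ℂ) * ((starRingEnd ℂ) τ * (i * (i - w))) := by push_cast; ring
      rw [e, Complex.re_ofReal_mul]
      positivity
    · have hw'' : ‖(-w) ^ 2 - d‖ ≤ ‖τ‖ := by rw [neg_sq]; exact hw'
      have := cassini_tangent d τ σ (-w) hτ0 hd' hσ hw''
      have e : (starRingEnd ℂ) τ * (2 * -σ) * (-σ - w) =
          ((2 : ℝ) : ℂ) * ((starRingEnd ℂ) τ * (σ * (σ - -w))) := by push_cast; ring
      rw [e, Complex.re_ofReal_mul]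
      positivity

/-- Assembly: rotation symmetric numerical range. -/
lemma symmetric_range_bound [Nontrivial H] (A : H →L[ℂ] H) {k : ℕ} (hk : 2 ≤ k) {ω : ℂ}
    (hω : IsPrimitiveRoot ω k) (m a b : ℂ) (M : ℝ)
    (hrot : ∀ x : H, ‖x‖ = 1 → ∃ y : H, ‖y‖ = 1 ∧ inner ℂ y (A y) = m + ω * (inner ℂ x (A x) - m))
    (hM : ∀ x : H, ‖x‖ = 1 → ‖a * (inner ℂ x (A x) - m) ^ k + b‖ ≤ M) :
    ‖a • (A - m • (1 : H →L[ℂ] H)) ^ k + b • (1 : H →L[ℂ] H)‖ ≤ 2 * M := by
  set K : Set ℂ := (fun w : ℂ => w + m) ⁻¹' {z : ℂ | ∃ x : H, ‖x‖ = 1 ∧ inner ℂ x (A x) = z} with hK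
  have hconv : Convex ℝ K := (numericalRange_convex A).translate_preimage_left m
  have hB : ∀ x : H, ‖x‖ = 1 → inner ℂ x ((A - m • (1 : H →L[ℂ] H)) x) = inner ℂ x (A x) - m := by
    intro x hx
    have hxx : inner ℂ x x = (1 : ℂ) := by rw [inner_self_eq_norm_sq_to_K, hx]; simp
    rw [sub_apply, inner_sub_right, smul_apply, one_apply_eq_self, inner_smul_right, hxx, mul_one]
  refine power_opNorm_le (A - m • (1 : H →L[ℂ] H)) hk hω hconv ?_ ?_ a b M ?_
  · rintro w ⟨x, hx, hw⟩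
    obtain ⟨y, hy, hyw⟩ := hrot x hx
    refine ⟨y, hy, ?_⟩
    rw [hyw, hw]
    ring
  · intro x hx
    refine ⟨x, hx, ?_⟩
    rw [hB x hx]
    ring
  · rintro w ⟨x, hx, hw⟩
    have := hM x hx
    rw [hw] at this
    simpa using this

/-- Assembly: quadratics. -/
lemma quadratic_bound [Nontrivial H] (A : H →L[ℂ] H) (r s : ℂ) (M : ℝ)
    (hrs : ‖r - s‖ ^ 2 / 2 ≤ M)
    (hM : ∀ x : H, ‖x‖ = 1 → ‖(inner ℂ x (A x) - r) * (inner ℂ x (A x) - s)‖ ≤ M) :
    ‖(A - r • (1 : H →L[ℂ] H)) * (A - s • (1 : H →L[ℂ] H))‖ ≤ 2 * M := by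
  set m : ℂ := (r + s) / 2 with hm
  set e : ℂ := (r - s) / 2 with he
  set B : H →L[ℂ] H := A - m • (1 : H →L[ℂ] H) with hB
  have hr : r = m + e := by rw [hm, he]; ring
  have hs : s = m - e := by rw [hm, he]; ring
  have hfac : (A - r • (1 : H →L[ℂ] H)) * (A - s • (1 : H →L[ℂ] H)) =
      B ^ 2 - (e ^ 2) • (1 : H →L[ℂ] H) := by
    have h1 : A - r • (1 : H →L[ℂ] H) = B - e • (1 : H →L[ℂ] H) := by
      rw [hB, hr, add_smul]; abel
    have h2 : A - s • (1 : H →L[ℂ] H) = B + e • (1 : H →L[ℂ] H) := by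
      rw [hB, hs, sub_smul]; abel
    rw [h1, h2, sub_mul, mul_add, mul_add, pow_two]
    simp only [smul_mul_assoc, mul_smul_comm, one_mul, mul_one, smul_smul]
    rw [← pow_two B, ← pow_two e]
    abel
  rw [hfac]
  have hde : 2 * ‖e ^ 2‖ = ‖r - s‖ ^ 2 / 2 := by
    rw [he, norm_pow, norm_div]
    simp
    ring
  have hM0 : 0 ≤ M := le_trans (by positivity) hrs
  refine le_of_forall_pos_le_add ?_
  intro ε hε
  have hbound := cassini_numerical_radius B (e ^ 2) (M + ε / 2) (by linarith)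
    (by rw [hde]; linarith) ?_
  · have := opNorm_le_two_mul (B ^ 2 - (e ^ 2) • (1 : H →L[ℂ] H)) (M + ε / 2) (by linarith) hbound
    linarith
  · intro u hu
    have huu : inner ℂ u u = (1 : ℂ) := by rw [inner_self_eq_norm_sq_to_K, hu]; simp
    have h1 : inner ℂ u (B u) = inner ℂ u (A u) - m := by
      rw [hB, sub_apply, inner_sub_right, smul_apply, one_apply_eq_self, inner_smul_right, huu,
        mul_one]
    have h2 : (inner ℂ u (B u)) ^ 2 - e ^ 2 = (inner ℂ u (A u) - r) * (inner ℂ u (A u) - s) := by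
      rw [h1, hr, hs]; ring
    rw [h2]
    have := hM u hu
    linarith

end Vale.Agent.P123
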