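import Vale.Agent.Lib.P123_Rect
import Vale.Agent.Lib.P123_Arc

open Polynomial

namespace Vale.Agent.P123

variable {H : Type*} [NormedAddCommGroup H] [InnerProductSpace ℂ H]

/-- Homogeneity of the form. -/
lemma form_hom (F : H →L[ℂ] H) (q : H) (hq : q ≠ 0) :
    inner ℂ q (F q) = ((‖q‖ ^ 2 : ℝ) : ℂ) * inner ℂ ((‖q‖⁻¹ : ℂ) • q) (F ((‖q‖⁻¹ : ℂ) • q)) := by
  have hn : (‖q‖ : ℂ) ≠ 0 := by exact_mod_cast norm_ne_zero_iff.mpr hq
  rw [map_smul, inner_smul_left, inner_smul_right]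
  simp only [map_inv₀, Complex.conj_ofReal]
  push_cast
  field_simp

/-- Polarization for a real form attached to a sector direction. -/
lemma polar_form (F : H →L[ℂ] H) (c : ℂ) (κ : ℝ)
    (hQ : ∀ q : H, |(c * inner ℂ q (F q)).re| ≤ κ * ‖q‖ ^ 2) (u v : H) :
    |(c * inner ℂ u (F v)).re + (c * inner ℂ v (F u)).re| ≤ 2 * κ * ‖u‖ * ‖v‖ := by
  have hκ : 0 ≤ κ ∨ (∀ q : H, q = 0) := by
    by_cases h : ∀ q : H, q = 0
    · exact Or.inr h
    · push Not at h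
      obtain ⟨q, hq⟩ := h
      left
      have h1 := hQ q
      have h2 : 0 < ‖q‖ ^ 2 := by positivity
      by_contra hneg
      push Not at hneg
      have h3 := abs_nonneg (c * inner ℂ q (F q)).re
      nlinarith
  rcases hκ with hκ | hall
  · -- the basic estimate
    have basic : ∀ a b : H, |(c * inner ℂ a (F b)).re + (c * inner ℂ b (F a)).re| ≤
        κ * (‖a‖ ^ 2 + ‖b‖ ^ 2) := by
      intro a b
      have h1 := hQ (a + b)
      have h2 := hQ (a - b)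
      have hpar := parallelogram_law_with_norm ℂ a b
      have e : (c * inner ℂ (a + b) (F (a + b))).re - (c * inner ℂ (a - b) (F (a - b))).re =
          2 * ((c * inner ℂ a (F b)).re + (c * inner ℂ b (F a)).re) := by
        simp only [map_add, map_sub, inner_add_left, inner_add_right, inner_sub_left,
          inner_sub_right, mul_add, mul_sub, Complex.add_re, Complex.sub_re]
        ring
      have h3 : |2 * ((c * inner ℂ a (F b)).re + (c * inner ℂ b (F a)).re)| ≤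
          κ * ‖a + b‖ ^ 2 + κ * ‖a - b‖ ^ 2 := by
        rw [← e]
        exact (abs_sub _ _).trans (add_le_add h1 h2)
      rw [abs_mul, abs_two] at h3
      have h4 : κ * ‖a + b‖ ^ 2 + κ * ‖a - b‖ ^ 2 = 2 * (κ * (‖a‖ ^ 2 + ‖b‖ ^ 2)) := by
        have : ‖a + b‖ ^ 2 + ‖a - b‖ ^ 2 = 2 * (‖a‖ ^ 2 + ‖b‖ ^ 2) := by nlinarith
        linear_combination κ * this
      rw [h4] at h3
      linarith
    by_cases hu : u = 0
    · simp [hu]
    by_cases hv : v = 0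
    · simp [hv]
    have hnu : 0 < ‖u‖ := norm_pos_iff.mpr hu
    have hnv : 0 < ‖v‖ := norm_pos_iff.mpr hv
    have h1 := basic ((‖v‖ : ℂ) • u) ((‖u‖ : ℂ) • v)
    simp only [map_smul, inner_smul_left, inner_smul_right, Complex.conj_ofReal, norm_smul,
      Complex.norm_real, norm_norm] at h1
    have e1 : (c * ((‖u‖ : ℂ) * ((‖v‖ : ℂ) * inner ℂ u (F v)))).re =
        ‖v‖ * ‖u‖ * (c * inner ℂ u (F v)).re := by
      have : c * ((‖u‖ : ℂ) * ((‖v‖ : ℂ) * inner ℂ u (F v))) =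
          ((‖v‖ * ‖u‖ : ℝ) : ℂ) * (c * inner ℂ u (F v)) := by push_cast; ring
      rw [this, Complex.re_ofReal_mul]
    have e2 : (c * ((‖v‖ : ℂ) * ((‖u‖ : ℂ) * inner ℂ v (F u)))).re =
        ‖v‖ * ‖u‖ * (c * inner ℂ v (F u)).re := by
      have : c * ((‖v‖ : ℂ) * ((‖u‖ : ℂ) * inner ℂ v (F u))) =
          ((‖v‖ * ‖u‖ : ℝ) : ℂ) * (c * inner ℂ v (F u)) := by push_cast; ring
      rw [this, Complex.re_ofReal_mul]
    rw [e1, e2, ← mul_add, abs_mul, abs_of_pos (by positivity : 0 < ‖v‖ * ‖u‖)] at h1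
    have h2 : κ * ((‖v‖ * ‖u‖) ^ 2 + (‖u‖ * ‖v‖) ^ 2) = (‖v‖ * ‖u‖) * (2 * κ * ‖u‖ * ‖v‖) := by
      ring
    rw [h2] at h1
    exact le_of_mul_le_mul_left h1 (by positivity)
  · rw [hall u]
    simp

/-- The complex core. -/
theorem core_complex (F : H →L[ℂ] H) (s m n : ℝ) (hs0 : 0 < s) (hs1 : s ≤ 1) (hm0 : 0 ≤ m)
    (hmn : m ^ 2 = n) (hn : n * (1 + s ^ 2) = 1)
    (hRe : ∀ x : H, ‖x‖ = 1 → |(inner ℂ x (F x)).re| ≤ 1)
    (hIm : ∀ x : H, ‖x‖ = 1 → |(inner ℂ x (F x)).im| ≤ m) (x : H) (hx : ‖x‖ = 1) :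
    ‖(2 : ℂ) • F x + (s : ℂ) • (F (F x) - x)‖ ≤ 4 := by
  have hRe' : ∀ q : H, |((1 : ℂ) * inner ℂ q (F q)).re| ≤ 1 * ‖q‖ ^ 2 := by
    intro q
    by_cases hq : q = 0
    · simp [hq]
    have hn : ‖q‖ ≠ 0 := norm_ne_zero_iff.mpr hq
    have h1 := hRe ((‖q‖⁻¹ : ℂ) • q) (by rw [norm_smul]; simp [hn])
    rw [form_hom F q hq, one_mul, Complex.re_ofReal_mul, abs_mul, abs_of_nonneg (by positivity),
      one_mul]
    nlinarith [sq_nonneg ‖q‖]
  have hIm' : ∀ q : H, |((-Complex.I) * inner ℂ q (F q)).re| ≤ m * ‖q‖ ^ 2 := by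
    intro q
    by_cases hq : q = 0
    · simp [hq]
    have hn : ‖q‖ ≠ 0 := norm_ne_zero_iff.mpr hq
    have h1 := hIm ((‖q‖⁻¹ : ℂ) • q) (by rw [norm_smul]; simp [hn])
    have e : ∀ z : ℂ, ((-Complex.I) * z).re = z.im := by
      intro z; simp
    rw [e, form_hom F q hq, Complex.im_ofReal_mul, abs_mul, abs_of_nonneg (by positivity)]
    nlinarith [sq_nonneg ‖q‖]
  let _ : InnerProductSpace ℝ H := InnerProductSpace.rclikeToReal ℂ H
  have hinner : ∀ a b : H, inner ℝ a b = (inner ℂ a b).re := fun a b => rfl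
  let F' : H →ₗ[ℝ] H :=
    { toFun := fun v => F v
      map_add' := fun a b => map_add F a b
      map_smul' := fun r a => by
        have e : r • a = (r : ℂ) • a := rfl
        rw [e, map_smul]
        rfl }
  have hF' : ∀ v, F' v = F v := fun v => rfl
  have hα : ∀ u v : H, |inner ℝ u (F' v) + inner ℝ v (F' u)| ≤ 2 * ‖u‖ * ‖v‖ := by
    intro u v
    have := polar_form F 1 1 hRe' u v
    simp only [one_mul, mul_one] at this
    simpa only [hinner, hF'] using this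
  have hγ : ∀ u v : H, |inner ℝ u (F' v) - inner ℝ v (F' u)| ≤ 2 * m * ‖u‖ * ‖v‖ := by
    intro u v
    have h1 := polar_form F (-Complex.I) m hIm' (-(Complex.I) • u) v
    have hnu : ‖-(Complex.I) • u‖ = ‖u‖ := by rw [norm_smul]; simp
    rw [hnu] at h1
    have e : ((-Complex.I) * inner ℂ (-(Complex.I) • u) (F v)).re +
        ((-Complex.I) * inner ℂ v (F (-(Complex.I) • u))).re =
        (inner ℂ u (F v)).re - (inner ℂ v (F u)).re := by
      have h2 : F (-(Complex.I) • u) = -(Complex.I) • F u := map_smul F _ u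
      rw [h2, inner_smul_left, inner_smul_right]
      simp only [map_neg, Complex.conj_I, neg_neg]
      simp [Complex.mul_re, Complex.mul_im]
      try ring
    rw [e] at h1
    simpa only [hinner, hF'] using h1
  have hcore := core_real F' s m n hs0 hs1 hm0 hmn hn hα hγ x hx
  have e : (2 : ℝ) • F' x + s • (F' (F' x) - x) = (2 : ℂ) • F x + (s : ℂ) • (F (F x) - x) := by
    simp only [hF']
    rfl
  rw [e] at hcore
  exact hcore

/-- Rectangle estimate: the numerical range in a rectangle centred at `m` with half sides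
`w`, `m * w`. -/
theorem rectangle (A : H →L[ℂ] H) (m w : ℝ) (hw : 0 < w) (hwm : w ≤ m) (hmw : m ^ 2 + w ^ 2 = 1)
    (hRe : ∀ x : H, ‖x‖ = 1 → |(inner ℂ x (A x)).re - m| ≤ w)
    (hIm : ∀ x : H, ‖x‖ = 1 → |(inner ℂ x (A x)).im| ≤ m * w) :
    ‖A ^ 2 - (1 : H →L[ℂ] H)‖ ≤ 4 * (m * w) := by
  have hm : 0 < m := lt_of_lt_of_le hw hwm
  have hwc : (w : ℂ) ≠ 0 := by exact_mod_cast hw.ne'
  have hmc : (m : ℂ) ≠ 0 := by exact_mod_cast hm.ne'
  set F : H →L[ℂ] H := ((w : ℂ)⁻¹) • (A - (m : ℂ) • (1 : H →L[ℂ] H)) with hF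
  have hFA : ∀ v, F v = ((w : ℂ)⁻¹) • (A v - (m : ℂ) • v) := by
    intro v; simp [hF]
  have hform : ∀ x : H, ‖x‖ = 1 →
      inner ℂ x (F x) = ((w⁻¹ : ℝ) : ℂ) * (inner ℂ x (A x) - (m : ℂ)) := by
    intro x hx
    have hxx : inner ℂ x x = (1 : ℂ) := by rw [inner_self_eq_norm_sq_to_K, hx]; simp
    rw [hFA, inner_smul_right, inner_sub_right, inner_smul_right, hxx, mul_one]
    push_cast
    rfl
  have hRe' : ∀ x : H, ‖x‖ = 1 → |(inner ℂ x (F x)).re| ≤ 1 := by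
    intro x hx
    rw [hform x hx, Complex.re_ofReal_mul, abs_mul, abs_of_pos (inv_pos.mpr hw)]
    simp only [Complex.sub_re, Complex.ofReal_re]
    have := hRe x hx
    rw [inv_mul_le_iff₀ hw]
    linarith
  have hIm' : ∀ x : H, ‖x‖ = 1 → |(inner ℂ x (F x)).im| ≤ m := by
    intro x hx
    rw [hform x hx, Complex.im_ofReal_mul, abs_mul, abs_of_pos (inv_pos.mpr hw)]
    simp only [Complex.sub_im, Complex.ofReal_im, sub_zero]
    have := hIm x hx
    rw [inv_mul_le_iff₀ hw]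
    linarith
  have hs0 : 0 < w / m := by positivity
  have hs1 : w / m ≤ 1 := (div_le_one hm).mpr hwm
  have hn : m ^ 2 * (1 + (w / m) ^ 2) = 1 := by
    have e0 : m ^ 2 * (1 + (w / m) ^ 2) = m ^ 2 + w ^ 2 := by
      field_simp
    rw [e0, hmw]
  have hcoreall : ∀ x : H, ‖x‖ = 1 → ‖(2 : ℂ) • F x + ((w / m : ℝ) : ℂ) • (F (F x) - x)‖ ≤ 4 :=
    fun x hx => core_complex F (w / m) m (m ^ 2) hs0 hs1 hm.le rfl hn hRe' hIm' x hx
  have hA : ∀ v, A v = (m : ℂ) • v + (w : ℂ) • F v := by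
    intro v
    rw [hFA, smul_smul, mul_inv_cancel₀ hwc, one_smul]
    abel
  have hmw' : (m : ℂ) ^ 2 + (w : ℂ) ^ 2 = 1 := by exact_mod_cast hmw
  have hc3 : (m : ℂ) * (w : ℂ) * ((w / m : ℝ) : ℂ) = (w : ℂ) ^ 2 := by
    push_cast
    field_simp
  refine ContinuousLinearMap.opNorm_le_of_unit_norm (by positivity) ?_
  intro x hx
  have e : (A ^ 2 - (1 : H →L[ℂ] H)) x =
      ((m : ℂ) * (w : ℂ)) • ((2 : ℂ) • F x + ((w / m : ℝ) : ℂ) • (F (F x) - x)) := by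
    have e0 : (A ^ 2 - (1 : H →L[ℂ] H)) x = A (A x) - x := by
      simp [pow_two]
    rw [e0, hA x, map_add, map_smul, map_smul, hA x, hA (F x)]
    linear_combination (norm := module) hmw' • x - hc3 • (F (F x) - x)
  rw [e, norm_smul]
  have h1 := hcoreall x hx
  have h2 : ‖(m : ℂ) * (w : ℂ)‖ = m * w := by
    rw [norm_mul, Complex.norm_real, Complex.norm_real, Real.norm_of_nonneg hm.le,
      Real.norm_of_nonneg hw.le]
  rw [h2]
  have h3 : 0 < m * w := by positivity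
  nlinarith

/-- Point estimate on a lobe of the Cassini oval. -/
lemma lobe_point (z : ℂ) (ρ : ℝ) (hρ0 : 0 ≤ ρ) (h : ‖z ^ 2 - 1‖ ≤ ρ) :
    1 - ρ ≤ z.re ^ 2 ∧ z.re ^ 2 ≤ 1 + ρ ∧ z.im ^ 2 ≤ ρ ^ 2 / 4 := by
  have h2 : ‖z ^ 2 - 1‖ ^ 2 ≤ ρ ^ 2 := by
    have := norm_nonneg (z ^ 2 - 1)
    nlinarith
  have e : ‖z ^ 2 - 1‖ ^ 2 = (z.re ^ 2 - z.im ^ 2 - 1) ^ 2 + (2 * z.re * z.im) ^ 2 := by
    rw [← Complex.normSq_eq_norm_sq, Complex.normSq_apply]
    simp [pow_two]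
    ring
  rw [e] at h2
  have hb := sq_nonneg z.im
  have ha := sq_nonneg z.re
  have h3 : (z.re ^ 2 - 1) ^ 2 ≤ ρ ^ 2 := by
    nlinarith [mul_nonneg ha hb, mul_nonneg hb hb]
  have h4 : |z.re ^ 2 - 1| ≤ ρ := abs_le_of_sq_le_sq h3 hρ0
  rw [abs_le] at h4
  refine ⟨by linarith [h4.1], by linarith [h4.2], ?_⟩
  nlinarith [sq_nonneg (z.re ^ 2 + z.im ^ 2 - 1)]

/-- The lobe estimate. -/
theorem lobe (B : H →L[ℂ] H) (ρ : ℝ) (hρ0 : 0 < ρ) (hρ1 : ρ < 1)
    (hW : ∀ x : H, ‖x‖ = 1 → ‖(inner ℂ x (B x)) ^ 2 - 1‖ ≤ ρ)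
    (hpos : ∀ x : H, ‖x‖ = 1 → 0 ≤ (inner ℂ x (B x)).re) :
    ‖B ^ 2 - (1 : H →L[ℂ] H)‖ ≤ 2 * ρ := by
  have hp2 : Real.sqrt (1 + ρ) ^ 2 = 1 + ρ := Real.sq_sqrt (by linarith)
  have hq2 : Real.sqrt (1 - ρ) ^ 2 = 1 - ρ := Real.sq_sqrt (by linarith)
  have hq0 : 0 < Real.sqrt (1 - ρ) := Real.sqrt_pos.mpr (by linarith)
  have hp0 : 0 < Real.sqrt (1 + ρ) := Real.sqrt_pos.mpr (by linarith)
  have hqp : Real.sqrt (1 - ρ) < Real.sqrt (1 + ρ) := Real.sqrt_lt_sqrt (by linarith) (by linarith)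
  set p := Real.sqrt (1 + ρ) with hp
  set q := Real.sqrt (1 - ρ) with hq
  have hmw2 : (p + q) / 2 * ((p - q) / 2) = ρ / 2 := by nlinarith
  have hrect := rectangle B ((p + q) / 2) ((p - q) / 2) (by linarith) (by linarith)
    (by nlinarith) ?_ ?_
  · linarith [show 4 * ((p + q) / 2 * ((p - q) / 2)) = 2 * ρ by rw [hmw2]; ring]
  · intro x hx
    obtain ⟨h1, h2, -⟩ := lobe_point _ ρ hρ0.le (hW x hx)
    have hu := hpos x hx
    have h3 : q ≤ (inner ℂ x (B x)).re := by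
      apply abs_le_of_sq_le_sq' _ hu |>.2
      rw [hq2]
      exact h1
    have h4 : (inner ℂ x (B x)).re ≤ p := by
      apply (abs_le_of_sq_le_sq' _ hp0.le).2
      rw [hp2]
      exact h2
    rw [abs_le]
    constructor <;> linarith
  · intro x hx
    obtain ⟨-, -, h1⟩ := lobe_point _ ρ hρ0.le (hW x hx)
    rw [hmw2]
    apply abs_le_of_sq_le_sq _ (by linarith)
    nlinarith

/-- The real part has constant sign on the numerical range. -/
lemma sign_const (B : H →L[ℂ] H) (ρ : ℝ) (hρ1 : ρ < 1)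
    (hW : ∀ x : H, ‖x‖ = 1 → ‖(inner ℂ x (B x)) ^ 2 - 1‖ ≤ ρ) :
    (∀ x : H, ‖x‖ = 1 → 0 ≤ (inner ℂ x (B x)).re) ∨
      (∀ x : H, ‖x‖ = 1 → 0 ≤ (inner ℂ x ((-B) x)).re) := by
  by_contra hcon
  push Not at hcon
  obtain ⟨⟨x, hx, hxn⟩, ⟨y, hy, hyn⟩⟩ := hcon
  have hy' : 0 < (inner ℂ y (B y)).re := by
    simp only [neg_apply, inner_neg_right, Complex.neg_re] at hyn
    linarith
  set a := inner ℂ x (B x) with ha
  set b := inner ℂ y (B y) with hb
  have hden : 0 < b.re - a.re := by linarith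
  have hconv := numericalRange_convex B
  have hmem := hconv (x := a) (y := b) ⟨x, hx, rfl⟩ ⟨y, hy, rfl⟩
    (a := b.re / (b.re - a.re)) (b := (-a.re) / (b.re - a.re))
    (by positivity) (div_nonneg (by linarith) hden.le) (by field_simp; ring)
  obtain ⟨z, hz, hzw⟩ := hmem
  have hre : (inner ℂ z (B z)).re = 0 := by
    rw [hzw]
    simp only [Complex.add_re, Complex.real_smul, Complex.re_ofReal_mul]
    field_simp
    ring
  have hbound := hW z hz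
  set w := inner ℂ z (B z) with hw
  have hge : 1 ≤ ‖w ^ 2 - 1‖ := by
    have e : (w ^ 2 - 1).re = -(w.im ^ 2) - 1 := by
      simp [pow_two, hre]
    have h1 := Complex.abs_re_le_norm (w ^ 2 - 1)
    rw [e] at h1
    have h2 : |-(w.im ^ 2) - 1| ≥ 1 := by
      rw [abs_of_nonpos (by nlinarith [sq_nonneg w.im])]
      nlinarith [sq_nonneg w.im]
    linarith
  linarith

/-- The lobe estimate without sign hypothesis and with `0 ≤ ρ`. -/
theorem lobe_full (B : H →L[ℂ] H) (ρ : ℝ) (hρ0 : 0 ≤ ρ) (hρ1 : ρ < 1)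
    (hW : ∀ x : H, ‖x‖ = 1 → ‖(inner ℂ x (B x)) ^ 2 - 1‖ ≤ ρ) :
    ‖B ^ 2 - (1 : H →L[ℂ] H)‖ ≤ 2 * ρ := by
  refine le_of_forall_pos_le_add ?_
  intro ε hε
  set ρ' : ℝ := min (ρ + ε / 2) ((1 + ρ) / 2) with hρ'
  have h1 : ρ' ≤ ρ + ε / 2 := min_le_left _ _
  have h2 : ρ' < 1 := lt_of_le_of_lt (min_le_right _ _) (by linarith)
  have h3 : ρ < ρ' := lt_min (by linarith) (by linarith)
  have hW' : ∀ x : H, ‖x‖ = 1 → ‖(inner ℂ x (B x)) ^ 2 - 1‖ ≤ ρ' :=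
    fun x hx => (hW x hx).trans h3.le
  have key : ‖B ^ 2 - (1 : H →L[ℂ] H)‖ ≤ 2 * ρ' := by
    rcases sign_const B ρ' h2 hW' with h | h
    · exact lobe B ρ' (by linarith) h2 hW' h
    · have e : (-B) ^ 2 = B ^ 2 := by
        rw [pow_two, pow_two, neg_mul_neg]
      have hW'' : ∀ x : H, ‖x‖ = 1 → ‖(inner ℂ x ((-B) x)) ^ 2 - 1‖ ≤ ρ' := by
        intro x hx
        simp only [neg_apply, inner_neg_right, neg_sq]
        exact hW' x hx
      have := lobe (-B) ρ' (by linarith) h2 hW'' h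
      rwa [e] at this
  linarith

/-- Crouzeix for `B ^ 2 - d`. -/
theorem quad_monic [Nontrivial H] (B : H →L[ℂ] H) (d : ℂ) (M : ℝ)
    (hW : ∀ u : H, ‖u‖ = 1 → ‖(inner ℂ u (B u)) ^ 2 - d‖ ≤ M) :
    ‖B ^ 2 - d • (1 : H →L[ℂ] H)‖ ≤ 2 * M := by
  obtain ⟨u₀, hu₀⟩ : ∃ u₀ : H, ‖u₀‖ = 1 := by
    obtain ⟨v, hv⟩ := exists_ne (0 : H)
    exact ⟨((‖v‖⁻¹ : ℂ)) • v, by rw [norm_smul]; simp [hv]⟩
  have hM0 : 0 ≤ M := (norm_nonneg _).trans (hW u₀ hu₀)
  by_cases hd : ‖d‖ ≤ M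
  · exact quadratic_quarter B d M hd hW
  push Not at hd
  have hdpos : 0 < ‖d‖ := lt_of_le_of_lt hM0 hd
  have hd0 : d ≠ 0 := norm_pos_iff.mp hdpos
  obtain ⟨e, he⟩ : ∃ e : ℂ, e ^ 2 = d := IsAlgClosed.exists_pow_nat_eq _ (by norm_num)
  have he0 : e ≠ 0 := by
    rintro rfl
    apply hd0
    rw [← he]
    simp
  have hlobe := lobe_full (e⁻¹ • B) (M / ‖d‖) (by positivity) ((div_lt_one hdpos).mpr hd) ?_
  · have e1 : B ^ 2 - d • (1 : H →L[ℂ] H) =
        d • ((e⁻¹ • B) ^ 2 - (1 : H →L[ℂ] H)) := by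
      rw [_root_.smul_pow, smul_sub, smul_smul, ← he]
      have : e ^ 2 * e⁻¹ ^ 2 = 1 := by field_simp
      rw [this, one_smul]
    rw [e1, norm_smul]
    have h5 : M / ‖d‖ * ‖d‖ = M := by field_simp
    calc ‖d‖ * ‖(e⁻¹ • B) ^ 2 - (1 : H →L[ℂ] H)‖ ≤ ‖d‖ * (2 * (M / ‖d‖)) := by gcongr
      _ = 2 * M := by rw [mul_comm ‖d‖, mul_assoc, h5]
  · intro u hu
    have e2 : (inner ℂ u ((e⁻¹ • B) u)) ^ 2 - 1 = d⁻¹ * ((inner ℂ u (B u)) ^ 2 - d) := by
      rw [smul_apply, inner_smul_right, ← he]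
      field_simp
    rw [e2, norm_mul, norm_inv, inv_mul_eq_div]
    exact div_le_div_of_nonneg_right (hW u hu) hdpos.le

/-- Crouzeix for a polynomial given by its coefficients. -/
theorem quad_coeffs [Nontrivial H] (A : H →L[ℂ] H) (a b c : ℂ) (M : ℝ)
    (hM : ∀ x : H, ‖x‖ = 1 →
      ‖a * (inner ℂ x (A x)) ^ 2 + b * inner ℂ x (A x) + c‖ ≤ M) :
    ‖a • A ^ 2 + b • A + c • (1 : H →L[ℂ] H)‖ ≤ 2 * M := by
  obtain ⟨u₀, hu₀⟩ : ∃ u₀ : H, ‖u₀‖ = 1 := by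
    obtain ⟨v, hv⟩ := exists_ne (0 : H)
    exact ⟨((‖v‖⁻¹ : ℂ)) • v, by rw [norm_smul]; simp [hv]⟩
  have hM0 : 0 ≤ M := (norm_nonneg _).trans (hM u₀ hu₀)
  by_cases ha : a = 0
  · subst ha
    simp only [zero_smul, zero_add]
    refine opNorm_le_two_mul _ M hM0 ?_
    intro x hx
    have hxx : inner ℂ x x = (1 : ℂ) := by rw [inner_self_eq_norm_sq_to_K, hx]; simp
    have := hM x hx
    simp only [zero_mul, zero_add] at this
    simp only [add_apply, smul_apply,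
      one_apply_eq_self, inner_add_right, inner_smul_right, hxx, mul_one]
    exact this
  have hnorm : 0 < ‖a‖ := norm_pos_iff.mpr ha
  set m₀ : ℂ := -b / (2 * a) with hm₀
  set d : ℂ := (b ^ 2 - 4 * a * c) / (4 * a ^ 2) with hd
  set B : H →L[ℂ] H := A - m₀ • (1 : H →L[ℂ] H) with hB
  have hkey := quad_monic B d (M / ‖a‖) ?_
  · have e1 : a • A ^ 2 + b • A + c • (1 : H →L[ℂ] H) = a • (B ^ 2 - d • (1 : H →L[ℂ] H)) := by
      have h1 : a * m₀ * 2 = -b := by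
        rw [hm₀]; field_simp
      have h2 : a * (m₀ ^ 2 - d) = c := by
        rw [hm₀, hd]; field_simp; ring
      have h3 : B ^ 2 = A ^ 2 - (m₀ * 2) • A + (m₀ ^ 2) • (1 : H →L[ℂ] H) := by
        rw [hB, pow_two, pow_two]
        simp only [sub_mul, mul_sub, smul_mul_assoc, mul_smul_comm, one_mul, mul_one]
        module
      have gen : ∀ (m' d' : ℂ), a * m' * 2 = -b → a * (m' ^ 2 - d') = c →
          a • A ^ 2 + b • A + c • (1 : H →L[ℂ] H) =
            a • (A ^ 2 - (m' * 2) • A + m' ^ 2 • (1 : H →L[ℂ] H) - d' • (1 : H →L[ℂ] H)) := by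
        intro m' d' h1 h2
        linear_combination (norm := module) h1 • A - h2 • (1 : H →L[ℂ] H)
      rw [h3]
      exact gen m₀ d h1 h2
    rw [e1, norm_smul]
    have h5 : M / ‖a‖ * ‖a‖ = M := by field_simp
    calc ‖a‖ * ‖B ^ 2 - d • (1 : H →L[ℂ] H)‖ ≤ ‖a‖ * (2 * (M / ‖a‖)) := by gcongr
      _ = 2 * M := by rw [mul_comm ‖a‖, mul_assoc, h5]
  · intro u hu
    have huu : inner ℂ u u = (1 : ℂ) := by rw [inner_self_eq_norm_sq_to_K, hu]; simp
    have e2 : inner ℂ u (B u) = inner ℂ u (A u) - m₀ := by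
      rw [hB, sub_apply, inner_sub_right, smul_apply,
        one_apply_eq_self, inner_smul_right, huu, mul_one]
    have e3 : (inner ℂ u (B u)) ^ 2 - d =
        a⁻¹ * (a * (inner ℂ u (A u)) ^ 2 + b * inner ℂ u (A u) + c) := by
      rw [e2, hm₀, hd]
      field_simp
      ring
    rw [e3, norm_mul, norm_inv, inv_mul_eq_div]
    exact div_le_div_of_nonneg_right (hM u hu) hnorm.le

/-- Crouzeix's inequality with constant two for polynomials of degree at most two. -/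
theorem crouzeix_quadratic [Nontrivial H] (A : H →L[ℂ] H) (P : ℂ[X]) (hP : P.natDegree ≤ 2)
    (M : ℝ) (hM : ∀ x : H, ‖x‖ = 1 → ‖P.eval (inner ℂ x (A x))‖ ≤ M) :
    ‖aeval A P‖ ≤ 2 * M := by
  have h3 : P.natDegree < 3 := by omega
  have e1 : aeval A P = P.coeff 2 • A ^ 2 + P.coeff 1 • A + P.coeff 0 • (1 : H →L[ℂ] H) := by
    rw [Polynomial.aeval_eq_sum_range' h3]
    simp only [Finset.sum_range_succ, Finset.sum_range_zero, zero_add, pow_zero, pow_one]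
    abel
  rw [e1]
  refine quad_coeffs A _ _ _ M ?_
  intro x hx
  have := hM x hx
  rw [Polynomial.eval_eq_sum_range' h3] at this
  simp only [Finset.sum_range_succ, Finset.sum_range_zero, zero_add, pow_zero, pow_one,
    mul_one] at this
  have e2 : P.coeff 2 * (inner ℂ x (A x)) ^ 2 + P.coeff 1 * inner ℂ x (A x) + P.coeff 0 =
      P.coeff 0 + P.coeff 1 * inner ℂ x (A x) + P.coeff 2 * (inner ℂ x (A x)) ^ 2 := by ring
  rw [e2]
  exact this

end Vale.Agent.P123
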