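import Vale.Agent.Lib.P123_Scalar

namespace Vale.Agent.P123

/-- A two by two positive semidefinite criterion. -/
lemma psd2 (p q a : ℝ) (h : ∀ ξ η : ℝ, 0 ≤ p * ξ ^ 2 - 2 * a * (ξ * η) + q * η ^ 2) :
    a ^ 2 ≤ p * q ∧ 0 ≤ p ∧ 0 ≤ q := by
  have hp : 0 ≤ p := by simpa using h 1 0
  have hq : 0 ≤ q := by simpa using h 0 1
  refine ⟨?_, hp, hq⟩
  rcases eq_or_lt_of_le hp with hp0 | hp0
  · have ha : a = 0 := by
      by_contra ha
      have h1 := h ((q + 1) / (2 * a)) 1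
      rw [← hp0] at h1
      have e : 0 * ((q + 1) / (2 * a)) ^ 2 - 2 * a * ((q + 1) / (2 * a) * 1) + q * 1 ^ 2 = -1 := by
        field_simp
        ring
      rw [e] at h1
      norm_num at h1
    rw [ha, ← hp0]
    simp
  · have h1 := h a p
    have e : p * a ^ 2 - 2 * a * (a * p) + q * p ^ 2 = p * (p * q - a ^ 2) := by ring
    rw [e] at h1
    have := nonneg_of_mul_nonneg_right h1 hp0
    linarith

section Real

variable {E : Type*} [NormedAddCommGroup E] [InnerProductSpace ℝ E]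

lemma norm_sq_three (x y z : E) (hxy : inner ℝ x y = 0) (hxz : inner ℝ x z = 0)
    (hyz : inner ℝ y z = 0) (a b c : ℝ) :
    ‖a • x + b • y + c • z‖ ^ 2 = a ^ 2 * ‖x‖ ^ 2 + b ^ 2 * ‖y‖ ^ 2 + c ^ 2 * ‖z‖ ^ 2 := by
  rw [← real_inner_self_eq_norm_sq]
  have hyx : inner ℝ y x = 0 := by rw [real_inner_comm]; exact hxy
  have hzx : inner ℝ z x = 0 := by rw [real_inner_comm]; exact hxz
  have hzy : inner ℝ z y = 0 := by rw [real_inner_comm]; exact hyz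
  simp only [inner_add_left, inner_add_right, real_inner_smul_left, real_inner_smul_right,
    hxy, hxz, hyz, hyx, hzx, hzy]
  simp only [real_inner_self_eq_norm_sq]
  ring

/-- The eigenvector case. -/
lemma core_eigen (F : E →ₗ[ℝ] E) (s r : ℝ) (hs0 : 0 < s) (hs1 : s ≤ 1) (hr1 : |r| ≤ 1) (x : E)
    (hx : ‖x‖ = 1) (hFx : F x = r • x) : ‖(2 : ℝ) • F x + s • (F (F x) - x)‖ ≤ 4 := by
  have hL : (2 : ℝ) • F x + s • (F (F x) - x) = (2 * r + s * (r ^ 2 - 1)) • x := by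
    rw [hFx, map_smul, hFx]
    module
  rw [hL, norm_smul, hx, mul_one, Real.norm_eq_abs]
  have h1 := abs_le.mp hr1
  rw [abs_le]
  constructor <;> nlinarith

/-- The two by two block. -/
lemma block_bound (F : E →ₗ[ℝ] E)
    (hα : ∀ u v : E, |inner ℝ u (F v) + inner ℝ v (F u)| ≤ 2 * ‖u‖ * ‖v‖)
    (x y : E) (hx : ‖x‖ = 1) (hy : ‖y‖ = 1) (hxy : inner ℝ x y = 0) (r r' A : ℝ)
    (hr : inner ℝ x (F x) = r) (hr' : inner ℝ y (F y) = r')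
    (hA : inner ℝ x (F y) + inner ℝ y (F x) = 2 * A) :
    A ^ 2 ≤ (1 - r) * (1 - r') ∧ A ^ 2 ≤ (1 + r) * (1 + r') ∧
      0 ≤ 1 - r ∧ 0 ≤ 1 - r' ∧ 0 ≤ 1 + r ∧ 0 ≤ 1 + r' := by
  have hxx : inner ℝ x x = 1 := by rw [real_inner_self_eq_norm_sq, hx]; norm_num
  have hyy : inner ℝ y y = 1 := by rw [real_inner_self_eq_norm_sq, hy]; norm_num
  have hyx : inner ℝ y x = 0 := by rw [real_inner_comm]; exact hxy
  have hblock : ∀ ξ η : ℝ, |ξ ^ 2 * r + 2 * A * (ξ * η) + η ^ 2 * r'| ≤ ξ ^ 2 + η ^ 2 := by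
    intro ξ η
    have h1 := hα (ξ • x + η • y) (ξ • x + η • y)
    have hnw : ‖ξ • x + η • y‖ ^ 2 = ξ ^ 2 + η ^ 2 := by
      rw [← real_inner_self_eq_norm_sq]
      simp only [inner_add_left, inner_add_right, real_inner_smul_left, real_inner_smul_right,
        hxx, hyy, hxy, hyx]
      ring
    have hw : inner ℝ (ξ • x + η • y) (F (ξ • x + η • y)) =
        ξ ^ 2 * r + 2 * A * (ξ * η) + η ^ 2 * r' := by
      simp only [map_add, map_smul, inner_add_left, inner_add_right, real_inner_smul_left,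
        real_inner_smul_right, hr, hr']
      linear_combination (ξ * η) * hA
    rw [hw] at h1
    have e : ξ ^ 2 * r + 2 * A * (ξ * η) + η ^ 2 * r' + (ξ ^ 2 * r + 2 * A * (ξ * η) + η ^ 2 * r') =
        2 * (ξ ^ 2 * r + 2 * A * (ξ * η) + η ^ 2 * r') := by ring
    rw [e, abs_mul] at h1
    norm_num at h1
    have e' : 2 * ‖ξ • x + η • y‖ * ‖ξ • x + η • y‖ = 2 * (ξ ^ 2 + η ^ 2) := by rw [← hnw]; ring
    rw [e'] at h1
    linarith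
  obtain ⟨hb1, hb2, hb3⟩ := psd2 (1 - r) (1 - r') A (fun ξ η => by
    have := (abs_le.mp (hblock ξ η)).2
    nlinarith)
  obtain ⟨hb4, hb5, hb6⟩ := psd2 (1 + r) (1 + r') (-A) (fun ξ η => by
    have := (abs_le.mp (hblock ξ η)).1
    nlinarith)
  rw [neg_sq] at hb4
  exact ⟨hb1, hb4, hb2, hb3, hb5, hb6⟩

/-- A Bessel type bound for the symmetric part. -/
lemma col_bound₁ (F : E →ₗ[ℝ] E)
    (hα : ∀ u v : E, |inner ℝ u (F v) + inner ℝ v (F u)| ≤ 2 * ‖u‖ * ‖v‖)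
    (x y e : E) (hx : ‖x‖ = 1) (hy : ‖y‖ = 1) (he : ‖e‖ = 1) (hxy : inner ℝ x y = 0)
    (hxe : inner ℝ x e = 0) (hye : inner ℝ y e = 0) :
    ((inner ℝ x (F y) + inner ℝ y (F x)) / 2) ^ 2 + (inner ℝ y (F y)) ^ 2 +
      ((inner ℝ e (F y) + inner ℝ y (F e)) / 2) ^ 2 ≤ 1 := by
  obtain ⟨A, hA⟩ : ∃ A, A = (inner ℝ x (F y) + inner ℝ y (F x)) / 2 := ⟨_, rfl⟩
  obtain ⟨a₃, ha₃⟩ : ∃ a, a = (inner ℝ e (F y) + inner ℝ y (F e)) / 2 := ⟨_, rfl⟩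
  obtain ⟨r', hr'⟩ : ∃ r', r' = inner ℝ y (F y) := ⟨_, rfl⟩
  rw [← hA, ← ha₃, ← hr']
  obtain ⟨q, hq⟩ : ∃ q, q = A • x + r' • y + a₃ • e := ⟨_, rfl⟩
  have hqn : ‖q‖ ^ 2 = A ^ 2 + r' ^ 2 + a₃ ^ 2 := by
    rw [hq, norm_sq_three x y e hxy hxe hye, hx, hy, he]
    ring
  have h1 := hα q y
  have h2 : inner ℝ q (F y) + inner ℝ y (F q) = 2 * ‖q‖ ^ 2 := by
    rw [hqn, hq]
    simp only [map_add, map_smul, inner_add_left, inner_add_right, real_inner_smul_left,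
      real_inner_smul_right]
    rw [← hr']
    linear_combination (-2 * A) * hA + (-2 * a₃) * ha₃
  rw [h2, hy, mul_one, abs_of_nonneg (by positivity)] at h1
  have h3 : ‖q‖ ≤ 1 := by
    by_contra hcon
    push Not at hcon
    nlinarith [norm_nonneg q]
  have h4 : ‖q‖ ^ 2 ≤ 1 := by nlinarith [norm_nonneg q]
  rw [hqn] at h4
  exact h4

/-- A Bessel type bound for the antisymmetric part. -/
lemma col_bound₂ (F : E →ₗ[ℝ] E) (m : ℝ) (hm0 : 0 ≤ m)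
    (hγ : ∀ u v : E, |inner ℝ u (F v) - inner ℝ v (F u)| ≤ 2 * m * ‖u‖ * ‖v‖)
    (x y e : E) (hx : ‖x‖ = 1) (hy : ‖y‖ = 1) (he : ‖e‖ = 1) (hxy : inner ℝ x y = 0)
    (hxe : inner ℝ x e = 0) (hye : inner ℝ y e = 0) :
    ((inner ℝ y (F x) - inner ℝ x (F y)) / 2) ^ 2 +
      ((inner ℝ e (F y) - inner ℝ y (F e)) / 2) ^ 2 ≤ m ^ 2 := by
  obtain ⟨B, hB⟩ : ∃ B, B = (inner ℝ y (F x) - inner ℝ x (F y)) / 2 := ⟨_, rfl⟩
  obtain ⟨c₃, hc₃⟩ : ∃ a, a = (inner ℝ e (F y) - inner ℝ y (F e)) / 2 := ⟨_, rfl⟩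
  rw [← hB, ← hc₃]
  obtain ⟨q, hq⟩ : ∃ q, q = (-B) • x + (0 : ℝ) • y + c₃ • e := ⟨_, rfl⟩
  have hqn : ‖q‖ ^ 2 = B ^ 2 + c₃ ^ 2 := by
    rw [hq, norm_sq_three x y e hxy hxe hye, hx, hy, he]
    ring
  have h1 := hγ q y
  have h2 : inner ℝ q (F y) - inner ℝ y (F q) = 2 * ‖q‖ ^ 2 := by
    rw [hqn, hq]
    simp only [map_add, map_smul, inner_add_left, inner_add_right, real_inner_smul_left,
      real_inner_smul_right]
    linear_combination (-2 * B) * hB + (-2 * c₃) * hc₃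
  rw [h2, hy, mul_one, abs_of_nonneg (by positivity)] at h1
  have h3 : ‖q‖ ≤ m := by
    by_contra hcon
    push Not at hcon
    nlinarith [norm_nonneg q]
  have h4 : ‖q‖ ^ 2 ≤ m ^ 2 := pow_le_pow_left₀ (norm_nonneg q) h3 2
  rw [hqn] at h4
  exact h4

/-- The bound on the part of `F y` leaving the plane of `x, y`. -/
lemma remainder_bound (F : E →ₗ[ℝ] E) (m n : ℝ) (hm0 : 0 ≤ m) (hmn : m ^ 2 = n)
    (hα : ∀ u v : E, |inner ℝ u (F v) + inner ℝ v (F u)| ≤ 2 * ‖u‖ * ‖v‖)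
    (hγ : ∀ u v : E, |inner ℝ u (F v) - inner ℝ v (F u)| ≤ 2 * m * ‖u‖ * ‖v‖)
    (x y k : E) (hx : ‖x‖ = 1) (hy : ‖y‖ = 1) (hxy : inner ℝ x y = 0)
    (hxk : inner ℝ x k = 0) (hyk : inner ℝ y k = 0) (hk : inner ℝ k (F y) = ‖k‖ ^ 2) (h : ℝ)
    (hh : h = inner ℝ y (F x)) :
    h ^ 2 * ‖k‖ ^ 2 ≤ (1 + n) ^ 2 := by
  by_cases hk0 : k = 0
  · rw [hk0]; simp; positivity
  obtain ⟨K, hKd⟩ : ∃ K, K = ‖k‖ := ⟨_, rfl⟩
  have hKpos : 0 < K := by rw [hKd]; exact norm_pos_iff.mpr hk0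
  rw [← hKd] at hk ⊢
  obtain ⟨e, he⟩ : ∃ e, e = K⁻¹ • k := ⟨_, rfl⟩
  have hen : ‖e‖ = 1 := by
    rw [he, norm_smul, Real.norm_eq_abs, abs_of_pos (inv_pos.mpr hKpos), ← hKd,
      inv_mul_cancel₀ hKpos.ne']
  have hxe : inner ℝ x e = 0 := by rw [he, real_inner_smul_right, hxk]; ring
  have hye : inner ℝ y e = 0 := by rw [he, real_inner_smul_right, hyk]; ring
  have heG : inner ℝ e (F y) = K := by
    rw [he, real_inner_smul_left, hk]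
    field_simp
  have h1 := col_bound₁ F hα x y e hx hy hen hxy hxe hye
  have h2 := col_bound₂ F m hm0 hγ x y e hx hy hen hxy hxe hye
  rw [heG, hmn] at h2
  rw [heG] at h1
  rw [← hh] at h1 h2
  obtain ⟨g₀, hg₀⟩ : ∃ g, g = inner ℝ x (F y) := ⟨_, rfl⟩
  obtain ⟨f, hf⟩ : ∃ g, g = inner ℝ y (F e) := ⟨_, rfl⟩
  obtain ⟨r', hr'⟩ : ∃ g, g = inner ℝ y (F y) := ⟨_, rfl⟩
  rw [← hg₀, ← hf, ← hr'] at h1
  rw [← hg₀, ← hf] at h2
  obtain ⟨A, hA⟩ : ∃ A, A = (g₀ + h) / 2 := ⟨_, rfl⟩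
  obtain ⟨B, hB⟩ : ∃ B, B = (h - g₀) / 2 := ⟨_, rfl⟩
  obtain ⟨a₃, ha₃⟩ : ∃ a, a = (K + f) / 2 := ⟨_, rfl⟩
  obtain ⟨c₃, hc₃⟩ : ∃ a, a = (K - f) / 2 := ⟨_, rfl⟩
  rw [← hA, ← ha₃] at h1
  rw [← hB, ← hc₃] at h2
  have hKsum : K = a₃ + c₃ := by rw [ha₃, hc₃]; ring
  have hK2 : K ^ 2 ≤ 2 * (1 - A ^ 2) + 2 * (n - B ^ 2) := by
    rw [hKsum]
    nlinarith [sq_nonneg (a₃ - c₃), sq_nonneg r']
  have hhAB : h = A + B := by rw [hA, hB]; ring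
  have hh2 : h ^ 2 ≤ 2 * (A ^ 2 + B ^ 2) := by
    rw [hhAB]
    nlinarith [sq_nonneg (A - B)]
  have hΩ : 0 ≤ A ^ 2 + B ^ 2 := by positivity
  calc h ^ 2 * K ^ 2 ≤ (2 * (A ^ 2 + B ^ 2)) * K ^ 2 :=
        mul_le_mul_of_nonneg_right hh2 (sq_nonneg K)
    _ ≤ (2 * (A ^ 2 + B ^ 2)) * (2 * (1 - A ^ 2) + 2 * (n - B ^ 2)) :=
        mul_le_mul_of_nonneg_left hK2 (by positivity)
    _ ≤ (1 + n) ^ 2 := by
        nlinarith [sq_nonneg (2 * (A ^ 2 + B ^ 2) - (1 + n))]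

/-- The final numerical step. -/
lemma final_numeric (s n r r' h g₀ K2 : ℝ) (hs0 : 0 < s) (hs1 : s ≤ 1) (hn : n * (1 + s ^ 2) = 1)
    (hb1 : ((h + g₀) / 2) ^ 2 ≤ (1 - r) * (1 - r')) (hb2 : ((h + g₀) / 2) ^ 2 ≤ (1 + r) * (1 + r'))
    (hb3 : 0 ≤ 1 - r) (hb4 : 0 ≤ 1 - r') (hb5 : 0 ≤ 1 + r) (hb6 : 0 ≤ 1 + r')
    (hB : ((h - g₀) / 2) ^ 2 ≤ n) (hK : h ^ 2 * K2 ≤ (1 + n) ^ 2) :
    (2 * r + s * (r ^ 2 + h * g₀ - 1)) ^ 2 + (h * (2 + 2 * s * ((r + r') / 2))) ^ 2 +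
      (s * h) ^ 2 * K2 ≤ 16 := by
  have hσ1 : -1 ≤ (r + r') / 2 := by linarith
  have hσ2 : (r + r') / 2 ≤ 1 := by linarith
  have hc1 : ((h + g₀) / 2) ^ 2 + ((r - r') / 2) ^ 2 ≤ (1 - (r + r') / 2) ^ 2 := by
    have e : (1 - r) * (1 - r') = (1 - (r + r') / 2) ^ 2 - ((r - r') / 2) ^ 2 := by ring
    rw [e] at hb1
    linarith
  have hc2 : ((h + g₀) / 2) ^ 2 + ((r - r') / 2) ^ 2 ≤ (1 + (r + r') / 2) ^ 2 := by
    have e : (1 + r) * (1 + r') = (1 + (r + r') / 2) ^ 2 - ((r - r') / 2) ^ 2 := by ring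
    rw [e] at hb2
    linarith
  have hsc := scalar_bound s n ((r + r') / 2) ((r - r') / 2) ((h + g₀) / 2) ((h - g₀) / 2) hs0 hs1
    hn hσ1 hσ2 hc1 hc2 hB
  have e1 : 2 * ((r + r') / 2 + (r - r') / 2) +
      s * (((r + r') / 2 + (r - r') / 2) ^ 2 + ((h + g₀) / 2) ^ 2 - ((h - g₀) / 2) ^ 2 - 1) =
      2 * r + s * (r ^ 2 + h * g₀ - 1) := by ring
  have e2 : (h + g₀) / 2 + (h - g₀) / 2 = h := by ring
  rw [e1, e2] at hsc
  have h3 : (s * h) ^ 2 * K2 ≤ s ^ 2 * (1 + n) ^ 2 := by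
    have e3 : (s * h) ^ 2 * K2 = s ^ 2 * (h ^ 2 * K2) := by ring
    rw [e3]
    exact mul_le_mul_of_nonneg_left hK (sq_nonneg s)
  have e4 : (h * (2 + 2 * s * ((r + r') / 2))) ^ 2 = h ^ 2 * (2 + 2 * s * ((r + r') / 2)) ^ 2 := by
    ring
  rw [e4]
  linarith

/-- The real core: a real linear map whose symmetric part is a contraction and whose
antisymmetric part has norm at most `m`. -/
theorem core_real (F : E →ₗ[ℝ] E) (s m n : ℝ) (hs0 : 0 < s) (hs1 : s ≤ 1) (hm0 : 0 ≤ m)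
    (hmn : m ^ 2 = n) (hn : n * (1 + s ^ 2) = 1)
    (hα : ∀ u v : E, |inner ℝ u (F v) + inner ℝ v (F u)| ≤ 2 * ‖u‖ * ‖v‖)
    (hγ : ∀ u v : E, |inner ℝ u (F v) - inner ℝ v (F u)| ≤ 2 * m * ‖u‖ * ‖v‖)
    (x : E) (hx : ‖x‖ = 1) :
    ‖(2 : ℝ) • F x + s • (F (F x) - x)‖ ≤ 4 := by
  have hxx : inner ℝ x x = 1 := by rw [real_inner_self_eq_norm_sq, hx]; norm_num
  obtain ⟨r, hr⟩ : ∃ r, r = inner ℝ x (F x) := ⟨_, rfl⟩
  have hr1 : |r| ≤ 1 := by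
    have := hα x x
    rw [hx, ← hr] at this
    have e : r + r = 2 * r := by ring
    rw [e, abs_mul] at this
    norm_num at this
    linarith
  obtain ⟨y₁, hy₁⟩ : ∃ y₁, y₁ = F x - r • x := ⟨_, rfl⟩
  have hxy₁ : inner ℝ x y₁ = 0 := by
    rw [hy₁, inner_sub_right, real_inner_smul_right, hxx, ← hr]; ring
  by_cases hy0 : y₁ = 0
  · have hFx : F x = r • x := by
      rw [hy₁, sub_eq_zero] at hy0
      exact hy0
    exact core_eigen F s r hs0 hs1 hr1 x hx hFx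
  obtain ⟨h, hh⟩ : ∃ h, h = ‖y₁‖ := ⟨_, rfl⟩
  have hpos : 0 < h := by rw [hh]; exact norm_pos_iff.mpr hy0
  obtain ⟨y, hy⟩ : ∃ y, y = h⁻¹ • y₁ := ⟨_, rfl⟩
  have hyn : ‖y‖ = 1 := by
    rw [hy, norm_smul, Real.norm_eq_abs, abs_of_pos (inv_pos.mpr hpos), ← hh,
      inv_mul_cancel₀ hpos.ne']
  have hyy : inner ℝ y y = 1 := by rw [real_inner_self_eq_norm_sq, hyn]; norm_num
  have hxy : inner ℝ x y = 0 := by rw [hy, real_inner_smul_right, hxy₁]; ring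
  have hyx : inner ℝ y x = 0 := by rw [real_inner_comm]; exact hxy
  have hFx : F x = r • x + h • y := by
    rw [hy, smul_smul, mul_inv_cancel₀ hpos.ne', one_smul, hy₁]
    abel
  obtain ⟨g₀, hg₀⟩ : ∃ g, g = inner ℝ x (F y) := ⟨_, rfl⟩
  obtain ⟨r', hr'⟩ : ∃ g, g = inner ℝ y (F y) := ⟨_, rfl⟩
  obtain ⟨k, hk⟩ : ∃ k, k = F y - g₀ • x - r' • y := ⟨_, rfl⟩
  have hxk : inner ℝ x k = 0 := by
    rw [hk, inner_sub_right, inner_sub_right, real_inner_smul_right, real_inner_smul_right, hxx,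
      hxy, ← hg₀]
    ring
  have hyk : inner ℝ y k = 0 := by
    rw [hk, inner_sub_right, inner_sub_right, real_inner_smul_right, real_inner_smul_right, hyy,
      hyx, ← hr']
    ring
  have hGk : F y = g₀ • x + r' • y + k := by rw [hk]; abel
  have hyFx : inner ℝ y (F x) = h := by
    rw [hFx, inner_add_right, real_inner_smul_right, real_inner_smul_right, hyx, hyy]; ring
  have hkG : inner ℝ k (F y) = ‖k‖ ^ 2 := by
    have hkx : inner ℝ k x = 0 := by rw [real_inner_comm]; exact hxk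
    have hky : inner ℝ k y = 0 := by rw [real_inner_comm]; exact hyk
    rw [hGk, inner_add_right, inner_add_right, real_inner_smul_right, real_inner_smul_right,
      hkx, hky, real_inner_self_eq_norm_sq]
    ring
  obtain ⟨hb1, hb2, hb3, hb4, hb5, hb6⟩ := block_bound F hα x y hx hyn hxy r r' ((h + g₀) / 2)
    hr.symm hr'.symm (by rw [← hg₀, hyFx]; ring)
  have hBm : |(h - g₀) / 2| ≤ m := by
    have := hγ y x
    rw [hyn, hx, hyFx, ← hg₀] at this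
    have e : h - g₀ = 2 * ((h - g₀) / 2) := by ring
    rw [e, abs_mul] at this
    norm_num at this
    linarith
  have hB2 : ((h - g₀) / 2) ^ 2 ≤ n := by
    rw [← hmn, ← sq_abs ((h - g₀) / 2)]
    exact pow_le_pow_left₀ (abs_nonneg _) hBm 2
  have hK := remainder_bound F m n hm0 hmn hα hγ x y k hx hyn hxy hxk hyk hkG h hyFx.symm
  have hL : (2 : ℝ) • F x + s • (F (F x) - x) =
      (2 * r + s * (r ^ 2 + h * g₀ - 1)) • x + (h * (2 + 2 * s * ((r + r') / 2))) • y +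
        (s * h) • k := by
    have hFF : F (F x) = r • (r • x + h • y) + h • (g₀ • x + r' • y + k) := by
      conv_lhs => rw [hFx]
      rw [map_add, map_smul, map_smul, hFx, hGk]
    rw [hFF, hFx]
    module
  have hnorm := norm_sq_three x y k hxy hxk hyk (2 * r + s * (r ^ 2 + h * g₀ - 1))
    (h * (2 + 2 * s * ((r + r') / 2))) (s * h)
  rw [hx, hyn, ← hL] at hnorm
  have hfin := final_numeric s n r r' h g₀ (‖k‖ ^ 2) hs0 hs1 hn hb1 hb2 hb3 hb4 hb5 hb6 hB2 hK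
  have hfin2 : ‖(2 : ℝ) • F x + s • (F (F x) - x)‖ ^ 2 ≤ 16 := by
    rw [hnorm]
    linarith
  by_contra hcon
  push Not at hcon
  nlinarith [norm_nonneg ((2 : ℝ) • F x + s • (F (F x) - x))]

end Real

end Vale.Agent.P123
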