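import Mathlib

namespace Vale.Agent.P123

/-- Weighted Cauchy-Schwarz. -/
lemma add_sq_le_weighted (a b α : ℝ) (h0 : 0 < α) (h1 : α < 1) :
    (a + b) ^ 2 ≤ a ^ 2 / (1 - α) + b ^ 2 / α := by
  have h2 : 0 < 1 - α := by linarith
  rw [div_add_div _ _ h2.ne' h0.ne', le_div_iff₀ (by positivity)]
  nlinarith [sq_nonneg (α * a - (1 - α) * b)]

/-- Positivity of an explicit polynomial, first form. -/
lemma poly_R1 (s : ℝ) (h0 : 0 ≤ s) (h1 : s ≤ 1) :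
    0 ≤ 16 - 24 * s + (148 / 5) * s ^ 2 - 36 * s ^ 3 + (104 / 5) * s ^ 4 - 12 * s ^ 5 +
      (31 / 5) * s ^ 6 + s ^ 7 - (3 / 5) * s ^ 8 := by
  obtain ⟨t, ht⟩ : ∃ t, t = 1 - s := ⟨_, rfl⟩
  have ht0 : 0 ≤ t := by rw [ht]; linarith
  have e : 16 - 24 * s + (148 / 5) * s ^ 2 - 36 * s ^ 3 + (104 / 5) * s ^ 4 - 12 * s ^ 5 +
      (31 / 5) * s ^ 6 + s ^ 7 - (3 / 5) * s ^ 8 =
        (16 / 1) * s ^ 0 * t ^ 8 +
        (104 / 1) * s ^ 1 * t ^ 7 +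
        (1548 / 5) * s ^ 2 * t ^ 6 +
        (2668 / 5) * s ^ 3 * t ^ 5 +
        (2824 / 5) * s ^ 4 * t ^ 4 +
        (1796 / 5) * s ^ 5 * t ^ 3 +
        (123 / 1) * s ^ 6 * t ^ 2 +
        (91 / 5) * s ^ 7 * t ^ 1 +
        (1 / 1) * s ^ 8 * t ^ 0 := by
    rw [ht]; ring
  rw [e]
  positivity

/-- Positivity of an explicit polynomial, second form. -/
lemma poly_R2 (s : ℝ) (h0 : 0 ≤ s) (h1 : s ≤ 1) :
    0 ≤ 2 - (36 / 25) * s + 4 * s ^ 2 - (63 / 25) * s ^ 3 - s ^ 4 - (27 / 25) * s ^ 5 +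
      (9 / 100) * s ^ 7 := by
  obtain ⟨t, ht⟩ : ∃ t, t = 1 - s := ⟨_, rfl⟩
  have ht0 : 0 ≤ t := by rw [ht]; linarith
  have e : 2 - (36 / 25) * s + 4 * s ^ 2 - (63 / 25) * s ^ 3 - s ^ 4 - (27 / 25) * s ^ 5 +
      (9 / 100) * s ^ 7 =
        (2 / 1) * s ^ 0 * t ^ 7 +
        (314 / 25) * s ^ 1 * t ^ 6 +
        (934 / 25) * s ^ 2 * t ^ 5 +
        (1647 / 25) * s ^ 3 * t ^ 4 +
        (1753 / 25) * s ^ 4 * t ^ 3 +
        (206 / 5) * s ^ 5 * t ^ 2 +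
        (253 / 25) * s ^ 6 * t ^ 1 +
        (1 / 20) * s ^ 7 * t ^ 0 := by
    rw [ht]; ring
  rw [e]
  positivity

/-- The main corner inequality, `σ ≥ 0`. -/
lemma main_pos (s σ n : ℝ) (hs0 : 0 < s) (hs1 : s ≤ 1) (hσ0 : 0 ≤ σ)
    (hn : n * (1 + s ^ 2) = 1) :
    (2 * σ * (1 - s + s * σ) - s * n) ^ 2 + 4 * (1 + s * σ) ^ 2 * n +
      s ^ 2 * (1 + n) ^ 2 * (1 + σ * (1 - s + s * σ)) / 2 ≤ 4 * (1 + σ * (1 - s + s * σ)) ^ 2 := by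
  set κ : ℝ := 1 - s + s * σ with hκ
  set l : ℝ := 1 + σ * κ with hl
  set μ : ℝ := 1 + s * σ with hμ
  set D : ℝ := 1 + s ^ 2 with hD
  have hD0 : 0 < D := by rw [hD]; positivity
  have hR1 := poly_R1 s hs0.le hs1
  have hR2 := poly_R2 s hs0.le hs1
  set E : ℝ := 4 * l ^ 2 - (2 * σ * κ - s * n) ^ 2 - 4 * μ ^ 2 * n -
    s ^ 2 * (1 + n) ^ 2 * l / 2 with hE
  set R1 : ℝ := 16 - 24 * s + (148 / 5) * s ^ 2 - 36 * s ^ 3 + (104 / 5) * s ^ 4 - 12 * s ^ 5 +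
      (31 / 5) * s ^ 6 + s ^ 7 - (3 / 5) * s ^ 8 with hR1d
  set R2 : ℝ := 2 - (36 / 25) * s + 4 * s ^ 2 - (63 / 25) * s ^ 3 - s ^ 4 - (27 / 25) * s ^ 5 +
      (9 / 100) * s ^ 7 with hR2d
  set Q2 : ℝ := 16 + 28 * s ^ 2 + 12 * s ^ 4 - s ^ 6 with hQ2
  have hs6 : s ^ 6 ≤ 1 := pow_le_one₀ hs0.le hs1
  have hQ20 : 0 ≤ Q2 := by
    rw [hQ2]
    have h2 := pow_pos hs0 2
    have h4 := pow_pos hs0 4
    linarith
  have hP : E * (2 * D ^ 2) = s * Q2 * (σ - 3 * s / 10) ^ 2 + σ * R1 + s ^ 2 * R2 := by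
    rw [hE, hl, hκ, hμ, hR1d, hR2d, hQ2]
    have hn' : n * D = 1 := hn
    rw [hD] at hn' ⊢
    linear_combination
      (2 * ((4 * σ * (1 - s + s * σ) * s - 4 * (1 + s * σ) ^ 2 -
            s ^ 2 * (1 + σ * (1 - s + s * σ))) * (1 + s ^ 2) +
          (-s ^ 2 - s ^ 2 * (1 + σ * (1 - s + s * σ)) / 2) * (n * (1 + s ^ 2) + 1))) * hn'
  have hP0 : 0 ≤ s * Q2 * (σ - 3 * s / 10) ^ 2 + σ * R1 + s ^ 2 * R2 := by positivity
  rw [← hP] at hP0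
  have hE0 : 0 ≤ E := nonneg_of_mul_nonneg_left hP0 (by positivity)
  rw [hE] at hE0
  linarith

/-- Facts on `n`. -/
lemma n_facts (s n : ℝ) (hs0 : 0 < s) (hs1 : s ≤ 1) (hn : n * (1 + s ^ 2) = 1) :
    1 / 2 ≤ n ∧ n ≤ 1 ∧ s ^ 2 * n = 1 - n ∧ s * n ≤ 1 / 2 := by
  have hD : 0 < 1 + s ^ 2 := by positivity
  have hn0 : 0 < n := by
    by_contra h
    push Not at h
    nlinarith
  have hs2 : s ^ 2 ≤ 1 := by nlinarith
  refine ⟨?_, ?_, ?_, ?_⟩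
  · nlinarith
  · nlinarith [sq_nonneg s]
  · linarith
  · nlinarith [sq_nonneg (1 - s)]

/-- The main corner inequality, `σ < 0`, written with `τ = -σ ≥ 0`. -/
lemma main_neg (s τ n : ℝ) (hs0 : 0 < s) (hs1 : s ≤ 1) (hτ0 : 0 ≤ τ) (hτ1 : τ ≤ 1)
    (hn : n * (1 + s ^ 2) = 1) :
    (-2 * τ * (1 + s - s * τ) - s * n) ^ 2 + 4 * (1 - s * τ) ^ 2 * n +
      s ^ 2 * (1 + n) ^ 2 * (1 + τ * (1 + s - s * τ)) / 2 ≤ 4 * (1 + τ * (1 + s - s * τ)) ^ 2 := by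
  obtain ⟨hn1, hn2, hn3, hn4⟩ := n_facts s n hs0 hs1 hn
  set θ : ℝ := τ * (1 + s - s * τ) with hθ
  have hθ0 : 0 ≤ θ := by
    rw [hθ]
    refine mul_nonneg hτ0 ?_
    nlinarith
  have hsτ : 0 ≤ 1 - s * τ := by nlinarith
  have hμ : (1 - s * τ) ^ 2 ≤ 1 := by nlinarith [mul_nonneg hs0.le hτ0]
  have hs2 : s ^ 2 ≤ 1 := by nlinarith
  have hW : s ^ 2 * (1 + n) ^ 2 ≤ 4 := by nlinarith [mul_nonneg (sq_nonneg s) (sq_nonneg (1 + n))]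
  -- the constant term
  have h0 : 0 ≤ (1 - n) * (4 - n) - s ^ 2 * (1 + n) ^ 2 / 2 := by
    have e : (1 - n) * (4 - n) - s ^ 2 * (1 + n) ^ 2 / 2 =
        s ^ 2 * (-3 * n ^ 2 + 6 * n - 1) / 2 := by
      have : (1 - n) = s ^ 2 * n := by linarith
      rw [this]
      ring
    rw [e]
    have : 0 ≤ -3 * n ^ 2 + 6 * n - 1 := by nlinarith
    positivity
  have h1 : 0 ≤ 4 * (2 - s * n) - s ^ 2 * (1 + n) ^ 2 / 2 := by nlinarith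
  have h2 : 4 * (1 - s * τ) ^ 2 * n ≤ 4 * n := by nlinarith
  have e : 4 * (1 + θ) ^ 2 - (-2 * θ - s * n) ^ 2 =
      4 - (s * n) ^ 2 + 4 * θ * (2 - s * n) := by ring
  have e2 : (s * n) ^ 2 = n * (1 - n) := by
    have : (s * n) ^ 2 = (s ^ 2 * n) * n := by ring
    rw [this, hn3]; ring
  have e3 : -2 * τ * (1 + s - s * τ) = -2 * θ := by rw [hθ]; ring
  rw [e3]
  have h3 := mul_nonneg hθ0 h1
  nlinarith

/-- The cross term inequality, `σ ≥ 0`. -/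
lemma cross_pos (s σ n ε V : ℝ) (hs0 : 0 < s) (hs1 : s ≤ 1) (hσ0 : 0 ≤ σ) (hσ1 : σ ≤ 1)
    (hn : n * (1 + s ^ 2) = 1) (hε0 : 0 ≤ ε) (hε1 : ε ≤ (1 - σ) ^ 2) (hV0 : 0 ≤ V) (hV1 : V ≤ n) :
    -2 * (2 * σ * (1 - s + s * σ) - s * n) * s * (ε - V) + s ^ 2 * (ε - V) ^ 2 -
      4 * (1 + s * σ) ^ 2 * V ≤ 4 * (1 + σ * (1 - s + s * σ)) * ε := by
  obtain ⟨hn1, hn2, hn3, hn4⟩ := n_facts s n hs0 hs1 hn
  set κ : ℝ := 1 - s + s * σ with hκ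
  have hκ0 : 0 ≤ κ := by rw [hκ]; nlinarith
  have hκ1 : κ ≤ 1 := by rw [hκ]; nlinarith
  have hs2 : s ^ 2 ≤ 1 := by nlinarith
  have hσκ : 0 ≤ σ * κ := mul_nonneg hσ0 hκ0
  have hsσκ : 0 ≤ s * (σ * κ) := mul_nonneg hs0.le hσκ
  have hμ : 1 ≤ (1 + s * σ) ^ 2 := by nlinarith [mul_nonneg hs0.le hσ0]
  have hC : (1 - σ) ^ 2 ≤ 1 := by nlinarith
  rcases le_total V ε with h | h
  · -- e ≥ 0
    set e : ℝ := ε - V with he
    have he0 : 0 ≤ e := by rw [he]; linarith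
    have he1 : e ≤ ε := by rw [he]; linarith
    have h1 : s ^ 2 * e ≤ 1 := by nlinarith
    have h2 : -2 * (2 * σ * κ - s * n) * s + s ^ 2 * e ≤ 4 * (1 + σ * κ) := by nlinarith
    have h3 := mul_le_mul_of_nonneg_left h2 he0
    have h4 : 0 ≤ (1 + s * σ) ^ 2 * V := by positivity
    have h5 : 0 ≤ 4 * (1 + σ * κ) * (ε - e) := by
      have : 0 ≤ ε - e := by linarith
      positivity
    nlinarith
  · -- e ≤ 0
    set v : ℝ := V - ε with hv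
    have hv0 : 0 ≤ v := by rw [hv]; linarith
    have hv1 : v ≤ n := by rw [hv]; linarith
    have hvV : v ≤ V := by rw [hv]; linarith
    have he : ε - V = -v := by rw [hv]; ring
    rw [he]
    have h1 : s ^ 2 * v ≤ s ^ 2 * n := mul_le_mul_of_nonneg_left hv1 (sq_nonneg s)
    have h2 : 2 * (2 * σ * κ - s * n) * s + s ^ 2 * v - 4 * (1 + s * σ) ^ 2 ≤ 0 := by
      have h3 : s * (σ * κ) ≤ 1 := by
        have : σ * κ ≤ 1 := by nlinarith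
        nlinarith
      nlinarith
    have h3 := mul_nonneg hv0 (neg_nonneg.mpr h2)
    have h4 : 0 ≤ (1 + s * σ) ^ 2 * (V - v) := by
      have : 0 ≤ V - v := by linarith
      positivity
    have h5 : 0 ≤ (1 + σ * κ) * ε := by positivity
    nlinarith

/-- The cross term inequality, `σ < 0`, written with `τ = -σ`. -/
lemma cross_neg (s τ n ε V : ℝ) (hs0 : 0 < s) (hs1 : s ≤ 1) (hτ0 : 0 ≤ τ) (hτ1 : τ ≤ 1)
    (hn : n * (1 + s ^ 2) = 1) (hε0 : 0 ≤ ε) (hε1 : ε ≤ (1 - τ) ^ 2) (hV0 : 0 ≤ V) (hV1 : V ≤ n) :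
    -2 * (-2 * τ * (1 + s - s * τ) - s * n) * s * (ε - V) + s ^ 2 * (ε - V) ^ 2 -
      4 * (1 - s * τ) ^ 2 * V ≤ 4 * (1 + τ * (1 + s - s * τ)) * ε := by
  obtain ⟨hn1, hn2, hn3, hn4⟩ := n_facts s n hs0 hs1 hn
  set θ : ℝ := τ * (1 + s - s * τ) with hθ
  have hθ0 : 0 ≤ θ := by
    rw [hθ]
    refine mul_nonneg hτ0 ?_
    nlinarith
  have e3 : -2 * τ * (1 + s - s * τ) = -2 * θ := by rw [hθ]; ring
  rw [e3]
  have hs2 : s ^ 2 ≤ 1 := by nlinarith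
  have hC : (1 - τ) ^ 2 ≤ 1 := by nlinarith
  rcases le_total V ε with h | h
  · set e : ℝ := ε - V with he
    have he0 : 0 ≤ e := by rw [he]; linarith
    have he1 : e ≤ ε := by rw [he]; linarith
    have h1 : s ^ 2 * e ≤ 1 := by nlinarith
    have h2 : -2 * (-2 * θ - s * n) * s + s ^ 2 * e ≤ 4 * (1 + θ) := by nlinarith
    have h3 := mul_le_mul_of_nonneg_left h2 he0
    have h4 : 0 ≤ (1 - s * τ) ^ 2 * V := by positivity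
    have h5 : 0 ≤ 4 * (1 + θ) * (ε - e) := by
      have : 0 ≤ ε - e := by linarith
      positivity
    nlinarith
  · set v : ℝ := V - ε with hv
    have hv0 : 0 ≤ v := by rw [hv]; linarith
    have hv1 : v ≤ n := by rw [hv]; linarith
    have hvV : v ≤ V := by rw [hv]; linarith
    have he : ε - V = -v := by rw [hv]; ring
    rw [he]
    have h1 : s ^ 2 * v ≤ s ^ 2 * n := mul_le_mul_of_nonneg_left hv1 (sq_nonneg s)
    have h2 : 2 * (-2 * θ - s * n) * s + s ^ 2 * v - 4 * (1 - s * τ) ^ 2 ≤ 0 := by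
      nlinarith [mul_nonneg hs0.le hθ0, sq_nonneg (1 - s * τ)]
    have h3 := mul_nonneg hv0 (neg_nonneg.mpr h2)
    have h4 : 0 ≤ (1 - s * τ) ^ 2 * (V - v) := by
      have : 0 ≤ V - v := by linarith
      positivity
    have h5 : 0 ≤ (1 + θ) * ε := by positivity
    nlinarith

/-- Assembly with explicit weights. -/
lemma assemble (s n μ C l c₁ W δ A B : ℝ) (hμ : 0 < μ) (hC : 0 < C) (hCμ : C ≤ μ)
    (hl : l = 2 - μ * C) (hl0 : 0 < l) (hT : A ^ 2 + δ ^ 2 ≤ C ^ 2) (hB : B ^ 2 ≤ n)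
    (hM : c₁ ^ 2 + 4 * μ ^ 2 * n + W * l / 2 ≤ 4 * l ^ 2)
    (hN : -2 * c₁ * s * ((C ^ 2 - (A ^ 2 + δ ^ 2)) - (n - B ^ 2)) +
        s ^ 2 * ((C ^ 2 - (A ^ 2 + δ ^ 2)) - (n - B ^ 2)) ^ 2 - 4 * μ ^ 2 * (n - B ^ 2) ≤
        4 * l * (C ^ 2 - (A ^ 2 + δ ^ 2))) :
    (c₁ - s * ((C ^ 2 - (A ^ 2 + δ ^ 2)) - (n - B ^ 2)) + 2 * μ * δ) ^ 2 +
      (A + B) ^ 2 * (2 * μ) ^ 2 + W ≤ 16 := by
  set ε : ℝ := C ^ 2 - (A ^ 2 + δ ^ 2) with hε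
  have hε0 : 0 ≤ ε := by rw [hε]; linarith
  set e : ℝ := ε - (n - B ^ 2) with he
  set c : ℝ := c₁ - s * e with hc
  have hα0 : 0 < μ * C / 2 := by positivity
  have hα1 : μ * C / 2 < 1 := by linarith
  have h1 := add_sq_le_weighted c (2 * μ * δ) (μ * C / 2) hα0 hα1
  have h2 := add_sq_le_weighted B A (μ * C / 2) hα0 hα1
  have h1a : 1 - μ * C / 2 = l / 2 := by rw [hl]; ring
  rw [h1a] at h1 h2
  have hkey : c ^ 2 + 4 * μ ^ 2 * B ^ 2 + W * l / 2 ≤ 4 * l ^ 2 + 4 * l * ε := by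
    have : c ^ 2 + 4 * μ ^ 2 * B ^ 2 =
        c₁ ^ 2 + 4 * μ ^ 2 * n + (-2 * c₁ * s * e + s ^ 2 * e ^ 2 - 4 * μ ^ 2 * (n - B ^ 2)) := by
      rw [hc]; ring
    rw [this]
    linarith
  have hp1 : (c ^ 2 + 4 * μ ^ 2 * B ^ 2) / (l / 2) ≤ 8 * l + 8 * ε - W := by
    rw [div_le_iff₀ (by positivity)]
    nlinarith
  have hp2 : 4 * μ ^ 2 * (A ^ 2 + δ ^ 2) / (μ * C / 2) ≤ 8 * μ * C - 8 * ε := by
    rw [div_le_iff₀ hα0]
    have : A ^ 2 + δ ^ 2 = C ^ 2 - ε := by rw [hε]; ring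
    rw [this]
    have h3 : 0 ≤ ε * μ * (μ - C) := by
      have : 0 ≤ μ - C := by linarith
      positivity
    nlinarith
  have hsum : (c + 2 * μ * δ) ^ 2 + (A + B) ^ 2 * (2 * μ) ^ 2 ≤
      (c ^ 2 + 4 * μ ^ 2 * B ^ 2) / (l / 2) + 4 * μ ^ 2 * (A ^ 2 + δ ^ 2) / (μ * C / 2) := by
    have e1 : (c ^ 2 + 4 * μ ^ 2 * B ^ 2) / (l / 2) + 4 * μ ^ 2 * (A ^ 2 + δ ^ 2) / (μ * C / 2) =
        (c ^ 2 / (l / 2) + (2 * μ * δ) ^ 2 / (μ * C / 2)) +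
          (B ^ 2 / (l / 2) + A ^ 2 / (μ * C / 2)) * (2 * μ) ^ 2 := by
      ring
    rw [e1]
    have h4 : (A + B) ^ 2 = (B + A) ^ 2 := by ring
    rw [h4]
    have h5 := mul_le_mul_of_nonneg_right h2 (sq_nonneg (2 * μ))
    linarith
  have hfin : 8 * l + 8 * μ * C = 16 := by rw [hl]; ring
  linarith

/-- The corner `σ = 1`. -/
lemma corner_one (s n b : ℝ) (hs0 : 0 < s) (hs1 : s ≤ 1) (hn : n * (1 + s ^ 2) = 1)
    (hb0 : 0 ≤ b) (hb : b ≤ n) (hW : s ^ 2 * (1 + n) ^ 2 ≤ 9 / 4) :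
    (2 - s * b) ^ 2 + b * (4 * (1 + s) ^ 2) + s ^ 2 * (1 + n) ^ 2 ≤ 16 := by
  obtain ⟨hn1, hn2, hn3, hn4⟩ := n_facts s n hs0 hs1 hn
  have h3 : s * b ≤ s * n := mul_le_mul_of_nonneg_left hb hs0.le
  have h4 : 0 ≤ s * b := by positivity
  have h5 : (2 - s * b) ^ 2 ≤ 4 := by nlinarith
  have h6 : n * (1 + s) ^ 2 ≤ 2 := by
    have e : n * (1 + s) ^ 2 = n * (1 + s ^ 2) + 2 * (s * n) := by ring
    rw [e, hn]
    linarith
  have h7 : b * (1 + s) ^ 2 ≤ n * (1 + s) ^ 2 := mul_le_mul_of_nonneg_right hb (sq_nonneg _)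
  have e : b * (4 * (1 + s) ^ 2) = 4 * (b * (1 + s) ^ 2) := by ring
  rw [e]
  linarith

/-- The corner `σ = -1`. -/
lemma corner_minus (s n b : ℝ) (hs0 : 0 < s) (hs1 : s ≤ 1) (hn : n * (1 + s ^ 2) = 1)
    (hb0 : 0 ≤ b) (hb : b ≤ n) (hW : s ^ 2 * (1 + n) ^ 2 ≤ 9 / 4) :
    (2 + s * b) ^ 2 + b * (4 * (1 - s) ^ 2) + s ^ 2 * (1 + n) ^ 2 ≤ 16 := by
  obtain ⟨hn1, hn2, hn3, hn4⟩ := n_facts s n hs0 hs1 hn
  have h3 : s * b ≤ s * n := mul_le_mul_of_nonneg_left hb hs0.le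
  have h4 : 0 ≤ s * b := by positivity
  have h5 : (2 + s * b) ^ 2 ≤ 25 / 4 := by nlinarith
  have h6 : (1 - s) ^ 2 ≤ 1 := by nlinarith
  have h7 : b * (1 - s) ^ 2 ≤ 1 := by
    have : b ≤ 1 := by linarith
    nlinarith [sq_nonneg (1 - s)]
  have e : b * (4 * (1 - s) ^ 2) = 4 * (b * (1 - s) ^ 2) := by ring
  rw [e]
  linarith

/-- The scalar inequality behind the quadratic Crouzeix bound. -/
theorem scalar_bound (s n σ δ A B : ℝ) (hs0 : 0 < s) (hs1 : s ≤ 1) (hn : n * (1 + s ^ 2) = 1)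
    (hσ1 : -1 ≤ σ) (hσ2 : σ ≤ 1) (h1 : A ^ 2 + δ ^ 2 ≤ (1 - σ) ^ 2)
    (h2 : A ^ 2 + δ ^ 2 ≤ (1 + σ) ^ 2) (hB : B ^ 2 ≤ n) :
    (2 * (σ + δ) + s * ((σ + δ) ^ 2 + A ^ 2 - B ^ 2 - 1)) ^ 2 +
      (A + B) ^ 2 * (2 + 2 * s * σ) ^ 2 + s ^ 2 * (1 + n) ^ 2 ≤ 16 := by
  obtain ⟨hn1, hn2, hn3, hn4⟩ := n_facts s n hs0 hs1 hn
  have hB0 : 0 ≤ B ^ 2 := sq_nonneg B
  have hW : s ^ 2 * (1 + n) ^ 2 ≤ 9 / 4 := by
    have e : s ^ 2 * (1 + n) ^ 2 = s ^ 2 + 2 * (s ^ 2 * n) + (s ^ 2 * n) * n := by ring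
    rw [e, hn3]
    have hs2 : s ^ 2 ≤ 1 := by nlinarith
    nlinarith [sq_nonneg (n - 1 / 2)]
  rcases le_total 0 σ with hσ | hσ
  · -- σ ≥ 0
    rcases eq_or_lt_of_le hσ2 with hσe | hσl
    · -- σ = 1
      subst hσe
      have hA : A = 0 := by nlinarith [sq_nonneg A, sq_nonneg δ]
      have hδ : δ = 0 := by nlinarith [sq_nonneg A, sq_nonneg δ]
      subst hA hδ
      have := corner_one s n (B ^ 2) hs0 hs1 hn hB0 hB hW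
      have e : (2 * ((1 : ℝ) + 0) + s * (((1 : ℝ) + 0) ^ 2 + 0 ^ 2 - B ^ 2 - 1)) = 2 - s * B ^ 2 := by
        ring
      have e' : (0 + B) ^ 2 * (2 + 2 * s * 1) ^ 2 = B ^ 2 * (4 * (1 + s) ^ 2) := by ring
      rw [e, e']
      exact this
    · have hC : 0 < 1 - σ := by linarith
      have hμ : 0 < 1 + s * σ := by positivity
      have hCμ : 1 - σ ≤ 1 + s * σ := by nlinarith [mul_nonneg hs0.le hσ]
      have hκ0 : 0 ≤ 1 - s + s * σ := by nlinarith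
      have hl : 1 + σ * (1 - s + s * σ) = 2 - (1 + s * σ) * (1 - σ) := by ring
      have hl0 : 0 < 1 + σ * (1 - s + s * σ) := by positivity
      have hε0 : 0 ≤ (1 - σ) ^ 2 - (A ^ 2 + δ ^ 2) := by linarith
      have hε1 : (1 - σ) ^ 2 - (A ^ 2 + δ ^ 2) ≤ (1 - σ) ^ 2 := by
        nlinarith [sq_nonneg A, sq_nonneg δ]
      have hM := main_pos s σ n hs0 hs1 hσ hn
      have hN := cross_pos s σ n _ (n - B ^ 2) hs0 hs1 hσ hσ2 hn hε0 hε1 (by linarith) (by linarith)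
      have := assemble s n (1 + s * σ) (1 - σ) (1 + σ * (1 - s + s * σ))
        (2 * σ * (1 - s + s * σ) - s * n) (s ^ 2 * (1 + n) ^ 2) δ A B hμ hC hCμ hl hl0 h1 hB
        (by linarith) (by linarith)
      have e1 : 2 * (σ + δ) + s * ((σ + δ) ^ 2 + A ^ 2 - B ^ 2 - 1) =
          2 * σ * (1 - s + s * σ) - s * n -
            s * ((1 - σ) ^ 2 - (A ^ 2 + δ ^ 2) - (n - B ^ 2)) + 2 * (1 + s * σ) * δ := by ring
      have e2 : (2 + 2 * s * σ) ^ 2 = (2 * (1 + s * σ)) ^ 2 := by ring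
      rw [e1, e2]
      exact this
  · -- σ ≤ 0
    obtain ⟨τ, hτ⟩ : ∃ τ, τ = -σ := ⟨_, rfl⟩
    have hσe : σ = -τ := by rw [hτ]; ring
    subst hσe
    have hτ0 : 0 ≤ τ := by linarith
    have hτ1 : τ ≤ 1 := by linarith
    rcases eq_or_lt_of_le hτ1 with hτe | hτl
    · subst hτe
      have hA : A = 0 := by nlinarith [sq_nonneg A, sq_nonneg δ]
      have hδ : δ = 0 := by nlinarith [sq_nonneg A, sq_nonneg δ]
      subst hA hδ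
      have := corner_minus s n (B ^ 2) hs0 hs1 hn hB0 hB hW
      have e : (2 * ((-1 : ℝ) + 0) + s * (((-1 : ℝ) + 0) ^ 2 + 0 ^ 2 - B ^ 2 - 1)) = -(2 + s * B ^ 2) := by
        ring
      have e' : (0 + B) ^ 2 * (2 + 2 * s * -1) ^ 2 = B ^ 2 * (4 * (1 - s) ^ 2) := by ring
      rw [e, neg_sq, e']
      exact this
    · have hC : 0 < 1 - τ := by linarith
      have hμ : 0 < 1 - s * τ := by nlinarith
      have hCμ : 1 - τ ≤ 1 - s * τ := by nlinarith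
      have hκ0 : 0 ≤ 1 + s - s * τ := by nlinarith
      have hl : 1 + τ * (1 + s - s * τ) = 2 - (1 - s * τ) * (1 - τ) := by ring
      have hl0 : 0 < 1 + τ * (1 + s - s * τ) := by positivity
      have h2' : A ^ 2 + δ ^ 2 ≤ (1 - τ) ^ 2 := by
        have : (1 + -τ) = 1 - τ := by ring
        rw [this] at h2
        exact h2
      have hε0 : 0 ≤ (1 - τ) ^ 2 - (A ^ 2 + δ ^ 2) := by linarith
      have hε1 : (1 - τ) ^ 2 - (A ^ 2 + δ ^ 2) ≤ (1 - τ) ^ 2 := by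
        nlinarith [sq_nonneg A, sq_nonneg δ]
      have hM := main_neg s τ n hs0 hs1 hτ0 hτ1 hn
      have hN := cross_neg s τ n _ (n - B ^ 2) hs0 hs1 hτ0 hτ1 hn hε0 hε1 (by linarith) (by linarith)
      have := assemble s n (1 - s * τ) (1 - τ) (1 + τ * (1 + s - s * τ))
        (-2 * τ * (1 + s - s * τ) - s * n) (s ^ 2 * (1 + n) ^ 2) δ A B hμ hC hCμ hl hl0 h2' hB
        (by linarith) (by linarith)
      have e1 : 2 * (-τ + δ) + s * ((-τ + δ) ^ 2 + A ^ 2 - B ^ 2 - 1) =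
          -2 * τ * (1 + s - s * τ) - s * n -
            s * ((1 - τ) ^ 2 - (A ^ 2 + δ ^ 2) - (n - B ^ 2)) + 2 * (1 - s * τ) * δ := by ring
      have e2 : (2 + 2 * s * -τ) ^ 2 = (2 * (1 - s * τ)) ^ 2 := by ring
      rw [e1, e2]
      exact this

end Vale.Agent.P123
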