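import Mathlib

open MeasureTheory ProbabilityTheory Real Set Filter Topology
open scoped RealInnerProductSpace

namespace Vale.Agent.P226


lemma integral_Ioi_mul_exp : ∫ t in Ioi (0:ℝ), t * Real.exp (-t ^ 2 / 2) = 1 := by
  have A : ∀ x ∈ Ici (0:ℝ), HasDerivAt (fun x : ℝ => -Real.exp (-x ^ 2 / 2)) (x * Real.exp (-x ^ 2 / 2)) x := by
    intro x _
    have h0 : HasDerivAt (fun y : ℝ => y ^ 2) (2 * x) x := by simpa using hasDerivAt_pow 2 x
    have h1 : HasDerivAt (fun x : ℝ => -x ^ 2 / 2) (-x) x :=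
      ((h0.fun_neg).div_const 2).congr_deriv (by ring)
    exact (h1.exp.fun_neg).congr_deriv (by ring)
  have B : IntegrableOn (fun t : ℝ => t * Real.exp (-t ^ 2 / 2)) (Ioi 0) := by
    have := (integrable_mul_exp_neg_mul_sq (b := 1/2) (by norm_num)).integrableOn (s := Ioi (0:ℝ))
    refine this.congr_fun ?_ measurableSet_Ioi
    intro x _
    simp only
    congr 2
    ring
  have C : Tendsto (fun y : ℝ => -Real.exp (-y ^ 2 / 2)) atTop (𝓝 (-0)) := by
    apply Tendsto.neg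
    have h : Tendsto (fun y : ℝ => -y ^ 2 / 2) atTop atBot := by
      have : Tendsto (fun y : ℝ => y ^ 2) atTop atTop := tendsto_pow_atTop two_ne_zero
      have h2 := this.const_mul_atTop_of_neg (r := (-1/2 : ℝ)) (by norm_num)
      refine h2.congr ?_
      intro y; ring
    exact Real.tendsto_exp_atBot.comp h
  have := integral_Ioi_of_hasDerivAt_of_tendsto' A B C
  rw [this]
  simp

lemma integral_abs_gaussianReal : ∫ t, |t| ∂(gaussianReal 0 1) = √(2 / π) := by
  rw [integral_gaussianReal_eq_integral_smul one_ne_zero]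
  have h1 : ∀ t : ℝ, gaussianPDFReal 0 1 t • |t| = (fun s : ℝ => (√(2 * π))⁻¹ * (s * Real.exp (-s ^ 2 / 2))) |t| := by
    intro t
    simp [gaussianPDFReal_def, sq_abs]
    ring
  simp_rw [h1]
  rw [integral_comp_abs (f := fun s : ℝ => (√(2 * π))⁻¹ * (s * Real.exp (-s ^ 2 / 2)))]
  rw [integral_const_mul, integral_Ioi_mul_exp, mul_one]
  have hpi : 0 < π := Real.pi_pos
  have h2 : √(2 * π) * √(2 / π) = 2 := by
    rw [← Real.sqrt_mul (by positivity)]
    have : 2 * π * (2 / π) = 2 ^ 2 := by field_simp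
    rw [this]
    simp
  have h3 : 0 < √(2 * π) := by positivity
  field_simp
  nlinarith [h2]

variable {E : Type*} [NormedAddCommGroup E] [InnerProductSpace ℝ E] [FiniteDimensional ℝ E]
  [MeasurableSpace E] [BorelSpace E]

lemma integrable_inner_stdGaussian (b : E) : Integrable (fun x : E => ⟪b, x⟫) (stdGaussian E) :=
  IsGaussian.integrable_dual (stdGaussian E) (innerSL ℝ b)

lemma map_inner_stdGaussian (b : E) : (stdGaussian E).map (innerSL ℝ b) =
      gaussianReal 0 (.mk (‖b‖ ^ 2) (sq_nonneg _) * 1) := by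
  rw [IsGaussian.map_eq_gaussianReal, variance_dual_stdGaussian]
  rw [integral_strongDual_stdGaussian, mul_one]
  simp
  congr 1
  ext
  simp

lemma integral_abs_inner_stdGaussian (b : E) :
    ∫ x : E, |⟪b, x⟫| ∂(stdGaussian E) = √(2 / π) * ‖b‖ := by
  have h1 : ∫ x : E, |⟪b, x⟫| ∂(stdGaussian E) = ∫ t, |t| ∂((stdGaussian E).map (innerSL ℝ b)) := by
    rw [integral_map (by fun_prop) (by fun_prop)]
    simp
  have h2 := gaussianReal_map_const_mul (μ := 0) (v := 1) ‖b‖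
  rw [mul_zero] at h2
  rw [h1, map_inner_stdGaussian, ← h2, integral_map (by fun_prop) (by fun_prop)]
  simp only [abs_mul, abs_norm]
  rw [integral_const_mul, integral_abs_gaussianReal, mul_comm]

lemma integral_comp_neg_stdGaussian {f : E → ℝ} (hf : Measurable f) :
    ∫ x, f (-x) ∂(stdGaussian E) = ∫ x, f x ∂(stdGaussian E) := by
  have h := stdGaussian_map (LinearIsometryEquiv.neg ℝ (E := E))
  conv_rhs => rw [← h]
  rw [integral_map (by fun_prop) (by fun_prop)]
  rfl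


variable {ι : Type*} [Fintype ι] [DecidableEq ι]

lemma sum_swap_diff (x b : ι → ℝ) (ρ : Equiv.Perm ι) {i l : ι} (hil : i ≠ l) :
    (∑ j, x j * b (ρ j)) - (∑ j, x j * b ((ρ * Equiv.swap i l) j)) =
      (x i - x l) * (b (ρ i) - b (ρ l)) := by
  rw [← Finset.sum_sub_distrib]
  rw [Finset.sum_eq_add i l hil]
  · simp
    ring
  · rintro c - ⟨h1, h2⟩
    simp [Equiv.swap_apply_of_ne_of_ne h1 h2]
  · simp
  · simp

lemma pointwise_swap (x b : ι → ℝ) {i l : ι} (hil : i ≠ l) :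
    |x i - x l| * ∑ ρ : Equiv.Perm ι, |b (ρ i) - b (ρ l)| ≤
      2 * ∑ ρ : Equiv.Perm ι, |∑ j, x j * b (ρ j)| := by
  rw [Finset.mul_sum]
  have h1 : ∀ ρ : Equiv.Perm ι, |x i - x l| * |b (ρ i) - b (ρ l)| ≤
      |∑ j, x j * b (ρ j)| + |∑ j, x j * b ((ρ * Equiv.swap i l) j)| := by
    intro ρ
    rw [← abs_mul, ← sum_swap_diff x b ρ hil]
    exact abs_sub _ _
  calc ∑ ρ : Equiv.Perm ι, |x i - x l| * |b (ρ i) - b (ρ l)|
      ≤ ∑ ρ : Equiv.Perm ι, (|∑ j, x j * b (ρ j)| + |∑ j, x j * b ((ρ * Equiv.swap i l) j)|) :=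
        Finset.sum_le_sum (fun ρ _ => h1 ρ)
    _ = 2 * ∑ ρ : Equiv.Perm ι, |∑ j, x j * b (ρ j)| := by
        rw [Finset.sum_add_distrib, two_mul]
        congr 1
        exact Equiv.sum_comp (Equiv.mulRight (Equiv.swap i l))
          (fun ρ : Equiv.Perm ι => |∑ j, x j * b (ρ j)|)

/-- Reindexing by a permutation. -/
lemma sum_perm_comp (f : Equiv.Perm ι → ℝ) (σ : Equiv.Perm ι) :
    ∑ ρ, f (ρ * σ) = ∑ ρ, f ρ :=
  Equiv.sum_comp (Equiv.mulRight σ) f

lemma sum_perm_single (g : ι → ℝ) (i : ι) :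
    (Fintype.card ι : ℝ) * ∑ ρ : Equiv.Perm ι, g (ρ i) =
      ((Fintype.card ι).factorial : ℝ) * ∑ a, g a := by
  have h1 : ∀ i' : ι, ∑ ρ : Equiv.Perm ι, g (ρ i') = ∑ ρ : Equiv.Perm ι, g (ρ i) := by
    intro i'
    have := sum_perm_comp (fun ρ => g (ρ i)) (Equiv.swap i i')
    rw [← this]
    simp
  calc (Fintype.card ι : ℝ) * ∑ ρ : Equiv.Perm ι, g (ρ i)
      = ∑ i' : ι, ∑ ρ : Equiv.Perm ι, g (ρ i') := by
        simp [h1]
    _ = ∑ ρ : Equiv.Perm ι, ∑ i' : ι, g (ρ i') := Finset.sum_comm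
    _ = ∑ ρ : Equiv.Perm ι, ∑ a : ι, g a := by
        refine Finset.sum_congr rfl (fun ρ _ => ?_)
        exact Equiv.sum_comp ρ g
    _ = _ := by
        simp [Fintype.card_perm]

omit [Fintype ι] in
lemma exists_perm_pair {i l i' l' : ι} (h : i ≠ l) (h' : i' ≠ l') :
    ∃ σ : Equiv.Perm ι, σ i' = i ∧ σ l' = l := by
  -- first map i' to i, then fix i and move the image of l' to l
  refine ⟨Equiv.swap (Equiv.swap i' i l') l * Equiv.swap i' i, ?_, ?_⟩
  · simp only [Equiv.Perm.coe_mul, Function.comp_apply, Equiv.swap_apply_left]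
    apply Equiv.swap_apply_of_ne_of_ne
    · intro h2
      have : Equiv.swap i' i l' = Equiv.swap i' i i' := by simp [← h2]
      exact h' ((Equiv.swap i' i).injective this).symm
    · exact h
  · simp

lemma sum_perm_pair_eq (f : ι → ι → ℝ) {i l : ι} (hil : i ≠ l) (i' l' : ι) (h' : i' ≠ l') :
    ∑ ρ : Equiv.Perm ι, f (ρ i') (ρ l') = ∑ ρ : Equiv.Perm ι, f (ρ i) (ρ l) := by
  obtain ⟨σ, h2, h3⟩ := exists_perm_pair hil h'
  have := sum_perm_comp (fun ρ => f (ρ i') (ρ l')) σ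
  rw [← this]
  simp [h2, h3]

lemma sum_perm_pair (f : ι → ι → ℝ) {i l : ι} (hil : i ≠ l) :
    ((Fintype.card ι : ℝ) * ((Fintype.card ι : ℝ) - 1)) * ∑ ρ : Equiv.Perm ι, f (ρ i) (ρ l) =
      ((Fintype.card ι).factorial : ℝ) * ∑ a, ∑ c, if a = c then 0 else f a c := by
  have h1 : ∀ i' l' : ι, i' ≠ l' → ∑ ρ : Equiv.Perm ι, f (ρ i') (ρ l') =
      ∑ ρ : Equiv.Perm ι, f (ρ i) (ρ l) := sum_perm_pair_eq f hil
  have h2 : ∀ ρ : Equiv.Perm ι, (∑ i' : ι, ∑ l' : ι, if i' = l' then 0 else f (ρ i') (ρ l')) =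
      ∑ a, ∑ c, if a = c then 0 else f a c := by
    intro ρ
    have h4 : ∀ i' l' : ι, (if i' = l' then 0 else f (ρ i') (ρ l')) =
        (fun a c => if a = c then 0 else f a c) (ρ i') (ρ l') := by
      intro i' l'
      simp
    simp only [h4]
    rw [Equiv.sum_comp ρ (fun a => ∑ l' : ι, (fun a c => if a = c then 0 else f a c) a (ρ l'))]
    refine Finset.sum_congr rfl (fun a _ => ?_)
    exact Equiv.sum_comp ρ (fun c => (fun a c => if a = c then 0 else f a c) a c)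
  have h3 : ∀ (T : ℝ) (i' : ι), (∑ l' : ι, if i' = l' then (0:ℝ) else T) =
      ((Fintype.card ι : ℝ) - 1) * T := by
    intro T i'
    have : (∑ l' : ι, if i' = l' then (0:ℝ) else T) = ∑ l' : ι, (T - if i' = l' then T else 0) := by
      refine Finset.sum_congr rfl (fun c _ => ?_)
      split_ifs <;> simp
    rw [this, Finset.sum_sub_distrib]
    simp
    ring
  calc ((Fintype.card ι : ℝ) * ((Fintype.card ι : ℝ) - 1)) * ∑ ρ : Equiv.Perm ι, f (ρ i) (ρ l)
      = ∑ i' : ι, ∑ l' : ι, if i' = l' then 0 else ∑ ρ : Equiv.Perm ι, f (ρ i) (ρ l) := by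
        simp only [h3]
        simp
        ring
    _ = ∑ i' : ι, ∑ l' : ι, if i' = l' then 0 else ∑ ρ : Equiv.Perm ι, f (ρ i') (ρ l') := by
        refine Finset.sum_congr rfl (fun a _ => Finset.sum_congr rfl (fun c _ => ?_))
        split_ifs with h
        · rfl
        · exact (h1 a c h).symm
    _ = ∑ ρ : Equiv.Perm ι, ∑ i' : ι, ∑ l' : ι, if i' = l' then 0 else f (ρ i') (ρ l') := by
        have h5 : ∀ i' l' : ι, (if i' = l' then 0 else ∑ ρ : Equiv.Perm ι, f (ρ i') (ρ l')) =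
            ∑ ρ : Equiv.Perm ι, if i' = l' then 0 else f (ρ i') (ρ l') := by
          intro i' l'
          split_ifs <;> simp
        simp only [h5]
        exact (Finset.sum_congr rfl (fun a _ => Finset.sum_comm)).trans Finset.sum_comm
    _ = _ := by
        simp [h2, Fintype.card_perm]


section Main

variable {E : Type*} [NormedAddCommGroup E] [InnerProductSpace ℝ E] [FiniteDimensional ℝ E]
  [MeasurableSpace E] [BorelSpace E]
variable {ι : Type*} [Fintype ι] [DecidableEq ι]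

omit [FiniteDimensional ℝ E] [MeasurableSpace E] [BorelSpace E] [DecidableEq ι] in
/-- The support function of the finite family `z`. -/
lemma continuous_sup_inner [Nonempty ι] (z : ι → E) :
    Continuous (fun x : E => Finset.univ.sup' Finset.univ_nonempty (fun j => ⟪z j, x⟫)) := by
  have : (fun x : E => Finset.univ.sup' Finset.univ_nonempty (fun j => ⟪z j, x⟫)) =
      Finset.univ.sup' Finset.univ_nonempty (fun j => fun x : E => ⟪z j, x⟫) := by
    ext x
    simp [Finset.sup'_apply]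
  rw [this]
  exact Continuous.finset_sup' Finset.univ_nonempty (fun j _ => by fun_prop)

omit [DecidableEq ι] in
lemma integrable_sup_inner [Nonempty ι] (z : ι → E) :
    Integrable (fun x : E => Finset.univ.sup' Finset.univ_nonempty (fun j => ⟪z j, x⟫))
      (stdGaussian E) := by
  refine Integrable.mono' (g := fun x : E => ∑ j, |⟪z j, x⟫|) ?_
    (continuous_sup_inner z).aestronglyMeasurable ?_
  · exact integrable_finsetSum _ (fun j _ => (integrable_inner_stdGaussian (z j)).abs)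
  · refine ae_of_all _ (fun x => ?_)
    obtain ⟨i, -, hi⟩ := Finset.exists_mem_eq_sup' Finset.univ_nonempty (fun j => ⟪z j, x⟫)
    rw [hi, Real.norm_eq_abs]
    exact Finset.single_le_sum (f := fun j => |⟪z j, x⟫|) (fun j _ => abs_nonneg _)
      (Finset.mem_univ i)

omit [DecidableEq ι] in
/-- The total second moment of the cells is at most the mean width integral. -/
lemma sum_sq_le_integral_sup [Nonempty ι] (A : ι → Set E) (hm : ∀ i, MeasurableSet (A i))
    (hd : Pairwise (Function.onFun Disjoint A)) (hc : ⋃ i, A i = Set.univ) (z : ι → E)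
    (hz : ∀ i, z i = ∫ x in A i, x ∂(stdGaussian E)) :
    ∑ i, ‖z i‖ ^ 2 ≤
      ∫ x, Finset.univ.sup' Finset.univ_nonempty (fun j => ⟪z j, x⟫) ∂(stdGaussian E) := by
  have hI := integrable_sup_inner (E := E) z
  have h1 : ∫ x, Finset.univ.sup' Finset.univ_nonempty (fun j => ⟪z j, x⟫) ∂(stdGaussian E) =
      ∑ i, ∫ x in A i, Finset.univ.sup' Finset.univ_nonempty (fun j => ⟪z j, x⟫)
        ∂(stdGaussian E) := by
    rw [← setIntegral_univ, ← hc]
    exact integral_iUnion_fintype hm hd (fun i => hI.integrableOn)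
  rw [h1]
  refine Finset.sum_le_sum (fun i _ => ?_)
  have h2 : ‖z i‖ ^ 2 = ∫ x in A i, ⟪z i, x⟫ ∂(stdGaussian E) := by
    have hid : Integrable (fun x : E => x) ((stdGaussian E).restrict (A i)) :=
      (IsGaussian.integrable_fun_id (μ := stdGaussian E)).integrableOn
    rw [integral_inner hid (z i), ← hz i, real_inner_self_eq_norm_sq]
  rw [h2]
  refine setIntegral_mono_on (integrable_inner_stdGaussian (z i)).integrableOn hI.integrableOn
    (hm i) (fun x _ => ?_)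
  exact Finset.le_sup' (fun j => ⟪z j, x⟫) (Finset.mem_univ i)

omit [DecidableEq ι] in
lemma integral_sup_neg [Nonempty ι] (z : ι → E) :
    ∫ x, Finset.univ.sup' Finset.univ_nonempty (fun j => ⟪z j, -x⟫) ∂(stdGaussian E) =
      ∫ x, Finset.univ.sup' Finset.univ_nonempty (fun j => ⟪z j, x⟫) ∂(stdGaussian E) :=
  integral_comp_neg_stdGaussian
    (f := fun x : E => Finset.univ.sup' Finset.univ_nonempty (fun j => ⟪z j, x⟫))
    (continuous_sup_inner z).measurable

omit [FiniteDimensional ℝ E] [MeasurableSpace E] [BorelSpace E] in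
/-- Pointwise zonoid domination of the width in direction `x`. -/
lemma width_le_sum_abs [Nonempty ι] (z : ι → E) (b : ι → ℝ) {T : ℝ} (hT : 0 ≤ T)
    (hTT : ∀ i l : ι, i ≠ l → ∑ ρ : Equiv.Perm ι, |b (ρ i) - b (ρ l)| = T) (x : E) :
    T * (Finset.univ.sup' Finset.univ_nonempty (fun j => ⟪z j, x⟫) +
        Finset.univ.sup' Finset.univ_nonempty (fun j => ⟪z j, -x⟫)) ≤
      2 * ∑ ρ : Equiv.Perm ι, |⟪∑ j, b (ρ j) • z j, x⟫| := by
  obtain ⟨i, -, hi⟩ := Finset.exists_mem_eq_sup' Finset.univ_nonempty (fun j => ⟪z j, x⟫)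
  obtain ⟨l, -, hl⟩ := Finset.exists_mem_eq_sup' Finset.univ_nonempty (fun j => ⟪z j, -x⟫)
  rw [hi, hl]
  have hrhs : 0 ≤ 2 * ∑ ρ : Equiv.Perm ι, |⟪∑ j, b (ρ j) • z j, x⟫| := by positivity
  by_cases hil : i = l
  · subst hil
    simp [hrhs]
  · have h1 := pointwise_swap (fun j => ⟪z j, x⟫) b hil
    rw [hTT i l hil] at h1
    have h2 : ∀ ρ : Equiv.Perm ι, ⟪∑ j, b (ρ j) • z j, x⟫ = ∑ j, ⟪z j, x⟫ * b (ρ j) := by
      intro ρ
      rw [sum_inner]
      refine Finset.sum_congr rfl (fun j _ => ?_)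
      rw [real_inner_smul_left]
      ring
    simp only [h2]
    refine le_trans ?_ h1
    rw [inner_neg_right, mul_comm]
    refine mul_le_mul_of_nonneg_right ?_ hT
    rw [← sub_eq_add_neg]
    exact le_abs_self _

/-- The integrated zonoid bound. -/
lemma integral_sup_le [Nonempty ι] (z : ι → E) (b : ι → ℝ) {T : ℝ} (hT : 0 ≤ T)
    (hTT : ∀ i l : ι, i ≠ l → ∑ ρ : Equiv.Perm ι, |b (ρ i) - b (ρ l)| = T) :
    T * ∫ x, Finset.univ.sup' Finset.univ_nonempty (fun j => ⟪z j, x⟫) ∂(stdGaussian E) ≤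
      √(2 / π) * ∑ ρ : Equiv.Perm ι, ‖∑ j, b (ρ j) • z j‖ := by
  have hI := integrable_sup_inner (E := E) z
  have hIneg : Integrable (fun x : E =>
      Finset.univ.sup' Finset.univ_nonempty (fun j => ⟪z j, -x⟫)) (stdGaussian E) := by
    have hmap := stdGaussian_map (LinearIsometryEquiv.neg ℝ (E := E))
    have h3 : Integrable (fun x : E => Finset.univ.sup' Finset.univ_nonempty (fun j => ⟪z j, x⟫))
        ((stdGaussian E).map (LinearIsometryEquiv.neg ℝ (E := E))) := by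
      rw [hmap]; exact hI
    have h4 := (integrable_map_measure (continuous_sup_inner z).aestronglyMeasurable
      (by fun_prop)).1 h3
    exact h4
  have hR : Integrable (fun x : E => 2 * ∑ ρ : Equiv.Perm ι, |⟪∑ j, b (ρ j) • z j, x⟫|)
      (stdGaussian E) :=
    (integrable_finsetSum _ (fun ρ _ => (integrable_inner_stdGaussian _).abs)).const_mul 2
  have h1 := integral_mono ((hI.add hIneg).const_mul T) hR (width_le_sum_abs z b hT hTT)
  rw [integral_const_mul, integral_add' hI hIneg, integral_sup_neg z, integral_const_mul,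
    integral_finsetSum _ (fun ρ _ => (integrable_inner_stdGaussian _).abs)] at h1
  simp only [integral_abs_inner_stdGaussian] at h1
  rw [← Finset.mul_sum] at h1
  linarith

omit [FiniteDimensional ℝ E] [MeasurableSpace E] [BorelSpace E] in
/-- Second moment expansion over all permutations. -/
lemma sum_perm_norm_sq (z : ι → E) (hz0 : ∑ i, z i = 0) (b : ι → ℝ) {U₁ U₂ : ℝ}
    (h1 : ∀ i, ∑ ρ : Equiv.Perm ι, b (ρ i) * b (ρ i) = U₁)
    (h2 : ∀ i l : ι, i ≠ l → ∑ ρ : Equiv.Perm ι, b (ρ i) * b (ρ l) = U₂) :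
    ∑ ρ : Equiv.Perm ι, ‖∑ j, b (ρ j) • z j‖ ^ 2 = (U₁ - U₂) * ∑ i, ‖z i‖ ^ 2 := by
  have h3 : ∀ ρ : Equiv.Perm ι, ‖∑ j, b (ρ j) • z j‖ ^ 2 =
      ∑ i, ∑ l, (b (ρ i) * b (ρ l)) * ⟪z i, z l⟫ := by
    intro ρ
    rw [← real_inner_self_eq_norm_sq, sum_inner]
    refine Finset.sum_congr rfl (fun i _ => ?_)
    rw [inner_sum]
    refine Finset.sum_congr rfl (fun l _ => ?_)
    rw [real_inner_smul_left, real_inner_smul_right]
    ring
  simp only [h3]
  have h4 : ∑ ρ : Equiv.Perm ι, ∑ i, ∑ l, (b (ρ i) * b (ρ l)) * ⟪z i, z l⟫ =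
      ∑ i, ∑ l, (∑ ρ : Equiv.Perm ι, b (ρ i) * b (ρ l)) * ⟪z i, z l⟫ := by
    simp only [Finset.sum_mul]
    rw [Finset.sum_comm]
    exact Finset.sum_congr rfl (fun a _ => Finset.sum_comm)
  rw [h4]
  have h5 : ∀ i l : ι, (∑ ρ : Equiv.Perm ι, b (ρ i) * b (ρ l)) * ⟪z i, z l⟫ =
      U₂ * ⟪z i, z l⟫ + (if i = l then (U₁ - U₂) * ‖z i‖ ^ 2 else 0) := by
    intro i l
    by_cases hil : i = l
    · subst hil
      rw [h1 i, if_pos rfl, real_inner_self_eq_norm_sq]
      ring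
    · rw [h2 i l hil, if_neg hil]
      ring
  simp only [h5, Finset.sum_add_distrib, Finset.sum_ite_eq, Finset.mem_univ, if_true]
  have h6 : ∑ i, ∑ l, U₂ * ⟪z i, z l⟫ = 0 := by
    have : ∀ i, ∑ l, U₂ * ⟪z i, z l⟫ = 0 := by
      intro i
      rw [← Finset.mul_sum, ← inner_sum, hz0, inner_zero_right, mul_zero]
    simp [this]
  rw [h6, zero_add, Finset.mul_sum]


omit [DecidableEq ι] in
lemma sum_moment_eq_zero (A : ι → Set E) (hm : ∀ i, MeasurableSet (A i))
    (hd : Pairwise (Function.onFun Disjoint A)) (hc : ⋃ i, A i = Set.univ) :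
    ∑ i, ∫ x in A i, x ∂(stdGaussian E) = 0 := by
  have hid : Integrable (fun x : E => x) (stdGaussian E) := IsGaussian.integrable_fun_id
  have h := integral_iUnion_fintype hm hd (fun i => hid.integrableOn (s := A i))
  rw [← h, hc, setIntegral_univ]
  exact integral_id_stdGaussian

/-- General bound from a weight vector `b` with zero sum. -/
theorem general_bound (A : ι → Set E) (hm : ∀ i, MeasurableSet (A i))
    (hd : Pairwise (Function.onFun Disjoint A)) (hc : ⋃ i, A i = Set.univ)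
    (b : ι → ℝ) (hb : ∑ a, b a = 0) {i₀ l₀ : ι} (h₀ : i₀ ≠ l₀) :
    (∑ a, ∑ c, if a = c then 0 else |b a - b c|) ^ 2 *
        ∑ i, ‖∫ x in A i, x ∂(stdGaussian E)‖ ^ 2 ≤
      (2 / π) * (∑ a, b a ^ 2) * (Fintype.card ι : ℝ) ^ 2 * ((Fintype.card ι : ℝ) - 1) := by
  classical
  have : Nonempty ι := ⟨i₀⟩
  set z : ι → E := fun i => ∫ x in A i, x ∂(stdGaussian E) with hzdef
  set S : ℝ := ∑ i, ‖z i‖ ^ 2 with hS
  set K : ℝ := (Fintype.card ι : ℝ) with hK
  set N : ℝ := ((Fintype.card ι).factorial : ℝ) with hN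
  set B : ℝ := ∑ a, b a ^ 2 with hB
  set G : ℝ := ∑ a, ∑ c, if a = c then 0 else |b a - b c| with hG
  have hK2 : (2:ℝ) ≤ K := by
    have : 1 < Fintype.card ι := Fintype.one_lt_card_iff.2 ⟨i₀, l₀, h₀⟩
    rw [hK]
    exact_mod_cast this
  have hN0 : 0 < N := by rw [hN]; exact_mod_cast Nat.factorial_pos _
  have hz0 : ∑ i, z i = 0 := sum_moment_eq_zero A hm hd hc
  -- the constants
  set T : ℝ := ∑ ρ : Equiv.Perm ι, |b (ρ i₀) - b (ρ l₀)| with hT
  have hT0 : 0 ≤ T := Finset.sum_nonneg (fun _ _ => abs_nonneg _)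
  have hTT : ∀ i l : ι, i ≠ l → ∑ ρ : Equiv.Perm ι, |b (ρ i) - b (ρ l)| = T :=
    fun i l hil => sum_perm_pair_eq (fun a c => |b a - b c|) h₀ i l hil
  have hTG : (K * (K - 1)) * T = N * G := sum_perm_pair (fun a c => |b a - b c|) h₀
  set U₁ : ℝ := ∑ ρ : Equiv.Perm ι, b (ρ i₀) * b (ρ i₀) with hU₁
  set U₂ : ℝ := ∑ ρ : Equiv.Perm ι, b (ρ i₀) * b (ρ l₀) with hU₂
  have hU₁' : ∀ i, ∑ ρ : Equiv.Perm ι, b (ρ i) * b (ρ i) = U₁ := by
    intro i
    have h1 := sum_perm_single (fun a => b a * b a) i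
    have h2 := sum_perm_single (fun a => b a * b a) i₀
    have hK0 : (Fintype.card ι : ℝ) ≠ 0 := by rw [← hK]; linarith
    exact mul_left_cancel₀ hK0 (h1.trans h2.symm)
  have hU₂' : ∀ i l : ι, i ≠ l → ∑ ρ : Equiv.Perm ι, b (ρ i) * b (ρ l) = U₂ :=
    fun i l hil => sum_perm_pair_eq (fun a c => b a * b c) h₀ i l hil
  have hU₁v : K * U₁ = N * B := by
    have h1 := sum_perm_single (fun a => b a * b a) i₀
    have h2 : (∑ a, b a * b a) = B := by simp [hB, sq]
    rw [h2] at h1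
    exact h1
  have hU₂v : (K * (K - 1)) * U₂ = N * (-B) := by
    have h1 := sum_perm_pair (fun a c => b a * b c) h₀
    have h2 : (∑ a, ∑ c, if a = c then 0 else b a * b c) = -B := by
      have h3 : ∀ a c : ι, (if a = c then 0 else b a * b c) =
          b a * b c - (if a = c then b a * b c else 0) := by
        intro a c
        split_ifs <;> simp
      simp only [h3, Finset.sum_sub_distrib, Finset.sum_ite_eq, Finset.mem_univ, if_true]
      rw [← Finset.sum_mul_sum, hb, zero_mul, zero_sub]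
      simp [hB, sq]
    rw [h2] at h1
    exact h1
  have hK0 : K ≠ 0 := by linarith
  have hK1 : K - 1 ≠ 0 := by linarith
  have hU : (K - 1) * (U₁ - U₂) = N * B := by
    have : K * ((K - 1) * (U₁ - U₂)) = K * (N * B) := by
      have h1 : K * ((K - 1) * (U₁ - U₂)) = (K - 1) * (K * U₁) - (K * (K - 1)) * U₂ := by ring
      rw [h1, hU₁v, hU₂v]
      ring
    exact mul_left_cancel₀ hK0 this
  -- the chain of inequalities
  have hD := sum_sq_le_integral_sup A hm hd hc z (fun _ => rfl)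
  have hint := integral_sup_le (E := E) z b hT0 hTT
  set D : ℝ := ∫ x, Finset.univ.sup' Finset.univ_nonempty (fun j => ⟪z j, x⟫) ∂(stdGaussian E)
    with hDdef
  have hw := sum_perm_norm_sq z hz0 b hU₁' hU₂'
  have hCS : (∑ ρ : Equiv.Perm ι, ‖∑ j, b (ρ j) • z j‖) ^ 2 ≤
      N * ∑ ρ : Equiv.Perm ι, ‖∑ j, b (ρ j) • z j‖ ^ 2 := by
    have := sq_sum_le_card_mul_sum_sq (s := (Finset.univ : Finset (Equiv.Perm ι)))
      (f := fun ρ => ‖∑ j, b (ρ j) • z j‖)
    simpa [Finset.card_univ, Fintype.card_perm, hN] using this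
  rw [hw] at hCS
  have hS0 : 0 ≤ S := Finset.sum_nonneg (fun _ _ => by positivity)
  have hpi : 0 < π := Real.pi_pos
  set W : ℝ := ∑ ρ : Equiv.Perm ι, ‖∑ j, b (ρ j) • z j‖ with hW
  have hW0 : 0 ≤ W := Finset.sum_nonneg (fun _ _ => norm_nonneg _)
  have hTS : T * S ≤ √(2 / π) * W := (mul_le_mul_of_nonneg_left hD hT0).trans hint
  have hsq : (T * S) ^ 2 ≤ (2 / π) * W ^ 2 := by
    have h1 : (T * S) ^ 2 ≤ (√(2 / π) * W) ^ 2 :=
      pow_le_pow_left₀ (mul_nonneg hT0 hS0) hTS 2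
    have h2 : (√(2 / π) * W) ^ 2 = (2 / π) * W ^ 2 := by
      rw [mul_pow, Real.sq_sqrt (by positivity)]
    rwa [h2] at h1
  have hmain : (T * S) ^ 2 ≤ (2 / π) * (N * ((U₁ - U₂) * S)) :=
    hsq.trans (mul_le_mul_of_nonneg_left hCS (by positivity))
  rcases hS0.eq_or_lt with hS00 | hSpos
  · rw [← hS00, mul_zero]
    have hB0 : 0 ≤ B := Finset.sum_nonneg (fun _ _ => by positivity)
    have : 0 ≤ K - 1 := by linarith
    positivity
  · -- cancel one factor of `S`
    have h1 : T ^ 2 * S ≤ (2 / π) * (N * (U₁ - U₂)) := by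
      have h2 : S * (T ^ 2 * S) ≤ S * ((2 / π) * (N * (U₁ - U₂))) := by
        calc S * (T ^ 2 * S) = (T * S) ^ 2 := by ring
          _ ≤ (2 / π) * (N * ((U₁ - U₂) * S)) := hmain
          _ = _ := by ring
      exact le_of_mul_le_mul_left h2 hSpos
    -- multiply through
    have hK1pos : 0 < K - 1 := by linarith
    have hKpos : 0 < K := by linarith
    have h3 : (K * (K - 1)) ^ 2 * (T ^ 2 * S) ≤ (K * (K - 1)) ^ 2 * ((2 / π) * (N * (U₁ - U₂))) :=
      mul_le_mul_of_nonneg_left h1 (by positivity)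
    have h4 : (N * G) ^ 2 * S ≤ (K * (K - 1)) ^ 2 * ((2 / π) * (N * (U₁ - U₂))) := by
      rw [← hTG]
      calc ((K * (K - 1)) * T) ^ 2 * S = (K * (K - 1)) ^ 2 * (T ^ 2 * S) := by ring
        _ ≤ _ := h3
    have h5 : (K * (K - 1)) ^ 2 * ((2 / π) * (N * (U₁ - U₂))) =
        N ^ 2 * ((2 / π) * B * K ^ 2 * (K - 1)) := by
      calc (K * (K - 1)) ^ 2 * ((2 / π) * (N * (U₁ - U₂)))
          = (2 / π) * N * K ^ 2 * (K - 1) * ((K - 1) * (U₁ - U₂)) := by ring
        _ = _ := by rw [hU]; ring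
    rw [h5] at h4
    have h6 : N ^ 2 * (G ^ 2 * S) ≤ N ^ 2 * ((2 / π) * B * K ^ 2 * (K - 1)) := by
      calc N ^ 2 * (G ^ 2 * S) = (N * G) ^ 2 * S := by ring
        _ ≤ _ := h4
    exact le_of_mul_le_mul_left h6 (by positivity)

end Main

section Explicit

open Finset in
lemma sum_range_cast (n : ℕ) : ∑ a ∈ range n, (a : ℝ) = n * (n - 1) / 2 := by
  induction n with
  | zero => simp
  | succ n ih =>
    rw [sum_range_succ, ih]
    push_cast
    ring

open Finset in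
lemma sum_range_cast_sq (n : ℕ) : ∑ a ∈ range n, (a : ℝ) ^ 2 = (n - 1) * n * (2 * n - 1) / 6 := by
  induction n with
  | zero => simp
  | succ n ih =>
    rw [sum_range_succ, ih]
    push_cast
    ring

open Finset in
lemma sum_range_abs_aux (n : ℕ) : ∑ a ∈ range n, |(a : ℝ) - n| = n * (n + 1) / 2 := by
  have h : ∀ a ∈ range n, |(a : ℝ) - n| = n - a := by
    intro a ha
    have : (a : ℝ) ≤ n := by
      exact_mod_cast (mem_range.1 ha).le
    rw [abs_of_nonpos (by linarith)]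
    ring
  rw [sum_congr rfl h, sum_sub_distrib, sum_range_cast]
  simp
  ring

open Finset in
lemma sum_range_abs (n : ℕ) :
    ∑ a ∈ range n, ∑ c ∈ range n, |(a : ℝ) - c| = n * ((n : ℝ) ^ 2 - 1) / 3 := by
  induction n with
  | zero => simp
  | succ n ih =>
    rw [sum_range_succ]
    have h1 : ∀ a, ∑ c ∈ range (n + 1), |(a : ℝ) - c| =
        ∑ c ∈ range n, |(a : ℝ) - c| + |(a : ℝ) - n| := fun a => sum_range_succ _ _
    simp only [h1]
    rw [sum_add_distrib, ih, sum_range_abs_aux]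
    have h2 : ∑ c ∈ range n, |(n : ℝ) - c| = n * (n + 1) / 2 := by
      rw [← sum_range_abs_aux]
      exact sum_congr rfl (fun c _ => abs_sub_comm _ _)
    rw [h2]
    simp
    ring

/-- The equally spaced weight vector. -/
lemma equispaced_sum (k : ℕ) :
    ∑ a : Fin k, (2 * ((a : ℕ) : ℝ) - ((k : ℝ) - 1)) = 0 := by
  rw [Fin.sum_univ_eq_sum_range (fun a : ℕ => 2 * (a : ℝ) - ((k : ℝ) - 1)) k,
    Finset.sum_sub_distrib, ← Finset.mul_sum, sum_range_cast]
  simp
  ring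

lemma equispaced_sq (k : ℕ) :
    ∑ a : Fin k, (2 * ((a : ℕ) : ℝ) - ((k : ℝ) - 1)) ^ 2 = k * ((k : ℝ) ^ 2 - 1) / 3 := by
  rw [Fin.sum_univ_eq_sum_range (fun a : ℕ => (2 * (a : ℝ) - ((k : ℝ) - 1)) ^ 2) k]
  have h : ∀ a : ℕ, (2 * (a : ℝ) - ((k : ℝ) - 1)) ^ 2 =
      4 * (a : ℝ) ^ 2 - 4 * ((k : ℝ) - 1) * a + ((k : ℝ) - 1) ^ 2 := by
    intro a; ring
  simp only [h]
  rw [Finset.sum_add_distrib, Finset.sum_sub_distrib, ← Finset.mul_sum, ← Finset.mul_sum,
    sum_range_cast, sum_range_cast_sq]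
  simp
  ring

lemma equispaced_abs (k : ℕ) :
    (∑ a : Fin k, ∑ c : Fin k, if a = c then 0 else
      |(2 * ((a : ℕ) : ℝ) - ((k : ℝ) - 1)) - (2 * ((c : ℕ) : ℝ) - ((k : ℝ) - 1))|) =
      2 * (k * ((k : ℝ) ^ 2 - 1) / 3) := by
  rw [← sum_range_abs, Finset.mul_sum]
  rw [← Fin.sum_univ_eq_sum_range (fun a : ℕ => 2 * ∑ c ∈ Finset.range k, |(a : ℝ) - c|) k]
  refine Finset.sum_congr rfl (fun a _ => ?_)
  rw [Finset.mul_sum,
    ← Fin.sum_univ_eq_sum_range (fun c : ℕ => 2 * |((a : ℕ) : ℝ) - c|) k]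
  refine Finset.sum_congr rfl (fun c _ => ?_)
  split_ifs with h
  · simp [h]
  · have : (2 * ((a : ℕ) : ℝ) - ((k : ℝ) - 1)) - (2 * ((c : ℕ) : ℝ) - ((k : ℝ) - 1)) =
        2 * (((a : ℕ) : ℝ) - ((c : ℕ) : ℝ)) := by ring
    rw [this, abs_mul]
    simp

end Explicit

lemma kcell_bound_aux {E : Type*} [NormedAddCommGroup E] [InnerProductSpace ℝ E]
    [FiniteDimensional ℝ E] [MeasurableSpace E] [BorelSpace E] {n : ℕ} (hn : 2 ≤ n)
    (A : Fin n → Set E)
    (hm : ∀ i, MeasurableSet (A i)) (hd : Pairwise (Function.onFun Disjoint A))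
    (hc : ⋃ i, A i = Set.univ) :
    ∑ i, ‖∫ x in A i, x ∂(stdGaussian E)‖ ^ 2 ≤ 3 * n / (2 * π * (n + 1)) := by
  have hpi : 0 < π := Real.pi_pos
  have hK2 : (2:ℝ) ≤ (n : ℝ) := by exact_mod_cast hn
  have h := general_bound A hm hd hc (fun a : Fin n => 2 * ((a : ℕ) : ℝ) - ((n : ℝ) - 1))
    (equispaced_sum n) (i₀ := ⟨0, by omega⟩) (l₀ := ⟨1, by omega⟩)
    (by simp [Fin.ext_iff])
  rw [Fintype.card_fin, equispaced_abs n] at h
  simp only [equispaced_sq n] at h
  set S : ℝ := ∑ i, ‖∫ x in A i, x ∂(stdGaussian E)‖ ^ 2 with hS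
  set K : ℝ := (n : ℝ) with hK
  have hKm : 0 < K - 1 := by linarith
  have hKp : 0 < K + 1 := by linarith
  have hK0 : 0 < K := by linarith
  have hc : 0 < K ^ 2 * (K + 1) * (K - 1) ^ 2 := by positivity
  -- cancel common factors
  have h1 : (K ^ 2 * (K + 1) * (K - 1) ^ 2) * (4 * (K + 1) / 9 * S) ≤
      (K ^ 2 * (K + 1) * (K - 1) ^ 2) * (2 / π * (K / 3)) := by
    calc (K ^ 2 * (K + 1) * (K - 1) ^ 2) * (4 * (K + 1) / 9 * S)
        = (2 * (K * (K ^ 2 - 1) / 3)) ^ 2 * S := by ring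
      _ ≤ 2 / π * (K * (K ^ 2 - 1) / 3) * K ^ 2 * (K - 1) := h
      _ = _ := by ring
  have h2 := le_of_mul_le_mul_left h1 hc
  rw [le_div_iff₀ (by positivity)]
  have h4 : 4 * (K + 1) / 9 * S * (π * (9 / 2)) ≤ 2 / π * (K / 3) * (π * (9 / 2)) :=
    mul_le_mul_of_nonneg_right h2 (by positivity)
  have h5 : 2 / π * (K / 3) * (π * (9 / 2)) = 3 * K := by
    field_simp
    ring
  rw [h5] at h4
  calc S * (2 * π * (K + 1)) = 4 * (K + 1) / 9 * S * (π * (9 / 2)) := by ring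
    _ ≤ 3 * K := h4

/-- The bound `3k/(2π(k+1))` on the total squared first moment of a `k`-cell partition. -/
theorem kcell_bound {E : Type*} [NormedAddCommGroup E] [InnerProductSpace ℝ E]
    [FiniteDimensional ℝ E] [MeasurableSpace E] [BorelSpace E] {k : ℕ} (A : Fin k → Set E)
    (hm : ∀ i, MeasurableSet (A i)) (hd : Pairwise (Function.onFun Disjoint A))
    (hc : ⋃ i, A i = Set.univ) :
    ∑ i, ‖∫ x in A i, x ∂(stdGaussian E)‖ ^ 2 ≤ 3 * k / (2 * π * (k + 1)) := by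
  have hpi : 0 < π := Real.pi_pos
  rcases Nat.lt_or_ge k 2 with hk | hk
  · interval_cases k
    · simp
    · have h0 := sum_moment_eq_zero A hm hd hc
      simp only [Fin.sum_univ_one] at h0 ⊢
      rw [h0]
      norm_num
      positivity
  · exact kcell_bound_aux hk A hm hd hc

section Antipodal

variable {ι : Type*} [Fintype ι] [DecidableEq ι]

/-- The sign attached to a Boolean. -/
def sgn (c : Bool) : ℝ := if c then 1 else -1

lemma sgn_mul_self (c : Bool) : sgn c * sgn c = 1 := by cases c <;> simp [sgn]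

lemma sgn_not (c : Bool) : sgn (!c) = - sgn c := by cases c <;> simp [sgn]

/-- Flipping one coordinate of a sign pattern. -/
def flip (r : ι) (ε : ι → Bool) : ι → Bool := Function.update ε r (!ε r)

omit [Fintype ι] in
lemma flip_flip (r : ι) : Function.Involutive (flip (ι := ι) r) := by
  intro ε
  ext t
  by_cases h : t = r
  · subst h; simp [flip]
  · simp [flip, Function.update_of_ne h]

lemma sum_flip (r : ι) (f : (ι → Bool) → ℝ) : ∑ ε, f (flip r ε) = ∑ ε, f ε :=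
  Equiv.sum_comp (flip_flip r).toPerm f

lemma rademacher_lower (R : Finset ι) (y : ι → ℝ) {r : ι} (hr : r ∈ R) :
    (Fintype.card (ι → Bool) : ℝ) * |y r| ≤ ∑ ε : ι → Bool, |∑ t ∈ R, sgn (ε t) * y t| := by
  have h1 : ∀ ε : ι → Bool, (∑ t ∈ R, sgn (ε t) * y t) - (∑ t ∈ R, sgn (flip r ε t) * y t) =
      2 * (sgn (ε r) * y r) := by
    intro ε
    rw [← Finset.sum_sub_distrib]
    rw [Finset.sum_eq_single_of_mem r hr]
    · simp [flip, sgn_not]
      ring
    · intro t _ htr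
      simp [flip, Function.update_of_ne htr]
  have h2 : ∀ ε : ι → Bool, 2 * |y r| ≤
      |∑ t ∈ R, sgn (ε t) * y t| + |∑ t ∈ R, sgn (flip r ε t) * y t| := by
    intro ε
    have h3 : |2 * (sgn (ε r) * y r)| = 2 * |y r| := by
      rw [abs_mul, abs_mul]
      cases ε r <;> simp [sgn]
    rw [← h3, ← h1 ε]
    exact abs_sub _ _
  have h4 := Finset.sum_le_sum (fun ε (_ : ε ∈ (Finset.univ : Finset (ι → Bool))) => h2 ε)
  rw [Finset.sum_add_distrib, sum_flip r (fun ε => |∑ t ∈ R, sgn (ε t) * y t|)] at h4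
  simp only [Finset.sum_const, Finset.card_univ, nsmul_eq_mul] at h4
  linarith

lemma sum_sgn_mul (t u : ι) (htu : t ≠ u) : ∑ ε : ι → Bool, sgn (ε t) * sgn (ε u) = 0 := by
  have h1 := sum_flip t (fun ε => sgn (ε t) * sgn (ε u))
  have h2 : ∀ ε : ι → Bool, sgn (flip t ε t) * sgn (flip t ε u) = - (sgn (ε t) * sgn (ε u)) := by
    intro ε
    simp [flip, Function.update_of_ne htu.symm, sgn_not]
  simp only [h2, Finset.sum_neg_distrib] at h1
  linarith

variable {E : Type*} [NormedAddCommGroup E] [InnerProductSpace ℝ E]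

lemma rademacher_norm_sq (R : Finset ι) (z : ι → E) :
    ∑ ε : ι → Bool, ‖∑ t ∈ R, sgn (ε t) • z t‖ ^ 2 =
      (Fintype.card (ι → Bool) : ℝ) * ∑ t ∈ R, ‖z t‖ ^ 2 := by
  have h3 : ∀ ε : ι → Bool, ‖∑ t ∈ R, sgn (ε t) • z t‖ ^ 2 =
      ∑ t ∈ R, ∑ u ∈ R, (sgn (ε t) * sgn (ε u)) * ⟪z t, z u⟫ := by
    intro ε
    rw [← real_inner_self_eq_norm_sq, sum_inner]
    refine Finset.sum_congr rfl (fun i _ => ?_)
    rw [inner_sum]
    refine Finset.sum_congr rfl (fun l _ => ?_)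
    rw [real_inner_smul_left, real_inner_smul_right]
    ring
  simp only [h3]
  have h4 : ∑ ε : ι → Bool, ∑ t ∈ R, ∑ u ∈ R, (sgn (ε t) * sgn (ε u)) * ⟪z t, z u⟫ =
      ∑ t ∈ R, ∑ u ∈ R, (∑ ε : ι → Bool, sgn (ε t) * sgn (ε u)) * ⟪z t, z u⟫ := by
    simp only [Finset.sum_mul]
    rw [Finset.sum_comm]
    exact Finset.sum_congr rfl (fun a _ => Finset.sum_comm)
  rw [h4, Finset.mul_sum]
  refine Finset.sum_congr rfl (fun t ht => ?_)
  rw [Finset.sum_eq_single_of_mem t ht]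
  · simp [sgn_mul_self]
  · intro u _ hut
    rw [sum_sgn_mul t u hut.symm, zero_mul]

variable [FiniteDimensional ℝ E] [MeasurableSpace E] [BorelSpace E]

lemma moment_neg (A B : Set E) (h : ∀ x, x ∈ B ↔ -x ∈ A) :
    ∫ x in B, x ∂(stdGaussian E) = - ∫ x in A, x ∂(stdGaussian E) := by
  have hmap := stdGaussian_map (LinearIsometryEquiv.neg ℝ (E := E))
  have hB : B = (fun x : E => -x) ⁻¹' A := by
    ext x
    simp [h x]
  have hMP : MeasurePreserving (fun x : E => -x) (stdGaussian E) (stdGaussian E) :=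
    ⟨by fun_prop, hmap⟩
  have hemb : MeasurableEmbedding (fun x : E => -x) :=
    (MeasurableEquiv.neg E).measurableEmbedding
  have h1 := hMP.setIntegral_preimage_emb hemb (fun y : E => -y) A
  simp only [neg_neg] at h1
  rw [hB, h1, integral_neg]

/-- The Rademacher upper bound on the mean width of a symmetric family. -/
lemma integral_sup_le_of_reps [Nonempty ι] (z : ι → E) (R : Finset ι)
    (hR : ∀ i (x : E), z i = 0 ∨ ∃ r ∈ R, ⟪z i, x⟫ ≤ |⟪z r, x⟫|)
    (hD0 : 0 ≤ ∫ x, Finset.univ.sup' Finset.univ_nonempty (fun j => ⟪z j, x⟫) ∂(stdGaussian E)) :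
    (∫ x, Finset.univ.sup' Finset.univ_nonempty (fun j => ⟪z j, x⟫) ∂(stdGaussian E)) ^ 2 ≤
      (2 / π) * ∑ t ∈ R, ‖z t‖ ^ 2 := by
  set C : ℝ := (Fintype.card (ι → Bool) : ℝ) with hC
  have hC0 : 0 < C := by
    rw [hC]
    exact_mod_cast Fintype.card_pos
  have hI := integrable_sup_inner (E := E) z
  have hpoint : ∀ x : E, C * Finset.univ.sup' Finset.univ_nonempty (fun j => ⟪z j, x⟫) ≤
      ∑ ε : ι → Bool, |⟪∑ t ∈ R, sgn (ε t) • z t, x⟫| := by
    intro x
    obtain ⟨i, -, hi⟩ := Finset.exists_mem_eq_sup' Finset.univ_nonempty (fun j => ⟪z j, x⟫)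
    rw [hi]
    have hrhs : 0 ≤ ∑ ε : ι → Bool, |⟪∑ t ∈ R, sgn (ε t) • z t, x⟫| :=
      Finset.sum_nonneg (fun _ _ => abs_nonneg _)
    rcases hR i x with h0 | ⟨r, hr, hle⟩
    · simp [h0, hrhs]
    · have h1 := rademacher_lower R (fun t => ⟪z t, x⟫) hr
      have h2 : ∀ ε : ι → Bool, ⟪∑ t ∈ R, sgn (ε t) • z t, x⟫ =
          ∑ t ∈ R, sgn (ε t) * ⟪z t, x⟫ := by
        intro ε
        rw [sum_inner]
        refine Finset.sum_congr rfl (fun t _ => ?_)
        rw [real_inner_smul_left]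
      simp only [h2]
      exact (mul_le_mul_of_nonneg_left hle hC0.le).trans h1
  have hR2 : Integrable (fun x : E => ∑ ε : ι → Bool, |⟪∑ t ∈ R, sgn (ε t) • z t, x⟫|)
      (stdGaussian E) :=
    integrable_finsetSum _ (fun ε _ => (integrable_inner_stdGaussian _).abs)
  have h1 := integral_mono (hI.const_mul C) hR2 hpoint
  rw [integral_const_mul,
    integral_finsetSum _ (fun ε _ => (integrable_inner_stdGaussian _).abs)] at h1
  simp only [integral_abs_inner_stdGaussian] at h1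
  rw [← Finset.mul_sum] at h1
  set W : ℝ := ∑ ε : ι → Bool, ‖∑ t ∈ R, sgn (ε t) • z t‖ with hW
  set D : ℝ := ∫ x, Finset.univ.sup' Finset.univ_nonempty (fun j => ⟪z j, x⟫) ∂(stdGaussian E)
    with hD
  have hCS : W ^ 2 ≤ C * ∑ ε : ι → Bool, ‖∑ t ∈ R, sgn (ε t) • z t‖ ^ 2 := by
    have := sq_sum_le_card_mul_sum_sq (s := (Finset.univ : Finset (ι → Bool)))
      (f := fun ε => ‖∑ t ∈ R, sgn (ε t) • z t‖)
    simpa [Finset.card_univ, hC] using this
  rw [rademacher_norm_sq] at hCS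
  have hsq : (C * D) ^ 2 ≤ (2 / π) * W ^ 2 := by
    have h2 : (C * D) ^ 2 ≤ (√(2 / π) * W) ^ 2 :=
      pow_le_pow_left₀ (mul_nonneg hC0.le hD0) h1 2
    have h3 : (√(2 / π) * W) ^ 2 = (2 / π) * W ^ 2 := by
      rw [mul_pow, Real.sq_sqrt (by positivity)]
    rwa [h3] at h2
  have hmain : C ^ 2 * D ^ 2 ≤ C ^ 2 * ((2 / π) * ∑ t ∈ R, ‖z t‖ ^ 2) := by
    calc C ^ 2 * D ^ 2 = (C * D) ^ 2 := by ring
      _ ≤ (2 / π) * W ^ 2 := hsq
      _ ≤ (2 / π) * (C * (C * ∑ t ∈ R, ‖z t‖ ^ 2)) :=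
          mul_le_mul_of_nonneg_left hCS (by positivity)
      _ = _ := by ring
  exact le_of_mul_le_mul_left hmain (by positivity)

/-- Every partition invariant under the central symmetry has total squared moment at most `1/π`. -/
theorem antipodal_bound {k : ℕ} (A : Fin k → Set E)
    (hm : ∀ i, MeasurableSet (A i)) (hd : Pairwise (Function.onFun Disjoint A))
    (hc : ⋃ i, A i = Set.univ) (hsym : ∀ i, ∃ j, ∀ x, x ∈ A j ↔ -x ∈ A i) :
    ∑ i, ‖∫ x in A i, x ∂(stdGaussian E)‖ ^ 2 ≤ 1 / π := by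
  classical
  have hpi : 0 < π := Real.pi_pos
  rcases Nat.eq_zero_or_pos k with hk | hk
  · subst hk
    simp
    positivity
  have : Nonempty (Fin k) := ⟨⟨0, hk⟩⟩
  choose σ hσ using hsym
  set z : Fin k → E := fun i => ∫ x in A i, x ∂(stdGaussian E) with hz
  have hzσ : ∀ i, z (σ i) = - z i := fun i => moment_neg (A i) (A (σ i)) (hσ i)
  have hinv : ∀ i, z i ≠ 0 → σ (σ i) = i := by
    intro i hi
    by_contra hne
    have h1 : A i = A (σ (σ i)) := by
      ext x
      rw [hσ (σ i) x, hσ i (-x), neg_neg]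
    have h2 : Disjoint (A (σ (σ i))) (A i) := hd hne
    rw [← h1, disjoint_self] at h2
    apply hi
    simp only [hz, h2]
    simp
  have hne : ∀ i, z i ≠ 0 → σ i ≠ i := by
    intro i hi h
    have h1 := hzσ i
    rw [h] at h1
    apply hi
    have : (2:ℝ) • z i = 0 := by
      rw [two_smul]
      nth_rewrite 1 [h1]
      simp
    simpa using this
  set R : Finset (Fin k) := Finset.univ.filter (fun r => z r ≠ 0 ∧ r < σ r) with hRdef
  set R' : Finset (Fin k) := Finset.univ.filter (fun r => z r ≠ 0 ∧ σ r < r) with hR'def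
  have hreps : ∀ i (x : E), z i = 0 ∨ ∃ r ∈ R, ⟪z i, x⟫ ≤ |⟪z r, x⟫| := by
    intro i x
    by_cases hi : z i = 0
    · exact Or.inl hi
    · right
      rcases lt_or_gt_of_ne (hne i hi) with h | h
      · refine ⟨σ i, ?_, ?_⟩
        · simp only [hRdef, Finset.mem_filter, Finset.mem_univ, true_and]
          refine ⟨?_, ?_⟩
          · rw [hzσ i]; exact neg_ne_zero.2 hi
          · rw [hinv i hi]; exact h
        · rw [hzσ i, inner_neg_left, abs_neg]
          exact le_abs_self _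
      · refine ⟨i, ?_, le_abs_self _⟩
        simp only [hRdef, Finset.mem_filter, Finset.mem_univ, true_and]
        exact ⟨hi, h⟩
  have hsumR' : ∑ i ∈ R', ‖z i‖ ^ 2 = ∑ i ∈ R, ‖z i‖ ^ 2 := by
    refine Finset.sum_nbij' σ σ ?_ ?_ ?_ ?_ ?_
    · intro a ha
      simp only [hR'def, Finset.mem_filter, Finset.mem_univ, true_and] at ha
      simp only [hRdef, Finset.mem_filter, Finset.mem_univ, true_and]
      refine ⟨?_, ?_⟩
      · rw [hzσ a]; exact neg_ne_zero.2 ha.1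
      · rw [hinv a ha.1]; exact ha.2
    · intro a ha
      simp only [hRdef, Finset.mem_filter, Finset.mem_univ, true_and] at ha
      simp only [hR'def, Finset.mem_filter, Finset.mem_univ, true_and]
      refine ⟨?_, ?_⟩
      · rw [hzσ a]; exact neg_ne_zero.2 ha.1
      · rw [hinv a ha.1]; exact ha.2
    · intro a ha
      simp only [hR'def, Finset.mem_filter, Finset.mem_univ, true_and] at ha
      exact hinv a ha.1
    · intro a ha
      simp only [hRdef, Finset.mem_filter, Finset.mem_univ, true_and] at ha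
      exact hinv a ha.1
    · intro a _
      rw [hzσ a, norm_neg]
  have hsum : ∑ i, ‖z i‖ ^ 2 = 2 * ∑ i ∈ R, ‖z i‖ ^ 2 := by
    have h1 : ∀ i, ‖z i‖ ^ 2 = (if i ∈ R then ‖z i‖ ^ 2 else 0) + (if i ∈ R' then ‖z i‖ ^ 2 else 0) := by
      intro i
      by_cases hi : z i = 0
      · simp [hi]
      · rcases lt_or_gt_of_ne (hne i hi) with h | h
        · have h2 : i ∉ R := by
            simp only [hRdef, Finset.mem_filter, Finset.mem_univ, true_and]
            exact fun h3 => absurd h3.2 (not_lt.2 h.le)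
          have h3 : i ∈ R' := by
            simp only [hR'def, Finset.mem_filter, Finset.mem_univ, true_and]
            exact ⟨hi, h⟩
          simp [h2, h3]
        · have h2 : i ∉ R' := by
            simp only [hR'def, Finset.mem_filter, Finset.mem_univ, true_and]
            exact fun h3 => absurd h3.2 (not_lt.2 h.le)
          have h3 : i ∈ R := by
            simp only [hRdef, Finset.mem_filter, Finset.mem_univ, true_and]
            exact ⟨hi, h⟩
          simp [h2, h3]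
    calc ∑ i, ‖z i‖ ^ 2 = ∑ i, ((if i ∈ R then ‖z i‖ ^ 2 else 0) +
          (if i ∈ R' then ‖z i‖ ^ 2 else 0)) := Finset.sum_congr rfl (fun i _ => h1 i)
      _ = ∑ i ∈ R, ‖z i‖ ^ 2 + ∑ i ∈ R', ‖z i‖ ^ 2 := by
          rw [Finset.sum_add_distrib, Finset.sum_ite_mem Finset.univ R,
            Finset.sum_ite_mem Finset.univ R', Finset.univ_inter, Finset.univ_inter]
      _ = _ := by rw [hsumR']; ring
  have hD := sum_sq_le_integral_sup A hm hd hc z (fun _ => rfl)
  set S : ℝ := ∑ i, ‖z i‖ ^ 2 with hS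
  have hS0 : 0 ≤ S := Finset.sum_nonneg (fun _ _ => by positivity)
  have hmain := integral_sup_le_of_reps z R hreps (hS0.trans hD)
  set D : ℝ := ∫ x, Finset.univ.sup' Finset.univ_nonempty (fun j => ⟪z j, x⟫) ∂(stdGaussian E)
    with hDdef
  have h2 : S ^ 2 ≤ (2 / π) * ∑ t ∈ R, ‖z t‖ ^ 2 :=
    (pow_le_pow_left₀ hS0 hD 2).trans hmain
  have h3 : ∑ t ∈ R, ‖z t‖ ^ 2 = S / 2 := by rw [hsum]; ring
  rw [h3] at h2
  rcases hS0.eq_or_lt with h0 | hpos
  · rw [← h0]; positivity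
  · have h4 : S * S ≤ S * (1 / π) := by
      calc S * S = S ^ 2 := by ring
        _ ≤ 2 / π * (S / 2) := h2
        _ = _ := by ring
    exact le_of_mul_le_mul_left h4 hpos

end Antipodal
end Vale.Agent.P226
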