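import Mathlib

/-!
Certificates for lower bounds on the additive integrality gap of bin packing.

A scaled dual vector `y` together with a potential `H` on a finite abelian group
(a product of five cyclic groups) gives a lower bound on the number of bins of every
packing.  The potential is certified to be the distance function of a Cayley graph.
-/

namespace Vale.Agent.P302

open Finset

/-- Checker data of one item type: size, scaled dual value, and class in the group. -/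
structure Item where
  s : ℕ
  y : ℕ
  g1 : ℕ
  g2 : ℕ
  g3 : ℕ
  g4 : ℕ
  g5 : ℕ

/-- The orders of the five cyclic factors. -/
structure Mods where
  d1 : ℕ
  d2 : ℕ
  d3 : ℕ
  d4 : ℕ
  d5 : ℕ

/-- A Cayley generator: its weight, its class and the class of its inverse. -/
structure Gen where
  w : ℕ
  g1 : ℕ
  g2 : ℕ
  g3 : ℕ
  g4 : ℕ
  g5 : ℕ
  n1 : ℕ
  n2 : ℕ
  n3 : ℕ
  n4 : ℕ
  n5 : ℕ

/-- Tables are stored in complete binary trees of pairs, with 1024 fields of 16 bits in each leaf. -/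
abbrev Tb0 : Type := ℕ
abbrev Tb1 : Type := Tb0 × Tb0
abbrev Tb2 : Type := Tb1 × Tb1
abbrev Tb3 : Type := Tb2 × Tb2
abbrev Tb4 : Type := Tb3 × Tb3
abbrev Tb5 : Type := Tb4 × Tb4
abbrev Tb6 : Type := Tb5 × Tb5
abbrev Tb7 : Type := Tb6 × Tb6
abbrev Tb8 : Type := Tb7 × Tb7
abbrev Tb9 : Type := Tb8 × Tb8
abbrev Tb10 : Type := Tb9 × Tb9
abbrev Tb11 : Type := Tb10 × Tb10
abbrev Tb12 : Type := Tb11 × Tb11
abbrev Tb13 : Type := Tb12 × Tb12
abbrev Tb14 : Type := Tb13 × Tb13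
abbrev Tb15 : Type := Tb14 × Tb14
abbrev Tb16 : Type := Tb15 × Tb15

/-- Field `k` of a leaf. -/
def lk0 (t : Tb0) (k : ℕ) : ℕ := (t >>> (16 * (k % 1024))) % 65536
def lk1 (t : Tb1) (k : ℕ) : ℕ := cond (Nat.beq ((k >>> 10) % 2) 0) (lk0 t.1 k) (lk0 t.2 k)
def lk2 (t : Tb2) (k : ℕ) : ℕ := cond (Nat.beq ((k >>> 11) % 2) 0) (lk1 t.1 k) (lk1 t.2 k)
def lk3 (t : Tb3) (k : ℕ) : ℕ := cond (Nat.beq ((k >>> 12) % 2) 0) (lk2 t.1 k) (lk2 t.2 k)
def lk4 (t : Tb4) (k : ℕ) : ℕ := cond (Nat.beq ((k >>> 13) % 2) 0) (lk3 t.1 k) (lk3 t.2 k)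
def lk5 (t : Tb5) (k : ℕ) : ℕ := cond (Nat.beq ((k >>> 14) % 2) 0) (lk4 t.1 k) (lk4 t.2 k)
def lk6 (t : Tb6) (k : ℕ) : ℕ := cond (Nat.beq ((k >>> 15) % 2) 0) (lk5 t.1 k) (lk5 t.2 k)
def lk7 (t : Tb7) (k : ℕ) : ℕ := cond (Nat.beq ((k >>> 16) % 2) 0) (lk6 t.1 k) (lk6 t.2 k)
def lk8 (t : Tb8) (k : ℕ) : ℕ := cond (Nat.beq ((k >>> 17) % 2) 0) (lk7 t.1 k) (lk7 t.2 k)
def lk9 (t : Tb9) (k : ℕ) : ℕ := cond (Nat.beq ((k >>> 18) % 2) 0) (lk8 t.1 k) (lk8 t.2 k)
def lk10 (t : Tb10) (k : ℕ) : ℕ := cond (Nat.beq ((k >>> 19) % 2) 0) (lk9 t.1 k) (lk9 t.2 k)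
def lk11 (t : Tb11) (k : ℕ) : ℕ := cond (Nat.beq ((k >>> 20) % 2) 0) (lk10 t.1 k) (lk10 t.2 k)
def lk12 (t : Tb12) (k : ℕ) : ℕ := cond (Nat.beq ((k >>> 21) % 2) 0) (lk11 t.1 k) (lk11 t.2 k)
def lk13 (t : Tb13) (k : ℕ) : ℕ := cond (Nat.beq ((k >>> 22) % 2) 0) (lk12 t.1 k) (lk12 t.2 k)
def lk14 (t : Tb14) (k : ℕ) : ℕ := cond (Nat.beq ((k >>> 23) % 2) 0) (lk13 t.1 k) (lk13 t.2 k)
def lk15 (t : Tb15) (k : ℕ) : ℕ := cond (Nat.beq ((k >>> 24) % 2) 0) (lk14 t.1 k) (lk14 t.2 k)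
def lk16 (t : Tb16) (k : ℕ) : ℕ := cond (Nat.beq ((k >>> 25) % 2) 0) (lk15 t.1 k) (lk15 t.2 k)

/-- Index of a group element. -/
def key (d : Mods) (a1 a2 a3 a4 a5 : ℕ) : ℕ :=
  a1 % d.d1 + d.d1 * (a2 % d.d2 + d.d2 * (a3 % d.d3 + d.d3 * (a4 % d.d4 + d.d4 * (a5 % d.d5))))

/-- The potential read from the table. -/
def Hv (d : Mods) (T : ℕ → ℕ) (a1 a2 a3 a4 a5 : ℕ) : ℕ := T (key d a1 a2 a3 a4 a5)

/-- A condition on all reduced group elements. -/
def allG (d : Mods) (f : ℕ → ℕ → ℕ → ℕ → ℕ → Bool) : Bool :=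
  (List.range d.d1).all fun a1 => (List.range d.d2).all fun a2 => (List.range d.d3).all fun a3 =>
    (List.range d.d4).all fun a4 => (List.range d.d5).all fun a5 => f a1 a2 a3 a4 a5

theorem allG_spec {d : Mods} {f : ℕ → ℕ → ℕ → ℕ → ℕ → Bool} (h : allG d f = true)
    (h1 : 0 < d.d1) (h2 : 0 < d.d2) (h3 : 0 < d.d3) (h4 : 0 < d.d4) (h5 : 0 < d.d5)
    (a1 a2 a3 a4 a5 : ℕ) :
    f (a1 % d.d1) (a2 % d.d2) (a3 % d.d3) (a4 % d.d4) (a5 % d.d5) = true := by
  unfold allG at h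
  simp only [List.all_eq_true, List.mem_range] at h
  exact h _ (Nat.mod_lt _ h1) _ (Nat.mod_lt _ h2) _ (Nat.mod_lt _ h3) _ (Nat.mod_lt _ h4) _
    (Nat.mod_lt _ h5)

/-- The same condition for the outer coordinate in a block of length `S`. -/
def blockCheck (d : Mods) (S c : ℕ) (f : ℕ → ℕ → ℕ → ℕ → ℕ → Bool) : Bool :=
  (List.range S).all fun i => decide (d.d1 ≤ c * S + i) ||
    ((List.range d.d2).all fun a2 => (List.range d.d3).all fun a3 =>
      (List.range d.d4).all fun a4 => (List.range d.d5).all fun a5 => f (c * S + i) a2 a3 a4 a5)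

/-- The blocks together give the condition on all elements. -/
theorem allG_of_blocks {d : Mods} {f : ℕ → ℕ → ℕ → ℕ → ℕ → Bool} {S n : ℕ} (hS : 0 < S)
    (hn : d.d1 ≤ n * S) (h : ∀ c, c < n → blockCheck d S c f = true) : allG d f = true := by
  unfold allG
  simp only [List.all_eq_true, List.mem_range]
  intro a1 ha1 a2 ha2 a3 ha3 a4 ha4 a5 ha5
  have hc : a1 / S < n := by
    apply Nat.div_lt_of_lt_mul
    calc a1 < d.d1 := ha1
      _ ≤ n * S := hn
      _ = S * n := Nat.mul_comm _ _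
  have hb := h _ hc
  unfold blockCheck at hb
  simp only [List.all_eq_true, List.mem_range, Bool.or_eq_true, decide_eq_true_eq] at hb
  have hi := hb (a1 % S) (Nat.mod_lt _ hS)
  have e : a1 / S * S + a1 % S = a1 := Nat.div_add_mod' a1 S
  rw [e] at hi
  rcases hi with hi | hi
  · omega
  · exact hi a2 ha2 a3 ha3 a4 ha4 a5 ha5

/-- The generator condition at one element. -/
def genF (d : Mods) (T : ℕ → ℕ) (gs : List Gen) (a1 a2 a3 a4 a5 : ℕ) : Bool :=
  gs.all fun g =>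
    decide (Hv d T (a1 + g.g1) (a2 + g.g2) (a3 + g.g3) (a4 + g.g4) (a5 + g.g5) ≤
      Hv d T a1 a2 a3 a4 a5 + g.w)

/-- Generators shift the potential by at most their weight. -/
def genCheck (d : Mods) (T : ℕ → ℕ) (gs : List Gen) : Bool :=
  allG d (genF d T gs)

/-- The weights are positive and the inverses are inverses. -/
def invCheck (d : Mods) (gs : List Gen) : Bool :=
  gs.all fun g => decide (0 < g.w) && decide ((g.g1 + g.n1) % d.d1 = 0) &&
    decide ((g.g2 + g.n2) % d.d2 = 0) && decide ((g.g3 + g.n3) % d.d3 = 0) &&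
    decide ((g.g4 + g.n4) % d.d4 = 0) && decide ((g.g5 + g.n5) % d.d5 = 0)

/-- The predecessor condition at one element. -/
def predF (d : Mods) (T : ℕ → ℕ) (gs : List Gen) (a1 a2 a3 a4 a5 : ℕ) : Bool :=
  (decide (a1 = 0) && decide (a2 = 0) && decide (a3 = 0) && decide (a4 = 0) && decide (a5 = 0)) ||
    gs.any fun g =>
      decide (Hv d T (a1 + g.n1) (a2 + g.n2) (a3 + g.n3) (a4 + g.n4) (a5 + g.n5) + g.w ≤
        Hv d T a1 a2 a3 a4 a5)

/-- Every nonzero element is reached from a nearer element by a generator. -/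
def predCheck (d : Mods) (T : ℕ → ℕ) (gs : List Gen) : Bool :=
  allG d (predF d T gs)

/-- Check of all patterns: the potential of the class of a pattern is at most its waste. -/
def patCheck (d : Mods) (T : ℕ → ℕ) (D : ℕ) : List Item → ℕ → ℕ → ℕ → ℕ → ℕ → ℕ → ℕ → Bool
  | [], _, a1, a2, a3, a4, a5, yv => decide (Hv d T a1 a2 a3 a4 a5 + yv ≤ D)
  | it :: rest, cap, a1, a2, a3, a4, a5, yv =>
      (List.range (cap / it.s + 1)).all fun t =>
        patCheck d T D rest (cap - t * it.s) (a1 + t * it.g1) (a2 + t * it.g2)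
          (a3 + t * it.g3) (a4 + t * it.g4) (a5 + t * it.g5) (yv + t * it.y)

theorem key_congr (d : Mods) {a1 a2 a3 a4 a5 b1 b2 b3 b4 b5 : ℕ}
    (h1 : a1 % d.d1 = b1 % d.d1) (h2 : a2 % d.d2 = b2 % d.d2) (h3 : a3 % d.d3 = b3 % d.d3)
    (h4 : a4 % d.d4 = b4 % d.d4) (h5 : a5 % d.d5 = b5 % d.d5) :
    key d a1 a2 a3 a4 a5 = key d b1 b2 b3 b4 b5 := by
  unfold key
  rw [h1, h2, h3, h4, h5]

theorem Hv_congr (d : Mods) (T : ℕ → ℕ) {a1 a2 a3 a4 a5 b1 b2 b3 b4 b5 : ℕ}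
    (h1 : a1 % d.d1 = b1 % d.d1) (h2 : a2 % d.d2 = b2 % d.d2) (h3 : a3 % d.d3 = b3 % d.d3)
    (h4 : a4 % d.d4 = b4 % d.d4) (h5 : a5 % d.d5 = b5 % d.d5) :
    Hv d T a1 a2 a3 a4 a5 = Hv d T b1 b2 b3 b4 b5 := by
  unfold Hv
  rw [key_congr d h1 h2 h3 h4 h5]

/-- Modular bookkeeping for one coordinate. -/
theorem mod_step (m a c n g : ℕ) (h : (g + n) % m = 0) :
    ((a + (c % m + n)) % m + g) % m = (a + c) % m := by
  have h1 : ((a + (c % m + n)) % m + g) % m = (a + (c % m + n) + g) % m := by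
    simp [Nat.add_mod]
  have h2 : a + (c % m + n) + g = (a + c % m) + (g + n) := by ring
  rw [h1, h2, Nat.add_mod, h, Nat.add_zero, Nat.mod_mod]
  simp [Nat.add_mod]

/-- The potential is subadditive. -/
theorem Hv_subadd {d : Mods} {T : ℕ → ℕ} {gs : List Gen}
    (h1 : 0 < d.d1) (h2 : 0 < d.d2) (h3 : 0 < d.d3) (h4 : 0 < d.d4) (h5 : 0 < d.d5)
    (hg : genCheck d T gs = true) (hi : invCheck d gs = true) (hp : predCheck d T gs = true) :
    ∀ (N c1 c2 c3 c4 c5 a1 a2 a3 a4 a5 : ℕ), Hv d T c1 c2 c3 c4 c5 ≤ N →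
      Hv d T (a1 + c1) (a2 + c2) (a3 + c3) (a4 + c4) (a5 + c5) ≤
        Hv d T a1 a2 a3 a4 a5 + Hv d T c1 c2 c3 c4 c5 := by
  intro N
  induction N with
  | zero =>
    intro c1 c2 c3 c4 c5 a1 a2 a3 a4 a5 hN
    -- a class of potential zero is the zero class
    have hP := allG_spec hp h1 h2 h3 h4 h5 c1 c2 c3 c4 c5
    simp only [predF, Bool.or_eq_true, Bool.and_eq_true, decide_eq_true_eq, List.any_eq_true] at hP
    have hred : Hv d T (c1 % d.d1) (c2 % d.d2) (c3 % d.d3) (c4 % d.d4) (c5 % d.d5) =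
        Hv d T c1 c2 c3 c4 c5 := Hv_congr d T (by simp) (by simp) (by simp) (by simp) (by simp)
    rcases hP with ⟨⟨⟨⟨e1, e2⟩, e3⟩, e4⟩, e5⟩ | ⟨g, hgm, hle⟩
    · have : Hv d T (a1 + c1) (a2 + c2) (a3 + c3) (a4 + c4) (a5 + c5) = Hv d T a1 a2 a3 a4 a5 := by
        apply Hv_congr <;> simp [Nat.add_mod, e1, e2, e3, e4, e5]
      omega
    · exfalso
      have hinv := hi
      simp only [invCheck, List.all_eq_true, Bool.and_eq_true, decide_eq_true_eq] at hinv
      have := (hinv g hgm).1.1.1.1.1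
      omega
  | succ N ih =>
    intro c1 c2 c3 c4 c5 a1 a2 a3 a4 a5 hN
    have hP := allG_spec hp h1 h2 h3 h4 h5 c1 c2 c3 c4 c5
    simp only [predF, Bool.or_eq_true, Bool.and_eq_true, decide_eq_true_eq, List.any_eq_true] at hP
    have hred : Hv d T (c1 % d.d1) (c2 % d.d2) (c3 % d.d3) (c4 % d.d4) (c5 % d.d5) =
        Hv d T c1 c2 c3 c4 c5 := Hv_congr d T (by simp) (by simp) (by simp) (by simp) (by simp)
    rcases hP with ⟨⟨⟨⟨e1, e2⟩, e3⟩, e4⟩, e5⟩ | ⟨g, hgm, hle⟩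
    · have : Hv d T (a1 + c1) (a2 + c2) (a3 + c3) (a4 + c4) (a5 + c5) = Hv d T a1 a2 a3 a4 a5 := by
        apply Hv_congr <;> simp [Nat.add_mod, e1, e2, e3, e4, e5]
      omega
    · have hinv := hi
      simp only [invCheck, List.all_eq_true, Bool.and_eq_true, decide_eq_true_eq] at hinv
      obtain ⟨⟨⟨⟨⟨hw, i1⟩, i2⟩, i3⟩, i4⟩, i5⟩ := hinv g hgm
      rw [hred] at hle
      have hih := ih (c1 % d.d1 + g.n1) (c2 % d.d2 + g.n2) (c3 % d.d3 + g.n3) (c4 % d.d4 + g.n4)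
        (c5 % d.d5 + g.n5) a1 a2 a3 a4 a5 (by omega)
      have hstep := allG_spec hg h1 h2 h3 h4 h5 (a1 + (c1 % d.d1 + g.n1)) (a2 + (c2 % d.d2 + g.n2))
        (a3 + (c3 % d.d3 + g.n3)) (a4 + (c4 % d.d4 + g.n4)) (a5 + (c5 % d.d5 + g.n5))
      simp only [genF, List.all_eq_true, decide_eq_true_eq] at hstep
      have hs := hstep g hgm
      have e : Hv d T ((a1 + (c1 % d.d1 + g.n1)) % d.d1 + g.g1)
          ((a2 + (c2 % d.d2 + g.n2)) % d.d2 + g.g2) ((a3 + (c3 % d.d3 + g.n3)) % d.d3 + g.g3)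
          ((a4 + (c4 % d.d4 + g.n4)) % d.d4 + g.g4) ((a5 + (c5 % d.d5 + g.n5)) % d.d5 + g.g5) =
          Hv d T (a1 + c1) (a2 + c2) (a3 + c3) (a4 + c4) (a5 + c5) :=
        Hv_congr d T (mod_step _ _ _ _ _ i1) (mod_step _ _ _ _ _ i2) (mod_step _ _ _ _ _ i3)
          (mod_step _ _ _ _ _ i4) (mod_step _ _ _ _ _ i5)
      have e' : Hv d T ((a1 + (c1 % d.d1 + g.n1)) % d.d1) ((a2 + (c2 % d.d2 + g.n2)) % d.d2)
          ((a3 + (c3 % d.d3 + g.n3)) % d.d3) ((a4 + (c4 % d.d4 + g.n4)) % d.d4)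
          ((a5 + (c5 % d.d5 + g.n5)) % d.d5) =
          Hv d T (a1 + (c1 % d.d1 + g.n1)) (a2 + (c2 % d.d2 + g.n2)) (a3 + (c3 % d.d3 + g.n3))
            (a4 + (c4 % d.d4 + g.n4)) (a5 + (c5 % d.d5 + g.n5)) :=
        Hv_congr d T (by simp) (by simp) (by simp) (by simp) (by simp)
      rw [e, e'] at hs
      omega

/-- Soundness of the pattern check. -/
theorem patCheck_sound {d : Mods} {T : ℕ → ℕ} {D : ℕ} :
    ∀ (its : List Item), (∀ it ∈ its, 0 < it.s) → ∀ (cap a1 a2 a3 a4 a5 yv : ℕ),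
      patCheck d T D its cap a1 a2 a3 a4 a5 yv = true →
      ∀ c : Fin its.length → ℕ, (∑ i, c i * (its.get i).s) ≤ cap →
        Hv d T (a1 + ∑ i, c i * (its.get i).g1) (a2 + ∑ i, c i * (its.get i).g2)
          (a3 + ∑ i, c i * (its.get i).g3) (a4 + ∑ i, c i * (its.get i).g4)
          (a5 + ∑ i, c i * (its.get i).g5) + (yv + ∑ i, c i * (its.get i).y) ≤ D := by
  intro its
  induction its with
  | nil =>
    intro _ cap a1 a2 a3 a4 a5 yv h c _
    simpa [patCheck] using h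
  | cons it rest ih =>
    intro hpos cap a1 a2 a3 a4 a5 yv h c hc
    have hs : 0 < it.s := hpos it (by simp)
    have hrest : ∀ it' ∈ rest, 0 < it'.s := fun it' hit' => hpos it' (by simp [hit'])
    simp only [patCheck, List.all_eq_true, List.mem_range] at h
    have hsum : ∀ (F : Item → ℕ), (∑ i, c i * F ((it :: rest).get i)) =
        c 0 * F it + ∑ i : Fin rest.length, c i.succ * F (rest.get i) := by
      intro F
      exact Fin.sum_univ_succ (fun i => c i * F ((it :: rest).get i))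
    rw [hsum (fun z => z.s)] at hc
    have ht : c 0 < cap / it.s + 1 := by
      have : c 0 * it.s ≤ cap := by omega
      have := (Nat.le_div_iff_mul_le hs).2 this
      omega
    have h1 := h (c 0) ht
    have h2 := ih hrest _ _ _ _ _ _ _ h1 (fun i => c i.succ) (by
      have : c 0 * it.s ≤ cap := by omega
      omega)
    rw [hsum (fun z => z.g1), hsum (fun z => z.g2), hsum (fun z => z.g3), hsum (fun z => z.g4),
      hsum (fun z => z.g5), hsum (fun z => z.y)]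
    have e1 : a1 + (c 0 * it.g1 + ∑ i : Fin rest.length, c i.succ * (rest.get i).g1) =
        a1 + c 0 * it.g1 + ∑ i : Fin rest.length, c i.succ * (rest.get i).g1 := by omega
    have e2 : a2 + (c 0 * it.g2 + ∑ i : Fin rest.length, c i.succ * (rest.get i).g2) =
        a2 + c 0 * it.g2 + ∑ i : Fin rest.length, c i.succ * (rest.get i).g2 := by omega
    have e3 : a3 + (c 0 * it.g3 + ∑ i : Fin rest.length, c i.succ * (rest.get i).g3) =
        a3 + c 0 * it.g3 + ∑ i : Fin rest.length, c i.succ * (rest.get i).g3 := by omega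
    have e4 : a4 + (c 0 * it.g4 + ∑ i : Fin rest.length, c i.succ * (rest.get i).g4) =
        a4 + c 0 * it.g4 + ∑ i : Fin rest.length, c i.succ * (rest.get i).g4 := by omega
    have e5 : a5 + (c 0 * it.g5 + ∑ i : Fin rest.length, c i.succ * (rest.get i).g5) =
        a5 + c 0 * it.g5 + ∑ i : Fin rest.length, c i.succ * (rest.get i).g5 := by omega
    have e6 : yv + (c 0 * it.y + ∑ i : Fin rest.length, c i.succ * (rest.get i).y) =
        yv + c 0 * it.y + ∑ i : Fin rest.length, c i.succ * (rest.get i).y := by omega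
    rw [e1, e2, e3, e4, e5, e6]
    exact h2

/-- Main inequality: every family of feasible count vectors has its potential bounded. -/
theorem bins_bound {d : Mods} {T : ℕ → ℕ} {D L : ℕ} {gs : List Gen} (its : List Item)
    (h1 : 0 < d.d1) (h2 : 0 < d.d2) (h3 : 0 < d.d3) (h4 : 0 < d.d4) (h5 : 0 < d.d5)
    (hpos : ∀ it ∈ its, 0 < it.s)
    (hg : genCheck d T gs = true) (hi : invCheck d gs = true) (hp : predCheck d T gs = true)
    (hpat : patCheck d T D its L 0 0 0 0 0 0 = true)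
    (h0 : Hv d T 0 0 0 0 0 = 0)
    {ι : Type*} (J : Finset ι) (c : ι → Fin its.length → ℕ)
    (hc : ∀ j ∈ J, (∑ i, c j i * (its.get i).s) ≤ L) :
    (∑ i, (∑ j ∈ J, c j i) * (its.get i).y) +
      Hv d T (∑ i, (∑ j ∈ J, c j i) * (its.get i).g1) (∑ i, (∑ j ∈ J, c j i) * (its.get i).g2)
        (∑ i, (∑ j ∈ J, c j i) * (its.get i).g3) (∑ i, (∑ j ∈ J, c j i) * (its.get i).g4)
        (∑ i, (∑ j ∈ J, c j i) * (its.get i).g5) ≤ J.card * D := by
  classical
  induction J using Finset.induction_on with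
  | empty => simpa using h0
  | insert j J hj ih =>
    have hcj := hc j (Finset.mem_insert_self _ _)
    have ih' := ih (fun j' hj' => hc j' (Finset.mem_insert_of_mem hj'))
    have hsound := patCheck_sound its hpos L 0 0 0 0 0 0 hpat (c j) hcj
    simp only [zero_add] at hsound
    have hsum : ∀ F : Fin its.length → ℕ, (∑ i, (∑ j' ∈ insert j J, c j' i) * F i) =
        (∑ i, (∑ j' ∈ J, c j' i) * F i) + ∑ i, c j i * F i := by
      intro F
      rw [← Finset.sum_add_distrib]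
      refine Finset.sum_congr rfl fun i _ => ?_
      rw [Finset.sum_insert hj]
      ring
    rw [hsum (fun i => (its.get i).y), hsum (fun i => (its.get i).g1),
      hsum (fun i => (its.get i).g2), hsum (fun i => (its.get i).g3),
      hsum (fun i => (its.get i).g4), hsum (fun i => (its.get i).g5)]
    rw [Finset.card_insert_of_notMem hj]
    have hcard : (J.card + 1) * D = J.card * D + D := by ring
    rw [hcard]
    have hstep := Hv_subadd h1 h2 h3 h4 h5 hg hi hp _ (∑ i, c j i * (its.get i).g1)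
      (∑ i, c j i * (its.get i).g2) (∑ i, c j i * (its.get i).g3) (∑ i, c j i * (its.get i).g4)
      (∑ i, c j i * (its.get i).g5) (∑ i, (∑ j' ∈ J, c j' i) * (its.get i).g1)
      (∑ i, (∑ j' ∈ J, c j' i) * (its.get i).g2) (∑ i, (∑ j' ∈ J, c j' i) * (its.get i).g3)
      (∑ i, (∑ j' ∈ J, c j' i) * (its.get i).g4) (∑ i, (∑ j' ∈ J, c j' i) * (its.get i).g5)
      le_rfl
    omega

end Vale.Agent.P302
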