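import Mathlib
import Vale.Agent.Lib.P302Cert

namespace Vale.Agent.P302

open Finset

/-- Number of positions of a value in a list, in terms of `Fin` positions. -/
theorem card_filter_get {α : Type*} [DecidableEq α] (T : List α) (a : α) :
    (univ.filter fun x : Fin T.length => T.get x = a).card = T.count a := by
  induction T with
  | nil => simp
  | cons h t ih =>
    rw [Finset.card_filter]
    change (∑ i : Fin (t.length + 1), if (h :: t).get i = a then 1 else 0) = _
    rw [Fin.sum_univ_succ, List.count_cons]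
    have := ih
    rw [Finset.card_filter] at this
    simp only [List.get_eq_getElem, Fin.val_zero, List.getElem_cons_zero,
      Fin.val_succ, List.getElem_cons_succ] at this ⊢
    rw [this]
    by_cases hh : h = a
    · simp [hh]; omega
    · simp [hh]

/-- Count vectors of a packing of items with types and the bound coming from a potential. -/
theorem packing_bound {d : Mods} {TH : ℕ → ℕ} {D L k : ℕ} {gs : List Gen} (its : List Item)
    (hd1 : 0 < d.d1) (hd2 : 0 < d.d2) (hd3 : 0 < d.d3) (hd4 : 0 < d.d4) (hd5 : 0 < d.d5)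
    (hpos : ∀ it ∈ its, 0 < it.s) (hL : 0 < L)
    (hg' : genCheck d TH gs = true) (hi : invCheck d gs = true) (hp : predCheck d TH gs = true)
    (hpat : patCheck d TH D its L 0 0 0 0 0 0 = true)
    (h0 : Hv d TH 0 0 0 0 0 = 0)
    (g : Fin its.length → ℚ) (hg : ∀ i, g i = ((its.get i).s : ℚ) / L)
    (T : List (Fin its.length))
    (f : Fin (T.map g).length → Fin k)
    (hf : ∀ j, ∑ x ∈ univ.filter (fun x => f x = j), (T.map g).get x ≤ 1) :
    (∑ i, T.count i * (its.get i).y) +
      Hv d TH (∑ i, T.count i * (its.get i).g1) (∑ i, T.count i * (its.get i).g2)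
        (∑ i, T.count i * (its.get i).g3) (∑ i, T.count i * (its.get i).g4)
        (∑ i, T.count i * (its.get i).g5) ≤ k * D := by
  classical
  have hlen : (T.map g).length = T.length := by simp
  let typ : Fin (T.map g).length → Fin its.length := fun x => T.get (x.cast hlen)
  have hget : ∀ x, (T.map g).get x = g (typ x) := by
    intro x
    simp [typ]
  let c : Fin k → Fin its.length → ℕ := fun j i =>
    (univ.filter fun x => f x = j ∧ typ x = i).card
  have hfeas : ∀ j ∈ (univ : Finset (Fin k)), (∑ i, c j i * (its.get i).s) ≤ L := by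
    intro j _
    have h1 := hf j
    have h2 : ∑ x ∈ univ.filter (fun x => f x = j), (T.map g).get x =
        ∑ i, (c j i : ℚ) * g i := by
      rw [← Finset.sum_fiberwise (s := univ.filter (fun x => f x = j)) (g := typ)]
      refine Finset.sum_congr rfl fun i _ => ?_
      have : ∀ x ∈ (univ.filter (fun x => f x = j)).filter (fun x => typ x = i),
          (T.map g).get x = g i := by
        intro x hx
        rw [hget, (Finset.mem_filter.1 hx).2]
      rw [Finset.sum_congr rfl this, Finset.sum_const, Finset.filter_filter, nsmul_eq_mul]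
    rw [h2] at h1
    have hLq : (0 : ℚ) < L := by exact_mod_cast hL
    have h3 : (∑ i, (c j i : ℚ) * ((its.get i).s : ℚ)) ≤ L := by
      have : (∑ i, (c j i : ℚ) * g i) * L = ∑ i, (c j i : ℚ) * ((its.get i).s : ℚ) := by
        rw [Finset.sum_mul]
        refine Finset.sum_congr rfl fun i _ => ?_
        rw [hg]
        field_simp
      rw [← this]
      nlinarith
    exact_mod_cast h3
  have hcount : ∀ i, (∑ j, c j i) = T.count i := by
    intro i
    have h1 : (∑ j, c j i) = (univ.filter fun x => typ x = i).card := by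
      rw [Finset.card_eq_sum_card_fiberwise (f := f) (t := univ) (fun x _ => Finset.mem_univ _)]
      refine Finset.sum_congr rfl fun j _ => ?_
      simp only [c]
      congr 1
      ext x
      simp [and_comm]
    rw [h1, ← card_filter_get T i]
    refine Finset.card_bij (fun x _ => x.cast hlen) ?_ ?_ ?_
    · intro x hx
      simpa [typ] using hx
    · intro x _ y _ h
      exact Fin.cast_injective hlen h
    · intro y hy
      refine ⟨y.cast hlen.symm, ?_, by simp⟩
      simpa [typ] using hy
  have := bins_bound its hd1 hd2 hd3 hd4 hd5 hpos hg' hi hp hpat h0 (univ : Finset (Fin k)) c hfeas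
  simpa [hcount] using this

/-- Counting in the list of all types repeated according to their multiplicities. -/
theorem count_flatMap_replicate {m : ℕ} (b : Fin m → ℕ) (i : Fin m) :
    ((List.finRange m).flatMap fun j => List.replicate (b j) j).count i = b i := by
  rw [List.count_flatMap]
  have h : (List.map (List.count i ∘ fun j => List.replicate (b j) j) (List.finRange m)).sum =
      ∑ j, if j = i then b i else 0 := by
    rw [Fin.sum_univ_def]
    congr 1
    refine List.map_congr_left fun j _ => ?_
    simp only [Function.comp, List.count_replicate]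
    by_cases hj : j = i
    · simp [hj]
    · simp [hj]
  rw [h]
  simp

/-- The assembled gap theorem. -/
theorem gap_result {d : Mods} {TH : ℕ → ℕ} {D : ℕ} {gs : List Gen} (its : List Item) (L K Dz t : ℕ)
    (b : Fin its.length → ℕ) (p : Fin t → Fin its.length → ℕ) (n : Fin t → ℕ) (ρ : ℝ)
    (hL : 0 < L) (hDz : 0 < Dz)
    (hd1 : 0 < d.d1) (hd2 : 0 < d.d2) (hd3 : 0 < d.d3) (hd4 : 0 < d.d4) (hd5 : 0 < d.d5)
    (hs0 : ∀ it ∈ its, 0 < it.s) (hsL : ∀ it ∈ its, it.s ≤ L)
    (hinj : Function.Injective fun i : Fin its.length => (its.get i).s)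
    (hb : ∀ i, 0 < b i)
    (hg' : genCheck d TH gs = true) (hi : invCheck d gs = true) (hp : predCheck d TH gs = true)
    (hpat : patCheck d TH D its L 0 0 0 0 0 0 = true)
    (h0 : Hv d TH 0 0 0 0 0 = 0)
    (hK : (K - 1) * D < (∑ i, b i * (its.get i).y) +
      Hv d TH (∑ i, b i * (its.get i).g1) (∑ i, b i * (its.get i).g2)
        (∑ i, b i * (its.get i).g3) (∑ i, b i * (its.get i).g4) (∑ i, b i * (its.get i).g5))
    (hpf : ∀ j, (∑ i, p j i * (its.get i).s) ≤ L)
    (hcov : ∀ i, b i * Dz ≤ ∑ j, p j i * n j)
    (hval : ρ ≤ (K : ℝ) - ((∑ j, n j : ℕ) : ℝ) / Dz) :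
    ∃ I : List ℚ, (∀ a ∈ I, 0 < a ∧ a ≤ 1) ∧
      ρ ≤ ((sInf {k : ℕ | ∃ f : Fin I.length → Fin k,
            ∀ j, ∑ x ∈ univ.filter (fun x => f x = j), I.get x ≤ 1} : ℕ) : ℝ) -
          sInf {v : ℝ | ∃ (t : ℕ) (c : Fin t → ℚ → ℕ) (z : Fin t → ℝ),
            (∀ j, ∑ σ ∈ I.toFinset, σ * (c j σ : ℚ) ≤ 1) ∧ (∀ j, 0 ≤ z j) ∧
            (∀ σ ∈ I.toFinset, (I.count σ : ℝ) ≤ ∑ j, (c j σ : ℝ) * z j) ∧ v = ∑ j, z j} := by
  classical
  let g : Fin its.length → ℚ := fun i => ((its.get i).s : ℚ) / L
  have hg : ∀ i, g i = ((its.get i).s : ℚ) / L := fun i => rfl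
  have hLq : (0 : ℚ) < L := by exact_mod_cast hL
  have hginj : Function.Injective g := by
    intro i i' h
    have h2 : ((its.get i).s : ℚ) = (its.get i').s := by
      have := h
      simp only [g] at this
      field_simp at this
      exact this
    exact hinj (by exact_mod_cast h2)
  let T : List (Fin its.length) := (List.finRange its.length).flatMap fun j =>
    List.replicate (b j) j
  have hT : ∀ i, T.count i = b i := fun i => count_flatMap_replicate b i
  refine ⟨T.map g, ?_, ?_⟩
  · intro a ha
    obtain ⟨i, _, rfl⟩ := List.mem_map.1 ha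
    have h1 : 0 < (its.get i).s := hs0 _ (List.get_mem _ _)
    have h2 : (its.get i).s ≤ L := hsL _ (List.get_mem _ _)
    have h1q : (0 : ℚ) < (its.get i).s := by exact_mod_cast h1
    have h2q : ((its.get i).s : ℚ) ≤ L := by exact_mod_cast h2
    constructor
    · exact div_pos h1q hLq
    · rw [hg, div_le_one hLq]; exact h2q
  · -- the integer side
    have hopt : K ≤ sInf {k : ℕ | ∃ f : Fin (T.map g).length → Fin k,
        ∀ j, ∑ x ∈ univ.filter (fun x => f x = j), (T.map g).get x ≤ 1} := by
      have hne : {k : ℕ | ∃ f : Fin (T.map g).length → Fin k,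
          ∀ j, ∑ x ∈ univ.filter (fun x => f x = j), (T.map g).get x ≤ 1}.Nonempty := by
        refine ⟨(T.map g).length, id, fun j => ?_⟩
        have : univ.filter (fun x : Fin (T.map g).length => id x = j) = {j} := by
          ext x; simp
        rw [this, Finset.sum_singleton]
        obtain ⟨i, _, hi⟩ := List.mem_map.1 (List.get_mem (T.map g) j)
        rw [← hi, hg, div_le_one hLq]
        exact_mod_cast hsL _ (List.get_mem _ _)
      have hmem := Nat.sInf_mem hne
      obtain ⟨f, hf⟩ := hmem
      have hbd := packing_bound its hd1 hd2 hd3 hd4 hd5 hs0 hL hg' hi hp hpat h0 g hg T f hf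
      simp only [hT] at hbd
      by_contra hlt
      have hlt' : sInf {k : ℕ | ∃ f : Fin (T.map g).length → Fin k,
          ∀ j, ∑ x ∈ univ.filter (fun x => f x = j), (T.map g).get x ≤ 1} ≤ K - 1 := by omega
      have := Nat.mul_le_mul_right D hlt'
      omega
    -- the fractional side
    have hmemT : ∀ σ, σ ∈ (T.map g).toFinset ↔ ∃ i, g i = σ := by
      intro σ
      simp only [List.mem_toFinset, List.mem_map]
      constructor
      · rintro ⟨i, _, h⟩; exact ⟨i, h⟩
      · rintro ⟨i, h⟩
        refine ⟨i, ?_, h⟩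
        rw [← List.count_pos_iff, hT]
        exact hb i
    have hset : (T.map g).toFinset = univ.image g := by
      ext σ
      rw [hmemT]
      simp
    let c : Fin t → ℚ → ℕ := fun j σ => ∑ i, if σ = g i then p j i else 0
    have hc : ∀ j i, c j (g i) = p j i := by
      intro j i
      simp only [c]
      rw [Finset.sum_eq_single i]
      · simp
      · intro i' _ hne
        rw [if_neg]
        exact fun h => hne (hginj h).symm
      · simp
    let z : Fin t → ℝ := fun j => (n j : ℝ) / Dz
    have hDzR : (0 : ℝ) < Dz := by exact_mod_cast hDz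
    have hlp : sInf {v : ℝ | ∃ (t : ℕ) (c : Fin t → ℚ → ℕ) (z : Fin t → ℝ),
          (∀ j, ∑ σ ∈ (T.map g).toFinset, σ * (c j σ : ℚ) ≤ 1) ∧ (∀ j, 0 ≤ z j) ∧
          (∀ σ ∈ (T.map g).toFinset, ((T.map g).count σ : ℝ) ≤ ∑ j, (c j σ : ℝ) * z j) ∧
            v = ∑ j, z j} ≤ ((∑ j, n j : ℕ) : ℝ) / Dz := by
      refine csInf_le ⟨0, ?_⟩ ⟨t, c, z, ?_, ?_, ?_, ?_⟩
      · rintro v ⟨t', c', z', _, hz, _, rfl⟩
        exact Finset.sum_nonneg fun j _ => hz j
      · intro j
        rw [hset, Finset.sum_image (fun a _ b _ h => hginj h)]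
        simp only [hc]
        have hpfq : ((∑ i, p j i * (its.get i).s : ℕ) : ℚ) ≤ L := by exact_mod_cast hpf j
        have : (∑ i, g i * (p j i : ℚ)) = ((∑ i, p j i * (its.get i).s : ℕ) : ℚ) / L := by
          push_cast
          rw [Finset.sum_div]
          refine Finset.sum_congr rfl fun i _ => ?_
          rw [hg]
          ring
        rw [this, div_le_one hLq]
        exact hpfq
      · intro j
        positivity
      · intro σ hσ
        obtain ⟨i, rfl⟩ := (hmemT σ).1 hσ
        rw [List.count_map_of_injective _ _ hginj, hT]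
        simp only [hc, z]
        have hq : ((b i * Dz : ℕ) : ℝ) ≤ ((∑ j, p j i * n j : ℕ) : ℝ) := by
          exact_mod_cast hcov i
        push_cast at hq
        have : (∑ j, (p j i : ℝ) * ((n j : ℝ) / Dz)) = (∑ j, (p j i : ℝ) * (n j : ℝ)) / Dz := by
          rw [Finset.sum_div]
          refine Finset.sum_congr rfl fun j _ => ?_
          ring
        rw [this, le_div_iff₀ hDzR]
        exact hq
      · simp only [z]
        push_cast
        rw [Finset.sum_div]
    have hKR : (K : ℝ) ≤ ((sInf {k : ℕ | ∃ f : Fin (T.map g).length → Fin k,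
        ∀ j, ∑ x ∈ univ.filter (fun x => f x = j), (T.map g).get x ≤ 1} : ℕ) : ℝ) := by
      exact_mod_cast hopt
    linarith

end Vale.Agent.P302
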